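import Vale.Agent.P205.Top.Defs

/-!
Block TOP of P205, F0: local orthonormal frames of the normal bundle and the smooth unit normal
field obtained from a transversal field.
-/

open scoped Manifold ContDiff Topology RealInnerProductSpace
open Set Filter MeasureTheory Module

noncomputable section

namespace Vale.Agent.P205.Top

section FrameLin

/-- the adjoint as a real linear map -/
def adjL (n : ℕ) : (EuclideanSpace ℝ (Fin n) →L[ℝ] R4) →L[ℝ] (R4 →L[ℝ] EuclideanSpace ℝ (Fin n)) :=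
  LinearMap.mkContinuous
    { toFun := fun A => ContinuousLinearMap.adjoint A
      map_add' := fun A B => by simp
      map_smul' := fun c A => by simp } 1 (fun A => by simp)

theorem adjL_apply {n : ℕ} (A : EuclideanSpace ℝ (Fin n) →L[ℝ] R4) :
    adjL n A = ContinuousLinearMap.adjoint A := rfl

/-- the projection to the orthogonal complement of the range of an injective map -/
def prN {n : ℕ} (B : EuclideanSpace ℝ (Fin n) →L[ℝ] R4) : R4 →L[ℝ] R4 :=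
  ContinuousLinearMap.id ℝ R4 - B ∘L ((adjL n B) ∘L B).inverse ∘L (adjL n B)

theorem gram_invertible {n : ℕ} (B : EuclideanSpace ℝ (Fin n) →L[ℝ] R4)
    (hB : Function.Injective B) : ((adjL n B) ∘L B).IsInvertible := by
  have hinj : Function.Injective ((adjL n B) ∘L B) := by
    rw [injective_iff_map_eq_zero]
    intro v hv
    have h1 : ⟪(adjL n B) (B v), v⟫ = 0 := by
      have : (adjL n B) (B v) = 0 := hv
      rw [this, inner_zero_left]
    rw [adjL_apply, ContinuousLinearMap.adjoint_inner_left] at h1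
    have h2 : B v = 0 := by simpa using h1
    exact hB (by rw [h2, map_zero])
  refine ⟨ContinuousLinearEquiv.ofBijective _ (LinearMap.ker_eq_bot.mpr hinj)
    (LinearMap.range_eq_top.mpr ?_), ?_⟩
  · exact LinearMap.injective_iff_surjective.mp hinj
  · ext v
    simp

theorem prN_eq {n : ℕ} (B : EuclideanSpace ℝ (Fin n) →L[ℝ] R4)
    (hB : Function.Injective B) {K : Submodule ℝ R4} (hK : ∀ w, w ∈ K ↔ ∃ v, B v = w) (w : R4) :
    prN B w = Kᗮ.starProjection w := by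
  obtain ⟨e, he⟩ := gram_invertible B hB
  have hinv : ((adjL n B) ∘L B).inverse = (e.symm : _ →L[ℝ] _) := by
    rw [← he, ContinuousLinearMap.inverse_equiv]
  symm
  refine Submodule.eq_starProjection_of_mem_of_inner_eq_zero (K := Kᗮ) ?_ ?_
  · rw [Submodule.mem_orthogonal']
    intro u hu
    obtain ⟨v, rfl⟩ := (hK u).mp hu
    have h1 : (adjL n B) (prN B w) = 0 := by
      have h2 : (adjL n B) (B (e.symm ((adjL n B) w))) = (adjL n B) w := by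
        have h3 : ((adjL n B) ∘L B) (e.symm ((adjL n B) w)) = e (e.symm ((adjL n B) w)) := by
          rw [← he]; rfl
        rw [ContinuousLinearEquiv.apply_symm_apply] at h3
        exact h3
      simp only [prN, hinv, sub_apply, ContinuousLinearMap.comp_apply,
        ContinuousLinearMap.id_apply, map_sub]
      rw [sub_eq_zero]
      exact h2.symm
    rw [adjL_apply] at h1
    rw [← ContinuousLinearMap.adjoint_inner_left, h1, inner_zero_left]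
  · intro u hu
    have hmem : w - prN B w ∈ K := by
      rw [hK]
      refine ⟨e.symm ((adjL n B) w), ?_⟩
      simp [prN, hinv]
    exact Submodule.inner_right_of_mem_orthogonal hmem hu

theorem contDiffAt_prN {n : ℕ} (B : EuclideanSpace ℝ (Fin n) →L[ℝ] R4)
    (hB : Function.Injective B) : ContDiffAt ℝ ∞ (prN (n := n)) B := by
  unfold prN
  have h1 : ContDiffAt ℝ ∞ (fun B : EuclideanSpace ℝ (Fin n) →L[ℝ] R4 => adjL n B) B :=
    (adjL n).contDiff.contDiffAt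
  have h2 : ContDiffAt ℝ ∞ (fun B : EuclideanSpace ℝ (Fin n) →L[ℝ] R4 => (adjL n B) ∘L B) B :=
    h1.clm_comp contDiffAt_id
  have h3 : ContDiffAt ℝ ∞ (fun B : EuclideanSpace ℝ (Fin n) →L[ℝ] R4 =>
      ((adjL n B) ∘L B).inverse) B :=
    ContDiffAt.comp (g := ContinuousLinearMap.inverse)
      (f := fun B : EuclideanSpace ℝ (Fin n) →L[ℝ] R4 => (adjL n B) ∘L B) B
      ((gram_invertible B hB).contDiffAt_map_inverse) h2
  exact contDiffAt_const.sub (contDiffAt_id.clm_comp (h3.clm_comp h1))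

end FrameLin

section FrameMfd

variable {E : Type*} [NormedAddCommGroup E] [NormedSpace ℝ E] [FiniteDimensional ℝ E]
  {M : Type*} [TopologicalSpace M] [ChartedSpace E M] [IsManifold 𝓘(ℝ, E) ∞ M]

/-- the range of the derivative -/
def rg (F : M → R4) (q : M) : Submodule ℝ R4 where
  carrier := {w | ∃ v : TangentSpace 𝓘(ℝ, E) q, mfderiv 𝓘(ℝ, E) 𝓘(ℝ, R4) F q v = w}
  add_mem' := by
    rintro _ _ ⟨a, rfl⟩ ⟨b, rfl⟩
    exact ⟨a + b, map_add _ a b⟩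
  zero_mem' := ⟨0, map_zero _⟩
  smul_mem' := by
    rintro c _ ⟨a, rfl⟩
    exact ⟨c • a, map_smul _ c a⟩

omit [FiniteDimensional ℝ E] in
/-- local smooth representation of the derivative -/
theorem exists_coord {F : M → R4} (hF : Imm (E := E) F) (p : M) :
    ∃ A : M → (E →L[ℝ] R4), ContMDiffAt 𝓘(ℝ, E) 𝓘(ℝ, E →L[ℝ] R4) ∞ A p ∧
      ∀ q ∈ (chartAt E p).source, Function.Injective (A q) ∧
        ∀ w : R4, w ∈ rg (E := E) F q ↔ ∃ v, A q v = w := by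
  refine ⟨inTangentCoordinates 𝓘(ℝ, E) 𝓘(ℝ, R4) id F (mfderiv 𝓘(ℝ, E) 𝓘(ℝ, R4) F) p,
    (hF.sm p).mfderiv_const (by simp), ?_⟩
  intro q hq
  have h1 : inTangentCoordinates 𝓘(ℝ, E) 𝓘(ℝ, R4) id F (mfderiv 𝓘(ℝ, E) 𝓘(ℝ, R4) F) p q =
      (mfderiv 𝓘(ℝ, R4) 𝓘(ℝ, R4) (extChartAt 𝓘(ℝ, R4) (F p)) (F q)) ∘L
        (mfderiv 𝓘(ℝ, E) 𝓘(ℝ, R4) F q) ∘L
        (mfderivWithin 𝓘(ℝ, E) 𝓘(ℝ, E) (extChartAt 𝓘(ℝ, E) p).symm (range 𝓘(ℝ, E))
          (extChartAt 𝓘(ℝ, E) p q)) :=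
    inTangentCoordinates_eq_mfderiv_comp (I := 𝓘(ℝ, E)) (I' := 𝓘(ℝ, R4)) (f := id) hq
      (by rw [chartAt_self_eq]; exact mem_univ _)
  have h2 : mfderiv 𝓘(ℝ, R4) 𝓘(ℝ, R4) (extChartAt 𝓘(ℝ, R4) (F p)) (F q) =
      ContinuousLinearMap.id ℝ R4 := by
    have h3 : (extChartAt 𝓘(ℝ, R4) (F p) : R4 → R4) = id := by
      rw [extChartAt_model_space_eq_id]; rfl
    rw [h3]
    exact mfderiv_id
  obtain ⟨e, he⟩ := isInvertible_mfderivWithin_extChartAt_symm (I := 𝓘(ℝ, E)) (x := p)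
    (y := extChartAt 𝓘(ℝ, E) p q) ((extChartAt 𝓘(ℝ, E) p).map_source (by simpa using hq))
  have hA : ∀ v : E, inTangentCoordinates 𝓘(ℝ, E) 𝓘(ℝ, R4) id F
      (mfderiv 𝓘(ℝ, E) 𝓘(ℝ, R4) F) p q v = mfderiv 𝓘(ℝ, E) 𝓘(ℝ, R4) F q (e v) := by
    intro v
    rw [h1, h2, ← he]
    rfl
  refine ⟨fun a b hab => e.injective (hF.inj q ?_), fun w => ⟨?_, ?_⟩⟩
  · rw [← hA, ← hA]
    exact hab
  · rintro ⟨v, hv⟩
    exact ⟨(e.symm v : E), (hA _).trans
      ((congrArg (mfderiv 𝓘(ℝ, E) 𝓘(ℝ, R4) F q) (e.apply_symm_apply v)).trans hv)⟩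
  · rintro ⟨v, hv⟩
    exact ⟨e v, by rw [← hA]; exact hv⟩

/-- the orthogonal projection to the normal space -/
def PN (F : M → R4) (q : M) : R4 →L[ℝ] R4 := (rg (E := E) F q)ᗮ.starProjection

theorem contMDiff_PN {F : M → R4} (hF : Imm (E := E) F) :
    ContMDiff 𝓘(ℝ, E) 𝓘(ℝ, R4 →L[ℝ] R4) ∞ (PN (E := E) F) := by
  intro p
  obtain ⟨A, hA, hA2⟩ := exists_coord hF p
  have e : EuclideanSpace ℝ (Fin (finrank ℝ E)) ≃L[ℝ] E :=
    ContinuousLinearEquiv.ofFinrankEq (by simp)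
  have hB : ContMDiffAt 𝓘(ℝ, E) 𝓘(ℝ, EuclideanSpace ℝ (Fin (finrank ℝ E)) →L[ℝ] R4) ∞
      (fun q => (A q) ∘L (e : EuclideanSpace ℝ (Fin (finrank ℝ E)) →L[ℝ] E)) p :=
    hA.clm_comp contMDiffAt_const
  have hinj : ∀ q ∈ (chartAt E p).source, Function.Injective
      ((A q) ∘L (e : EuclideanSpace ℝ (Fin (finrank ℝ E)) →L[ℝ] E)) := by
    intro q hq a b hab
    exact e.injective ((hA2 q hq).1 hab)
  have h1 := ContDiffAt.comp_contMDiffAt (g := prN (n := finrank ℝ E))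
    (f := fun q => (A q) ∘L (e : EuclideanSpace ℝ (Fin (finrank ℝ E)) →L[ℝ] E)) (x := p)
    (contDiffAt_prN _ (hinj p (mem_chart_source E p))) hB
  refine h1.congr_of_eventuallyEq ?_
  filter_upwards [(chartAt E p).open_source.mem_nhds (mem_chart_source E p)] with q hq
  ext w : 1
  symm
  refine prN_eq _ (hinj q hq) (fun w => ?_) w
  rw [(hA2 q hq).2 w]
  constructor
  · rintro ⟨v, hv⟩
    exact ⟨e.symm v, by simpa using hv⟩
  · rintro ⟨v, hv⟩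
    exact ⟨e v, hv⟩

omit [FiniteDimensional ℝ E] [IsManifold 𝓘(ℝ, E) ∞ M] in
theorem PN_mem (F : M → R4) (q : M) (w : R4) : PN (E := E) F q w ∈ (rg (E := E) F q)ᗮ :=
  Submodule.starProjection_apply_mem _ _

omit [FiniteDimensional ℝ E] [IsManifold 𝓘(ℝ, E) ∞ M] in
theorem orth_of_mem {F : M → R4} {q : M} {w : R4} (hw : w ∈ (rg (E := E) F q)ᗮ)
    (v : TangentSpace 𝓘(ℝ, E) q) : ⟪w, mfderiv 𝓘(ℝ, E) 𝓘(ℝ, R4) F q v⟫ = 0 :=
  Submodule.inner_left_of_mem_orthogonal (K := rg (E := E) F q) ⟨v, rfl⟩ hw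

omit [FiniteDimensional ℝ E] [IsManifold 𝓘(ℝ, E) ∞ M] in
theorem mem_of_orth {F : M → R4} {q : M} {w : R4}
    (hw : ∀ v : TangentSpace 𝓘(ℝ, E) q, ⟪w, mfderiv 𝓘(ℝ, E) 𝓘(ℝ, R4) F q v⟫ = 0) :
    w ∈ (rg (E := E) F q)ᗮ := by
  rw [Submodule.mem_orthogonal']
  rintro u ⟨v, rfl⟩
  exact hw v

theorem contDiffAt_unit {w : R4} (hw : w ≠ 0) : ContDiffAt ℝ ∞ (fun x : R4 => ‖x‖⁻¹ • x) w :=
  ((contDiffAt_norm ℝ hw).inv (norm_ne_zero_iff.mpr hw)).smul contDiffAt_id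

theorem norm_unit {w : R4} (hw : w ≠ 0) : ‖(‖w‖⁻¹ • w)‖ = 1 := by
  rw [norm_smul, norm_inv, norm_norm, inv_mul_cancel₀ (norm_ne_zero_iff.mpr hw)]

/-- F0: local orthonormal frame of the normal bundle -/
theorem exists_frame (hE : finrank ℝ E = 2) {F : M → R4} (hF : Imm (E := E) F) (p : M) :
    ∃ (O : Set M) (n1 n2 : M → R4), IsOpen O ∧ p ∈ O ∧
      ContMDiffOn 𝓘(ℝ, E) 𝓘(ℝ, R4) ∞ n1 O ∧ ContMDiffOn 𝓘(ℝ, E) 𝓘(ℝ, R4) ∞ n2 O ∧
      ∀ q ∈ O, ‖n1 q‖ = 1 ∧ ‖n2 q‖ = 1 ∧ ⟪n1 q, n2 q⟫ = 0 ∧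
        (∀ v : TangentSpace 𝓘(ℝ, E) q, ⟪n1 q, mfderiv 𝓘(ℝ, E) 𝓘(ℝ, R4) F q v⟫ = 0) ∧
        (∀ v : TangentSpace 𝓘(ℝ, E) q, ⟪n2 q, mfderiv 𝓘(ℝ, E) 𝓘(ℝ, R4) F q v⟫ = 0) ∧
        ∀ η : R4, (∀ v : TangentSpace 𝓘(ℝ, E) q, ⟪η, mfderiv 𝓘(ℝ, E) 𝓘(ℝ, R4) F q v⟫ = 0) →
          η = ⟪n1 q, η⟫ • n1 q + ⟪n2 q, η⟫ • n2 q := by
  have hK : ∀ q, finrank ℝ (rg (E := E) F q)ᗮ = 2 := by
    intro q
    have h1 : finrank ℝ (rg (E := E) F q) = 2 := by
      rw [← hE]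
      exact LinearMap.finrank_range_of_inj
        (f := (mfderiv 𝓘(ℝ, E) 𝓘(ℝ, R4) F q : E →L[ℝ] R4).toLinearMap) (hF.inj q)
    have h2 := Submodule.finrank_add_finrank_orthogonal (rg (E := E) F q)
    rw [h1, finrank_euclideanSpace_fin] at h2
    omega
  let b : OrthonormalBasis (Fin 2) ℝ (rg (E := E) F p)ᗮ :=
    (stdOrthonormalBasis ℝ (rg (E := E) F p)ᗮ).reindex (finCongr (hK p))
  set c1 : R4 := (b 0 : R4) with hc1
  set c2 : R4 := (b 1 : R4) with hc2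
  have hc1n : ‖c1‖ = 1 := b.orthonormal.1 0
  have hc2n : ‖c2‖ = 1 := b.orthonormal.1 1
  have hc12 : ⟪c1, c2⟫ = 0 := b.orthonormal.2 (show (0 : Fin 2) ≠ 1 by decide)
  set w1 : M → R4 := fun q => PN (E := E) F q c1 with hw1
  set w2 : M → R4 := fun q => PN (E := E) F q c2 with hw2
  have hw1s : ContMDiff 𝓘(ℝ, E) 𝓘(ℝ, R4) ∞ w1 := (contMDiff_PN hF).clm_apply contMDiff_const
  have hw2s : ContMDiff 𝓘(ℝ, E) 𝓘(ℝ, R4) ∞ w2 := (contMDiff_PN hF).clm_apply contMDiff_const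
  have hw1p : w1 p = c1 := Submodule.starProjection_eq_self_iff.mpr (b 0).2
  have hw2p : w2 p = c2 := Submodule.starProjection_eq_self_iff.mpr (b 1).2
  set U : R4 × R4 → R4 := fun x => ⟪x.1, x.1⟫ • x.2 - ⟪x.1, x.2⟫ • x.1 with hU
  have hUs : ContDiff ℝ ∞ U :=
    ((contDiff_fst.inner ℝ contDiff_fst).smul contDiff_snd).sub
      ((contDiff_fst.inner ℝ contDiff_snd).smul contDiff_fst)
  set u : M → R4 := fun q => U (w1 q, w2 q) with hu
  have hus : ContMDiff 𝓘(ℝ, E) 𝓘(ℝ, R4) ∞ u := fun q =>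
    ContDiffAt.comp_contMDiffAt (g := U) (f := fun q => (w1 q, w2 q)) (x := q)
      hUs.contDiffAt ((hw1s q).prodMk_space (hw2s q))
  have hup : u p = c2 := by
    simp only [hu, hU, hw1p, hw2p, hc12, real_inner_self_eq_norm_sq, hc1n]
    simp
  refine ⟨{q | w1 q ≠ 0 ∧ u q ≠ 0}, fun q => ‖w1 q‖⁻¹ • w1 q, fun q => ‖u q‖⁻¹ • u q, ?_, ?_, ?_,
    ?_, ?_⟩
  · exact (isOpen_ne_fun hw1s.continuous continuous_const).inter
      (isOpen_ne_fun hus.continuous continuous_const)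
  · refine ⟨?_, ?_⟩
    · rw [hw1p, ← norm_ne_zero_iff, hc1n]; exact one_ne_zero
    · rw [hup, ← norm_ne_zero_iff, hc2n]; exact one_ne_zero
  · intro q hq
    exact (ContDiffAt.comp_contMDiffAt (g := fun x : R4 => ‖x‖⁻¹ • x) (f := w1) (x := q)
      (contDiffAt_unit hq.1) (hw1s q)).contMDiffWithinAt
  · intro q hq
    exact (ContDiffAt.comp_contMDiffAt (g := fun x : R4 => ‖x‖⁻¹ • x) (f := u) (x := q)
      (contDiffAt_unit hq.2) (hus q)).contMDiffWithinAt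
  · rintro q ⟨hq1, hq2⟩
    have hm1 : w1 q ∈ (rg (E := E) F q)ᗮ := PN_mem F q c1
    have hm2 : w2 q ∈ (rg (E := E) F q)ᗮ := PN_mem F q c2
    have hmu : u q ∈ (rg (E := E) F q)ᗮ :=
      Submodule.sub_mem _ (Submodule.smul_mem _ _ hm2) (Submodule.smul_mem _ _ hm1)
    have ho : ⟪w1 q, u q⟫ = 0 := by
      simp only [hu, hU, inner_sub_right, real_inner_smul_right]
      ring
    have hn1 : ‖w1 q‖⁻¹ • w1 q ∈ (rg (E := E) F q)ᗮ := Submodule.smul_mem _ _ hm1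
    have hn2 : ‖u q‖⁻¹ • u q ∈ (rg (E := E) F q)ᗮ := Submodule.smul_mem _ _ hmu
    have ho' : ⟪‖w1 q‖⁻¹ • w1 q, ‖u q‖⁻¹ • u q⟫ = 0 := by
      rw [real_inner_smul_left, real_inner_smul_right, ho, mul_zero, mul_zero]
    refine ⟨norm_unit hq1, norm_unit hq2, ho', orth_of_mem hn1, orth_of_mem hn2, ?_⟩
    intro η hη
    have hηm := mem_of_orth hη
    let v : Fin 2 → (rg (E := E) F q)ᗮ := ![⟨_, hn1⟩, ⟨_, hn2⟩]
    have hv : Orthonormal ℝ v := by
      constructor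
      · intro i
        fin_cases i
        · exact norm_unit hq1
        · exact norm_unit hq2
      · intro i j hij
        fin_cases i <;> fin_cases j
        · exact absurd rfl hij
        · exact ho'
        · exact (real_inner_comm _ _).trans ho'
        · exact absurd rfl hij
    have hsp : ⊤ ≤ Submodule.span ℝ (range v) := by
      rw [hv.linearIndependent.span_eq_top_of_card_eq_finrank (by rw [hK q]; rfl)]
    have h3 := (OrthonormalBasis.mk hv hsp).sum_repr' ⟨η, hηm⟩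
    have h4 := congrArg (Subtype.val) h3
    rw [Fin.sum_univ_two] at h4
    simp only [OrthonormalBasis.coe_mk] at h4
    exact h4.symm

variable [CompactSpace M] [T2Space M]

set_option linter.unusedSectionVars false in
/-- from a transversal field to a unit normal field -/
theorem unit_of_transversal {F ζ : M → R4} (hF : Imm (E := E) F)
    (hζ : ContMDiff 𝓘(ℝ, E) 𝓘(ℝ, R4) ∞ ζ)
    (h : ∀ p (v : TangentSpace 𝓘(ℝ, E) p), mfderiv 𝓘(ℝ, E) 𝓘(ℝ, R4) F p v ≠ ζ p) :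
    ∃ q : M → R4, Nor (E := E) F q ∧ ∀ p, ‖q p‖ = 1 := by
  have hs : ContMDiff 𝓘(ℝ, E) 𝓘(ℝ, R4) ∞ (fun p => PN (E := E) F p (ζ p)) :=
    (contMDiff_PN hF).clm_apply hζ
  have hne : ∀ p, PN (E := E) F p (ζ p) ≠ 0 := by
    intro p hp
    have h1 : ζ p ∈ (rg (E := E) F p)ᗮᗮ :=
      (Submodule.starProjection_apply_eq_zero_iff _).mp hp
    rw [Submodule.orthogonal_orthogonal] at h1
    obtain ⟨v, hv⟩ := h1
    exact h p v hv
  refine ⟨fun p => ‖PN (E := E) F p (ζ p)‖⁻¹ • PN (E := E) F p (ζ p), ⟨?_, ?_⟩, ?_⟩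
  · intro p
    exact ContDiffAt.comp_contMDiffAt (g := fun x : R4 => ‖x‖⁻¹ • x)
      (f := fun p => PN (E := E) F p (ζ p)) (x := p) (contDiffAt_unit (hne p)) (hs p)
  · intro p v
    exact orth_of_mem (Submodule.smul_mem _ _ (PN_mem F p (ζ p))) v
  · intro p
    exact norm_unit (hne p)

end FrameMfd

end Vale.Agent.P205.Top
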