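import Vale.Agent.P205.Top.Defs
import Vale.Agent.P205.TW.Sard

/-!
Block E of TOP (P205): a smooth normal field with finitely many zeros, namely the normal
component of a generic constant vector.
-/

open scoped Manifold ContDiff Topology RealInnerProductSpace
open Set Filter MeasureTheory Module

noncomputable section

namespace Vale.Agent.P205.Top

section Proj

/-- the Euclidean plane -/
abbrev EnfR2 : Type := EuclideanSpace ℝ (Fin 2)

/-- the adjoint as a real linear map -/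
def enfAdj : (EnfR2 →L[ℝ] R4) →L[ℝ] (R4 →L[ℝ] EnfR2) :=
  LinearMap.toContinuousLinearMap
    { toFun := fun L => ContinuousLinearMap.adjoint L
      map_add' := fun a b => map_add _ a b
      map_smul' := fun r a => by simp }

theorem enfAdj_inner (L : EnfR2 →L[ℝ] R4) (y : R4) (x : EnfR2) :
    ⟪enfAdj L y, x⟫ = ⟪y, L x⟫ := by
  simp [enfAdj, ContinuousLinearMap.adjoint_inner_left]

/-- the Gram operator -/
def enfG (L : EnfR2 →L[ℝ] R4) : EnfR2 →L[ℝ] EnfR2 := (enfAdj L).comp L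

/-- the left inverse with kernel the orthogonal complement of the range -/
def enfInv (L : EnfR2 →L[ℝ] R4) : R4 →L[ℝ] EnfR2 :=
  (Ring.inverse (enfG L)).comp (enfAdj L)

theorem enfG_unit {L : EnfR2 →L[ℝ] R4} (h : Function.Injective L) : IsUnit (enfG L) := by
  have hinj : Function.Injective (enfG L : EnfR2 →ₗ[ℝ] EnfR2) := by
    rw [← LinearMap.ker_eq_bot, LinearMap.ker_eq_bot']
    intro x hx
    have h1 : enfAdj L (L x) = 0 := hx
    have h2 : ⟪L x, L x⟫ = 0 := by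
      rw [← enfAdj_inner, h1, inner_zero_left]
    have h3 : L x = 0 := inner_self_eq_zero.1 h2
    exact h (by rw [h3, map_zero])
  refine ⟨ContinuousLinearEquiv.toUnit
    (LinearEquiv.ofInjectiveEndo (enfG L : EnfR2 →ₗ[ℝ] EnfR2) hinj).toContinuousLinearEquiv, ?_⟩
  apply ContinuousLinearMap.ext
  intro x
  rfl

theorem enfInv_apply {L : EnfR2 →L[ℝ] R4} (h : Function.Injective L) (u : EnfR2) :
    enfInv L (L u) = u := by
  have h1 := Ring.inverse_mul_cancel _ (enfG_unit h)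
  have h2 := congrArg (fun g : EnfR2 →L[ℝ] EnfR2 => g u) h1
  simpa [enfInv, enfG] using h2

theorem enf_orth {L : EnfR2 →L[ℝ] R4} (h : Function.Injective L) (c : R4) (u : EnfR2) :
    ⟪c - L (enfInv L c), L u⟫ = 0 := by
  rw [← enfAdj_inner, map_sub]
  have h1 := Ring.mul_inverse_cancel _ (enfG_unit h)
  have h2 := congrArg (fun g : EnfR2 →L[ℝ] EnfR2 => g (enfAdj L c)) h1
  have h3 : enfAdj L (L (enfInv L c)) = enfAdj L c := by
    simpa [enfInv, enfG] using h2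
  rw [h3, sub_self, inner_zero_left]

theorem enf_unique {L L' : EnfR2 →L[ℝ] R4} (h : Function.Injective L)
    (h' : Function.Injective L') (h1 : ∀ u, ∃ u', L u = L' u') (h2 : ∀ u', ∃ u, L' u' = L u)
    (c : R4) : L (enfInv L c) = L' (enfInv L' c) := by
  obtain ⟨a, ha⟩ := h1 (enfInv L c)
  obtain ⟨b, hb⟩ := h2 (enfInv L' c)
  set d := L (enfInv L c) - L' (enfInv L' c) with hd
  have e1 : ⟪c - L (enfInv L c), d⟫ = 0 := by
    rw [hd, hb, ← map_sub]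
    exact enf_orth h c _
  have e2 : ⟪c - L' (enfInv L' c), d⟫ = 0 := by
    rw [hd, ha, ← map_sub]
    exact enf_orth h' c _
  have e3 : ⟪d, d⟫ = 0 := by
    have : d = (c - L' (enfInv L' c)) - (c - L (enfInv L c)) := by rw [hd]; abel
    calc ⟪d, d⟫ = ⟪(c - L' (enfInv L' c)) - (c - L (enfInv L c)), d⟫ := by rw [← this]
      _ = 0 := by rw [inner_sub_left, e1, e2, sub_zero]
  exact sub_eq_zero.1 (inner_self_eq_zero.1 e3)

theorem enfInv_contDiffAt {L : EnfR2 →L[ℝ] R4} (h : Function.Injective L) :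
    ContDiffAt ℝ ∞ enfInv L := by
  have h1 : ContDiffAt ℝ ∞ enfAdj L := enfAdj.contDiff.contDiffAt
  have h2 : ContDiffAt ℝ ∞ enfG L := h1.clm_comp contDiffAt_id
  obtain ⟨u, hu⟩ := enfG_unit h
  have h3 : ContDiffAt ℝ ∞ (Ring.inverse : (EnfR2 →L[ℝ] EnfR2) → (EnfR2 →L[ℝ] EnfR2))
      (enfG L) := by
    rw [← hu]
    exact contDiffAt_ringInverse ℝ u
  have h4 : ContDiffAt ℝ ∞ (fun L => Ring.inverse (enfG L)) L := h3.comp L h2
  exact h4.clm_comp h1

end Proj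

section Chart

variable {E : Type*} [NormedAddCommGroup E] [NormedSpace ℝ E] [FiniteDimensional ℝ E]
  {M : Type*} [TopologicalSpace M] [ChartedSpace E M] [IsManifold 𝓘(ℝ, E) ∞ M]

/-- the derivative of `F` read on the Euclidean plane -/
def enfD (F : M → R4) (T : EnfR2 ≃L[ℝ] E) (p : M) : EnfR2 →L[ℝ] R4 :=
  ContinuousLinearMap.comp (mfderiv 𝓘(ℝ, E) 𝓘(ℝ, R4) F p : E →L[ℝ] R4) (T : EnfR2 →L[ℝ] E)

/-- the derivative of `F` in the chart at `p0` -/
def enfC (F : M → R4) (T : EnfR2 ≃L[ℝ] E) (p0 : M) (x : E) : EnfR2 →L[ℝ] R4 :=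
  (fderiv ℝ (F ∘ (extChartAt 𝓘(ℝ, E) p0).symm) x).comp (T : EnfR2 →L[ℝ] E)

omit [FiniteDimensional ℝ E] in
theorem enf_smooth {F : M → R4} (hF : ContMDiff 𝓘(ℝ, E) 𝓘(ℝ, R4) ∞ F) (p0 : M) :
    ContDiffOn ℝ ∞ (F ∘ (extChartAt 𝓘(ℝ, E) p0).symm) (extChartAt 𝓘(ℝ, E) p0).target := by
  have h := hF.comp_contMDiffOn (contMDiffOn_extChartAt_symm (I := 𝓘(ℝ, E)) (n := ∞) p0)
  exact contMDiffOn_iff_contDiffOn.1 h

omit [FiniteDimensional ℝ E] in
theorem enfC_smooth {F : M → R4} (hF : ContMDiff 𝓘(ℝ, E) 𝓘(ℝ, R4) ∞ F) (T : EnfR2 ≃L[ℝ] E)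
    (p0 : M) : ContDiffOn ℝ ∞ (enfC F T p0) (extChartAt 𝓘(ℝ, E) p0).target := by
  have h := (enf_smooth hF p0).fderiv_of_isOpen (m := ∞) (isOpen_extChartAt_target p0) (by simp)
  exact h.clm_comp contDiffOn_const

omit [FiniteDimensional ℝ E] in
/-- comparison of the two derivatives -/
theorem enf_compare {F : M → R4} (hF : ContMDiff 𝓘(ℝ, E) 𝓘(ℝ, R4) ∞ F) (T : EnfR2 ≃L[ℝ] E)
    {p0 p : M} (hp : p ∈ (extChartAt 𝓘(ℝ, E) p0).source) :
    ∃ B : EnfR2 ≃L[ℝ] EnfR2, ∀ u, enfD F T p u = enfC F T p0 (extChartAt 𝓘(ℝ, E) p0 p) (B u) := by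
  have : IsManifold 𝓘(ℝ, E) 1 M := IsManifold.of_le (n := ∞) (by simp)
  have hps : p ∈ (chartAt E p0).source := by simpa using hp
  have hA' := isInvertible_mfderiv_extChartAt (I := 𝓘(ℝ, E)) hp
  set φ := extChartAt 𝓘(ℝ, E) p0 with hφ
  have h1 : mfderiv 𝓘(ℝ, E) 𝓘(ℝ, R4) F p =
      (fderiv ℝ (F ∘ φ.symm) (φ p) : E →L[ℝ] R4).comp (mfderiv 𝓘(ℝ, E) 𝓘(ℝ, E) φ p : E →L[ℝ] E) := by
    have h2 : F =ᶠ[𝓝 p] (F ∘ φ.symm) ∘ φ := by
      filter_upwards [(isOpen_extChartAt_source (I := 𝓘(ℝ, E)) p0).mem_nhds hp] with q hq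
      simp only [Function.comp_apply]
      rw [φ.left_inv hq]
    have h3 : MDifferentiableAt 𝓘(ℝ, E) 𝓘(ℝ, E) φ p := mdifferentiableAt_extChartAt hps
    have h4 : MDifferentiableAt 𝓘(ℝ, E) 𝓘(ℝ, R4) (F ∘ φ.symm) (φ p) := by
      have := ((enf_smooth hF p0).contDiffAt
        ((isOpen_extChartAt_target p0).mem_nhds (φ.map_source hp))).differentiableAt (by simp)
      exact this.mdifferentiableAt
    rw [h2.mfderiv_eq, mfderiv_comp p h4 h3, mfderiv_eq_fderiv]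
    rfl
  obtain ⟨A, hA⟩ : ∃ A : E ≃L[ℝ] E, (A : E →L[ℝ] E) = mfderiv 𝓘(ℝ, E) 𝓘(ℝ, E) φ p := hA'
  refine ⟨(T.trans A).trans T.symm, fun u => ?_⟩
  simp only [enfD, enfC, h1, ← hA]
  change fderiv ℝ (F ∘ φ.symm) (φ p) (A (T u)) =
    fderiv ℝ (F ∘ φ.symm) (φ p) (T (T.symm (A (T u))))
  rw [T.apply_symm_apply]

omit [FiniteDimensional ℝ E] [IsManifold 𝓘(ℝ, E) ∞ M] in
theorem enfD_inj {F : M → R4} (hF : Imm (E := E) F) (T : EnfR2 ≃L[ℝ] E) (p : M) :
    Function.Injective (enfD F T p) := by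
  intro u v h
  exact T.injective (hF.inj p h)

theorem enfC_inj {F : M → R4} (hF : Imm (E := E) F) (T : EnfR2 ≃L[ℝ] E)
    {p0 p : M} (hp : p ∈ (extChartAt 𝓘(ℝ, E) p0).source) :
    Function.Injective (enfC F T p0 (extChartAt 𝓘(ℝ, E) p0 p)) := by
  obtain ⟨B, hB⟩ := enf_compare hF.sm T hp
  intro u v h
  have h1 : enfD F T p (B.symm u) = enfD F T p (B.symm v) := by
    rw [hB, hB]
    simpa using h
  exact B.symm.injective (enfD_inj hF T p h1)

/-- the normal component of the constant vector `c` -/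
def enfXi (F : M → R4) (T : EnfR2 ≃L[ℝ] E) (c : R4) (p : M) : R4 :=
  c - enfD F T p (enfInv (enfD F T p) c)

theorem enfXi_eq {F : M → R4} (hF : Imm (E := E) F) (T : EnfR2 ≃L[ℝ] E) (c : R4)
    {p0 p : M} (hp : p ∈ (extChartAt 𝓘(ℝ, E) p0).source) :
    enfXi F T c p = c - enfC F T p0 (extChartAt 𝓘(ℝ, E) p0 p)
      (enfInv (enfC F T p0 (extChartAt 𝓘(ℝ, E) p0 p)) c) := by
  obtain ⟨B, hB⟩ := enf_compare hF.sm T hp
  unfold enfXi
  rw [enf_unique (enfD_inj hF T p) (enfC_inj hF T hp) (fun u => ⟨B u, hB u⟩)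
    (fun u => ⟨B.symm u, by rw [hB]; simp⟩) c]

theorem enfXi_smooth {F : M → R4} (hF : Imm (E := E) F) (T : EnfR2 ≃L[ℝ] E) (c : R4) :
    ContMDiff 𝓘(ℝ, E) 𝓘(ℝ, R4) ∞ (enfXi F T c) := by
  intro p0
  have hp0 : p0 ∈ (extChartAt 𝓘(ℝ, E) p0).source := mem_extChartAt_source p0
  have ht : (extChartAt 𝓘(ℝ, E) p0).target ∈ 𝓝 (extChartAt 𝓘(ℝ, E) p0 p0) :=
    (isOpen_extChartAt_target p0).mem_nhds (mem_extChartAt_target p0)
  have h1 : ContDiffAt ℝ ∞ (enfC F T p0) (extChartAt 𝓘(ℝ, E) p0 p0) :=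
    (enfC_smooth hF.sm T p0).contDiffAt ht
  have h2 : ContDiffAt ℝ ∞ (fun x => enfInv (enfC F T p0 x)) (extChartAt 𝓘(ℝ, E) p0 p0) :=
    (enfInv_contDiffAt (enfC_inj hF T hp0)).comp _ h1
  have h3 : ContDiffAt ℝ ∞ (fun x => c - enfC F T p0 x (enfInv (enfC F T p0 x) c))
      (extChartAt 𝓘(ℝ, E) p0 p0) :=
    contDiffAt_const.sub (h1.clm_apply (h2.clm_apply contDiffAt_const))
  have h4 : ContMDiffAt 𝓘(ℝ, E) 𝓘(ℝ, R4) ∞
      ((fun x => c - enfC F T p0 x (enfInv (enfC F T p0 x) c)) ∘ extChartAt 𝓘(ℝ, E) p0) p0 :=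
    (h3.contMDiffAt).comp p0 contMDiffAt_extChartAt
  refine h4.congr_of_eventuallyEq ?_
  filter_upwards [extChartAt_source_mem_nhds (I := 𝓘(ℝ, E)) p0] with p hp
  exact enfXi_eq hF T c hp

theorem enfXi_nor {F : M → R4} (hF : Imm (E := E) F) (T : EnfR2 ≃L[ℝ] E) (c : R4) :
    Nor (E := E) F (enfXi F T c) := by
  refine ⟨enfXi_smooth hF T c, fun p v => ?_⟩
  have h := enf_orth (enfD_inj hF T p) c (T.symm v)
  have h2 : enfD F T p (T.symm v) = mfderiv 𝓘(ℝ, E) 𝓘(ℝ, R4) F p v :=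
    congrArg (fun w : E => (mfderiv 𝓘(ℝ, E) 𝓘(ℝ, R4) F p : E →L[ℝ] R4) w)
      (T.apply_symm_apply (v : E))
  rw [h2] at h
  exact h

/-- generic constant vectors: the solutions in a chart are isolated -/
theorem enf_generic {F : M → R4} (hF : Imm (E := E) F) (hE : finrank ℝ E = 2)
    (T : EnfR2 ≃L[ℝ] E) (p0 : M) :
    ∀ᵐ c ∂(volume : Measure R4), ∀ x ∈ (extChartAt 𝓘(ℝ, E) p0).target, ∀ u : EnfR2,
      enfC F T p0 x u = c →
        ∀ᶠ y in 𝓝 ((x, u) : E × EnfR2), enfC F T p0 y.1 y.2 = c → y = (x, u) := by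
  have hdim : finrank ℝ (E × EnfR2) = finrank ℝ R4 := by
    rw [Module.finrank_prod, hE]
    simp
  set S : (E × EnfR2) ≃L[ℝ] R4 := ContinuousLinearEquiv.ofFinrankEq hdim with hS
  set s : Set R4 := S.symm ⁻¹' ((extChartAt 𝓘(ℝ, E) p0).target ×ˢ univ) with hs
  have hso : IsOpen s :=
    ((isOpen_extChartAt_target p0).prod isOpen_univ).preimage S.symm.continuous
  set g : E × EnfR2 → R4 := fun y => enfC F T p0 y.1 y.2 with hg
  have hgc : ContDiffOn ℝ 1 g ((extChartAt 𝓘(ℝ, E) p0).target ×ˢ univ) := by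
    have h1 : ContDiffOn ℝ 1 (fun y : E × EnfR2 => enfC F T p0 y.1)
        ((extChartAt 𝓘(ℝ, E) p0).target ×ˢ univ) :=
      ((enfC_smooth hF.sm T p0).of_le (by simp)).comp contDiffOn_fst (fun y hy => hy.1)
    exact h1.clm_apply contDiffOn_snd
  have hfc : ContDiffOn ℝ 1 (g ∘ S.symm) s :=
    hgc.comp S.symm.contDiff.contDiffOn (fun z hz => hz)
  filter_upwards [TW.ae_isolated_of_contDiffOn volume hso hfc] with c hc x hx u hu
  have hmem : S (x, u) ∈ s := by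
    change S.symm (S (x, u)) ∈ (extChartAt 𝓘(ℝ, E) p0).target ×ˢ (univ : Set EnfR2)
    rw [S.symm_apply_apply]
    exact ⟨hx, mem_univ _⟩
  have h1 := hc (S (x, u)) hmem (by simpa [hg] using hu)
  have h2 : Tendsto (fun y : E × EnfR2 => S y) (𝓝 (x, u)) (𝓝 (S (x, u))) :=
    S.continuous.tendsto _
  filter_upwards [h2.eventually h1] with y hy hyc
  exact S.injective (hy (by simpa [hg] using hyc))

theorem enf_isolated {F : M → R4} (hF : Imm (E := E) F) (T : EnfR2 ≃L[ℝ] E) (p0 : M) {c : R4}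
    (hc : ∀ x ∈ (extChartAt 𝓘(ℝ, E) p0).target, ∀ u : EnfR2, enfC F T p0 x u = c →
      ∀ᶠ y in 𝓝 ((x, u) : E × EnfR2), enfC F T p0 y.1 y.2 = c → y = (x, u))
    {p : M} (hp : p ∈ (extChartAt 𝓘(ℝ, E) p0).source) (h0 : enfXi F T c p = 0) :
    ∀ᶠ q in 𝓝 p, enfXi F T c q = 0 → q = p := by
  set φ := extChartAt 𝓘(ℝ, E) p0 with hφ
  have ht : φ.target ∈ 𝓝 (φ p) := (isOpen_extChartAt_target p0).mem_nhds (φ.map_source hp)
  have h1 : ContinuousAt (enfC F T p0) (φ p) := ((enfC_smooth hF.sm T p0).contDiffAt ht).continuousAt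
  have h2 : ContinuousAt (fun x => enfInv (enfC F T p0 x)) (φ p) :=
    ContinuousAt.comp (enfInv_contDiffAt (enfC_inj hF T hp)).continuousAt h1
  have h3 : ContinuousAt (fun x => ((x, enfInv (enfC F T p0 x) c) : E × EnfR2)) (φ p) :=
    continuousAt_id.prodMk (h2.clm_apply continuousAt_const)
  have h4 : ContinuousAt φ p := continuousAt_extChartAt' hp
  have h5 : Tendsto (fun q => ((φ q, enfInv (enfC F T p0 (φ q)) c) : E × EnfR2)) (𝓝 p)
      (𝓝 (φ p, enfInv (enfC F T p0 (φ p)) c)) := ContinuousAt.comp h3 h4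
  have e0 : enfC F T p0 (φ p) (enfInv (enfC F T p0 (φ p)) c) = c := by
    have := enfXi_eq hF T c hp
    rw [h0] at this
    exact (sub_eq_zero.1 this.symm).symm
  have h6 := hc (φ p) (φ.map_source hp) _ e0
  filter_upwards [h5.eventually h6, (isOpen_extChartAt_source (I := 𝓘(ℝ, E)) p0).mem_nhds hp]
    with q hq hqs hq0
  have e1 : enfC F T p0 (φ q) (enfInv (enfC F T p0 (φ q)) c) = c := by
    have := enfXi_eq hF T c hqs
    rw [hq0] at this
    exact (sub_eq_zero.1 this.symm).symm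
  have e2 := hq e1
  exact φ.injOn hqs hp (Prod.ext_iff.1 e2).1

variable [CompactSpace M] [T2Space M]

/-- E -/
theorem exists_nor_finite (hE : finrank ℝ E = 2) {F : M → R4} (hF : Imm (E := E) F) :
    ∃ ξ : M → R4, Nor (E := E) F ξ ∧ {p | ξ p = 0}.Finite := by
  have hdim : finrank ℝ EnfR2 = finrank ℝ E := by
    rw [hE]
    simp
  set T : EnfR2 ≃L[ℝ] E := ContinuousLinearEquiv.ofFinrankEq hdim with hT
  obtain ⟨t, ht⟩ := CompactSpace.elim_nhds_subcover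
    (fun p : M => (extChartAt 𝓘(ℝ, E) p).source) (fun p => extChartAt_source_mem_nhds p)
  have hae : ∀ᵐ c ∂(volume : Measure R4), ∀ p0 ∈ t, ∀ x ∈ (extChartAt 𝓘(ℝ, E) p0).target,
      ∀ u : EnfR2, enfC F T p0 x u = c →
        ∀ᶠ y in 𝓝 ((x, u) : E × EnfR2), enfC F T p0 y.1 y.2 = c → y = (x, u) :=
    (ae_ball_iff t.countable_toSet).2 fun p0 _ => enf_generic hF hE T p0
  obtain ⟨c, hc⟩ := hae.exists
  refine ⟨enfXi F T c, enfXi_nor hF T c, ?_⟩
  have hclosed : IsClosed {p : M | enfXi F T c p = 0} :=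
    isClosed_eq (enfXi_smooth hF T c).continuous continuous_const
  refine hclosed.isCompact.finite (IsDiscrete.of_nhdsWithin fun p hp => ?_)
  have hpt : p ∈ ⋃ x ∈ t, (extChartAt 𝓘(ℝ, E) x).source := by
    rw [ht]
    trivial
  obtain ⟨p0, hp0, hps⟩ := mem_iUnion₂.1 hpt
  have h1 := enf_isolated hF T p0 (hc p0 hp0) hps hp
  rw [le_pure_iff, mem_nhdsWithin_iff_eventually]
  filter_upwards [h1] with q hq hq0
  exact hq hq0

end Chart

end Vale.Agent.P205.Top
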