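import Vale.Agent.P205.Top.Plane
import Vale.Agent.P205.Top.Frame
import Vale.Agent.P205.Top.Fin

/-!
Block TOP of P205, part F: absorption of the zeros of a normal field into one point.
-/

open scoped Manifold ContDiff Topology RealInnerProductSpace
open Set Filter MeasureTheory Module

noncomputable section

namespace Vale.Agent.P205.Top

section Surface2

variable {E : Type*} [NormedAddCommGroup E] [NormedSpace ℝ E] [FiniteDimensional ℝ E]
  {M : Type*} [TopologicalSpace M] [ChartedSpace E M] [IsManifold 𝓘(ℝ, E) ∞ M]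

lemma absorb_inner_comb {a b w : R4} (α β : ℝ) (ha : ⟪a, w⟫ = 0) (hb : ⟪b, w⟫ = 0) :
    ⟪α • a + β • b, w⟫ = 0 := by
  rw [inner_add_left, inner_smul_left, inner_smul_left, ha, hb]
  simp

/-- a complex chart on a small disc -/
structure AbsorbChart (E : Type*) [NormedAddCommGroup E] [NormedSpace ℝ E]
    {M : Type*} [TopologicalSpace M] [ChartedSpace E M] (p : M) (O : Set M) where
  R : ℝ
  U : Set M
  z : M → ℂ
  σ : ℂ → M
  hR : 0 < R
  hU : IsOpen U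
  pU : p ∈ U
  zp0 : z p = 0
  sub : U ⊆ O
  zσ : ∀ c, ‖c‖ < R → σ c ∈ U ∧ z (σ c) = c
  σz : ∀ x ∈ U, ‖z x‖ < R ∧ σ (z x) = x
  zs : ContMDiffOn 𝓘(ℝ, E) 𝓘(ℝ, ℂ) ∞ z U
  σs : ContMDiffOn 𝓘(ℝ, ℂ) 𝓘(ℝ, E) ∞ σ {c | ‖c‖ < R}

lemma AbsorbChart.closed [T2Space M] {p : M} {O : Set M} (A : AbsorbChart E p O) {r : ℝ}
    (hr : r < A.R) : IsClosed {x | x ∈ A.U ∧ ‖A.z x‖ ≤ r} := by
  have h1 : {x | x ∈ A.U ∧ ‖A.z x‖ ≤ r} = A.σ '' Metric.closedBall (0 : ℂ) r := by
    ext x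
    constructor
    · rintro ⟨hx, hxr⟩
      exact ⟨A.z x, by simpa using hxr, (A.σz x hx).2⟩
    · rintro ⟨c, hc, rfl⟩
      have hc' : ‖c‖ ≤ r := by simpa using hc
      obtain ⟨h2, h3⟩ := A.zσ c (lt_of_le_of_lt hc' hr)
      exact ⟨h2, by rw [h3]; exact hc'⟩
  rw [h1]
  have h2 : ContinuousOn A.σ (Metric.closedBall (0 : ℂ) r) := by
    refine A.σs.continuousOn.mono ?_
    intro c hc
    have hc' : ‖c‖ ≤ r := by simpa using hc
    exact lt_of_le_of_lt hc' hr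
  exact ((isCompact_closedBall (0 : ℂ) r).image_of_continuousOn h2).isClosed

lemma exists_absorbChart (hE : finrank ℝ E = 2) (p : M) {O : Set M} (hO : O ∈ 𝓝 p) :
    Nonempty (AbsorbChart E p O) := by
  have hfr : finrank ℝ E = finrank ℝ ℂ := by rw [hE, Complex.finrank_real_complex]
  let L : E ≃L[ℝ] ℂ := ContinuousLinearEquiv.ofFinrankEq hfr
  set φ := extChartAt 𝓘(ℝ, E) p with hφ
  have ht : φ.target ∈ 𝓝 (φ p) := extChartAt_target_mem_nhds p
  have hc : ContinuousAt φ.symm (φ p) := continuousAt_extChartAt_symm p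
  have hsym : φ.symm (φ p) = p := extChartAt_to_inv p
  have h1 : {y | y ∈ φ.target ∧ φ.symm y ∈ O} ∈ 𝓝 (φ p) := by
    refine inter_mem ht ?_
    refine hc.preimage_mem_nhds ?_
    rw [hsym]
    exact hO
  have h2 : ContinuousAt (fun c : ℂ => L.symm c + φ p) 0 := by fun_prop
  have h3 : (fun c : ℂ => L.symm c + φ p) ⁻¹' {y | y ∈ φ.target ∧ φ.symm y ∈ O} ∈ 𝓝 (0 : ℂ) := by
    refine h2.preimage_mem_nhds ?_
    simpa using h1
  obtain ⟨R, hR, hball⟩ := Metric.mem_nhds_iff.mp h3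
  have hb : ∀ c : ℂ, ‖c‖ < R → L.symm c + φ p ∈ φ.target ∧ φ.symm (L.symm c + φ p) ∈ O := by
    intro c hc'
    exact hball (by simpa using hc')
  have hzc : ContMDiffOn 𝓘(ℝ, E) 𝓘(ℝ, ℂ) ∞ (fun x => L (φ x) - L (φ p)) φ.source := by
    have e1 : ContMDiffOn 𝓘(ℝ, E) 𝓘(ℝ, E) ∞ φ φ.source := by
      rw [hφ, extChartAt_source]
      exact contMDiffOn_extChartAt
    have e2 : ContDiff ℝ ∞ (fun y : E => L y - L (φ p)) := by fun_prop
    exact e2.contMDiff.comp_contMDiffOn e1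
  refine ⟨{ R := R
            U := φ.source ∩ {x | ‖L (φ x) - L (φ p)‖ < R}
            z := fun x => L (φ x) - L (φ p)
            σ := fun c => φ.symm (L.symm c + φ p)
            hR := hR
            hU := ?_
            pU := ?_
            zp0 := by simp
            sub := ?_
            zσ := ?_
            σz := ?_
            zs := hzc.mono inter_subset_left
            σs := ?_ }⟩
  · have := hzc.continuousOn.norm.isOpen_inter_preimage (isOpen_extChartAt_source p)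
      (isOpen_Iio (a := R))
    exact this
  · exact ⟨mem_extChartAt_source p, by simpa using hR⟩
  · rintro x ⟨hx, hxR⟩
    have h5 := (hb _ hxR).2
    have h6 : L.symm (L (φ x) - L (φ p)) + φ p = φ x := by simp
    rw [h6, φ.left_inv hx] at h5
    exact h5
  · intro c hc'
    have h5 := hb c hc'
    have h6 : φ (φ.symm (L.symm c + φ p)) = L.symm c + φ p := φ.right_inv h5.1
    have h7 : L (φ (φ.symm (L.symm c + φ p))) - L (φ p) = c := by
      rw [h6, map_add]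
      simp
    refine ⟨⟨φ.map_target h5.1, ?_⟩, h7⟩
    show ‖L (φ (φ.symm (L.symm c + φ p))) - L (φ p)‖ < R
    rw [h7]
    exact hc'
  · rintro x ⟨hx, hxR⟩
    refine ⟨hxR, ?_⟩
    have h6 : L.symm (L (φ x) - L (φ p)) + φ p = φ x := by simp
    show φ.symm (L.symm (L (φ x) - L (φ p)) + φ p) = x
    rw [h6, φ.left_inv hx]
  · have e1 : ContMDiffOn 𝓘(ℝ, E) 𝓘(ℝ, E) ∞ φ.symm φ.target := contMDiffOn_extChartAt_symm p
    have e2 : ContDiff ℝ ∞ (fun c : ℂ => L.symm c + φ p) := by fun_prop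
    exact e1.comp e2.contMDiff.contMDiffOn (fun c hc' => (hb c hc').1)

variable [CompactSpace M] [T2Space M]

/-- F2: absorption inside a small set -/
theorem absorb_local (hE : finrank ℝ E = 2) {F : M → R4} (hF : Imm (E := E) F) (p : M) :
    ∃ O ∈ 𝓝 p, ∀ a ∈ O, ∀ b ∈ O, ∀ ξ : M → R4, Nor (E := E) F ξ → {x | ξ x = 0}.Finite →
      ∃ ξ' : M → R4, Nor (E := E) F ξ' ∧ {x | ξ' x = 0} ⊆ ({x | ξ x = 0} \ {a}) ∪ {b} := by
  classical
  obtain ⟨O1, n1, n2, hO1, hp1, hn1, hn2, hfr⟩ := exists_frame hE hF p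
  obtain ⟨A⟩ := exists_absorbChart (E := E) hE p (hO1.mem_nhds hp1)
  have hR4 : 0 < A.R / 4 := by have := A.hR; linarith
  refine ⟨{x | x ∈ A.U ∧ ‖A.z x‖ < A.R / 4}, ?_, ?_⟩
  · have h1 : IsOpen {x | x ∈ A.U ∧ ‖A.z x‖ < A.R / 4} :=
      A.zs.continuousOn.norm.isOpen_inter_preimage A.hU (isOpen_Iio (a := A.R / 4))
    exact h1.mem_nhds ⟨A.pU, by rw [A.zp0]; simpa using A.hR⟩
  rintro a ⟨haU, ha⟩ b ⟨hbU, hb⟩ ξ hξ hfin
  -- the function on the disc
  let g : ℂ → ℂ := fun c => ((⟪n1 (A.σ c), ξ (A.σ c)⟫ : ℝ) : ℂ) +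
    ((⟪n2 (A.σ c), ξ (A.σ c)⟫ : ℝ) : ℂ) * Complex.I
  have hgre : ∀ c, (g c).re = ⟪n1 (A.σ c), ξ (A.σ c)⟫ := by intro c; simp [g]
  have hgim : ∀ c, (g c).im = ⟪n2 (A.σ c), ξ (A.σ c)⟫ := by intro c; simp [g]
  have hmaps : MapsTo A.σ {c | ‖c‖ < A.R} O1 := fun c hc => A.sub (A.zσ c hc).1
  have hgs : ContDiffOn ℝ ∞ g {c | ‖c‖ < A.R} := by
    have s1 : ContDiffOn ℝ ∞ (fun c => n1 (A.σ c)) {c | ‖c‖ < A.R} :=
      contMDiffOn_iff_contDiffOn.mp (hn1.comp A.σs hmaps)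
    have s2 : ContDiffOn ℝ ∞ (fun c => n2 (A.σ c)) {c | ‖c‖ < A.R} :=
      contMDiffOn_iff_contDiffOn.mp (hn2.comp A.σs hmaps)
    have s3 : ContDiffOn ℝ ∞ (fun c => ξ (A.σ c)) {c | ‖c‖ < A.R} :=
      contMDiffOn_iff_contDiffOn.mp (hξ.sm.comp_contMDiffOn A.σs)
    have i1 : ContDiffOn ℝ ∞ (fun c => (⟪n1 (A.σ c), ξ (A.σ c)⟫ : ℝ)) {c | ‖c‖ < A.R} :=
      s1.inner ℝ s3
    have i2 : ContDiffOn ℝ ∞ (fun c => (⟪n2 (A.σ c), ξ (A.σ c)⟫ : ℝ)) {c | ‖c‖ < A.R} :=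
      s2.inner ℝ s3
    exact (Complex.ofRealCLM.contDiff.comp_contDiffOn i1).add
      ((Complex.ofRealCLM.contDiff.comp_contDiffOn i2).mul contDiffOn_const)
  have hexp : ∀ x ∈ A.U, ξ x = ⟪n1 x, ξ x⟫ • n1 x + ⟪n2 x, ξ x⟫ • n2 x := by
    intro x hx
    exact (hfr x (A.sub hx)).2.2.2.2.2 (ξ x) (fun v => hξ.orth x v)
  have hg0 : ∀ c, ‖c‖ < A.R → g c = 0 → ξ (A.σ c) = 0 := by
    intro c hc h0
    have hre : ⟪n1 (A.σ c), ξ (A.σ c)⟫ = 0 := by rw [← hgre, h0]; rfl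
    have him : ⟪n2 (A.σ c), ξ (A.σ c)⟫ = 0 := by rw [← hgim, h0]; rfl
    rw [hexp _ (A.zσ c hc).1, hre, him]
    simp
  -- an annulus without zeros
  obtain ⟨r1, r2, hr1, hr12, hr2, hfree⟩ : ∃ r1 r2 : ℝ, A.R / 4 < r1 ∧ r1 < r2 ∧ r2 < A.R ∧
      ∀ x ∈ A.U, r1 < ‖A.z x‖ → ‖A.z x‖ < r2 → ξ x ≠ 0 := by
    have hf2 : ((fun x => ‖A.z x‖) '' {x | ξ x = 0}).Finite := hfin.image _
    have hinf : (Ioo (A.R / 4) (A.R / 2)).Infinite := Ioo_infinite (by linarith)
    obtain ⟨r, hr, hrn⟩ := (hinf.sdiff hf2).nonempty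
    have hop : IsOpen (Ioo (A.R / 4) (A.R / 2) ∩ ((fun x => ‖A.z x‖) '' {x | ξ x = 0})ᶜ) :=
      isOpen_Ioo.inter hf2.isClosed.isOpen_compl
    obtain ⟨ε, hε, hball⟩ := Metric.isOpen_iff.mp hop r ⟨hr, hrn⟩
    have hm : ∀ s, |s - r| < ε → s ∈ Ioo (A.R / 4) (A.R / 2) ∧
        s ∉ (fun x => ‖A.z x‖) '' {x | ξ x = 0} := by
      intro s hs
      exact hball (by rwa [Metric.mem_ball, Real.dist_eq])
    refine ⟨r - ε / 2, r + ε / 2, ?_, by linarith, ?_, ?_⟩
    · exact (hm (r - ε / 2) (by rw [abs_lt]; constructor <;> linarith)).1.1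
    · have := (hm (r + ε / 2) (by rw [abs_lt]; constructor <;> linarith)).1.2
      have := A.hR
      linarith
    · intro x _ h1 h2 h0
      exact (hm ‖A.z x‖ (by rw [abs_lt]; constructor <;> linarith)).2 ⟨x, h0, rfl⟩
  have hr1p : 0 < r1 := by linarith
  obtain ⟨g', hg's, hg'eq, hg'0⟩ := exists_absorb (r1 := r1) (r2 := r2) (R := A.R) hr1p hr12 hr2
    (g := g) hgs (by
      intro c h1 h2 h0
      have hcR : ‖c‖ < A.R := h2.trans hr2
      have h3 := A.zσ c hcR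
      exact hfree (A.σ c) h3.1 (by rw [h3.2]; exact h1) (by rw [h3.2]; exact h2) (hg0 c hcR h0))
    (q := A.z b) (hb.trans hr1)
  let ξ' : M → R4 := fun x => if x ∈ A.U then
    (g' (A.z x)).re • n1 x + (g' (A.z x)).im • n2 x else ξ x
  have hin : ∀ x ∈ A.U, ξ' x = (g' (A.z x)).re • n1 x + (g' (A.z x)).im • n2 x := by
    intro x hx
    simp [ξ', hx]
  have hout : ∀ x, (x ∈ A.U → r2 ≤ ‖A.z x‖) → ξ' x = ξ x := by
    intro x hx
    by_cases hxU : x ∈ A.U
    · rw [hin x hxU, hg'eq _ (hx hxU), hgre, hgim, (A.σz x hxU).2]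
      exact (hexp x hxU).symm
    · simp [ξ', hxU]
  refine ⟨ξ', ⟨?_, ?_⟩, ?_⟩
  · intro x
    by_cases hxU : x ∈ A.U
    · have e0 : ContMDiffOn 𝓘(ℝ, E) 𝓘(ℝ, ℂ) ∞ (fun x => g' (A.z x)) A.U :=
        (contMDiffOn_iff_contDiffOn.mpr hg's).comp A.zs (fun x hx => (A.σz x hx).1)
      have e1 : ContMDiffOn 𝓘(ℝ, E) 𝓘(ℝ, ℝ) ∞ (fun x => (g' (A.z x)).re) A.U :=
        Complex.reCLM.contDiff.contMDiff.comp_contMDiffOn e0
      have e2 : ContMDiffOn 𝓘(ℝ, E) 𝓘(ℝ, ℝ) ∞ (fun x => (g' (A.z x)).im) A.U :=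
        Complex.imCLM.contDiff.contMDiff.comp_contMDiffOn e0
      have e3 : ContMDiffOn 𝓘(ℝ, E) 𝓘(ℝ, R4) ∞
          (fun x => (g' (A.z x)).re • n1 x + (g' (A.z x)).im • n2 x) A.U :=
        (e1.smul (hn1.mono A.sub)).add (e2.smul (hn2.mono A.sub))
      have e4 : ContMDiffOn 𝓘(ℝ, E) 𝓘(ℝ, R4) ∞ ξ' A.U := e3.congr hin
      exact e4.contMDiffAt (A.hU.mem_nhds hxU)
    · have hcl := A.closed hr2
      have hx : x ∈ {x | x ∈ A.U ∧ ‖A.z x‖ ≤ r2}ᶜ := fun h => hxU h.1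
      have hev : ξ' =ᶠ[𝓝 x] ξ := by
        filter_upwards [hcl.isOpen_compl.mem_nhds hx] with y hy
        exact hout y (fun hyU => (not_le.mp fun h => hy ⟨hyU, h⟩).le)
      exact (hξ.sm x).congr_of_eventuallyEq hev
  · intro x v
    by_cases hxU : x ∈ A.U
    · rw [hin x hxU]
      have h4 := (hfr x (A.sub hxU)).2.2.2.1 v
      have h5 := (hfr x (A.sub hxU)).2.2.2.2.1 v
      exact absorb_inner_comb _ _ h4 h5
    · rw [hout x (fun h => absurd h hxU)]
      exact hξ.orth x v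
  · intro x hx
    have hx0 : ξ' x = 0 := hx
    by_cases hxU : x ∈ A.U
    · by_cases hlt : ‖A.z x‖ < r2
      · right
        obtain ⟨k1, k2, k3, -⟩ := hfr x (A.sub hxU)
        have h1 := hin x hxU
        rw [hx0] at h1
        have hre : (g' (A.z x)).re = 0 := by
          have h2 : ⟪n1 x, (g' (A.z x)).re • n1 x + (g' (A.z x)).im • n2 x⟫ = 0 := by
            rw [← h1]; simp
          rw [inner_add_right, inner_smul_right, inner_smul_right, k3,
            real_inner_self_eq_norm_sq, k1] at h2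
          simpa using h2
        have him : (g' (A.z x)).im = 0 := by
          have h2 : ⟪n2 x, (g' (A.z x)).re • n1 x + (g' (A.z x)).im • n2 x⟫ = 0 := by
            rw [← h1]; simp
          rw [inner_add_right, inner_smul_right, inner_smul_right, real_inner_comm, k3,
            real_inner_self_eq_norm_sq, k2] at h2
          simpa using h2
        have h0 : g' (A.z x) = 0 := Complex.ext hre him
        have h3 := hg'0 _ hlt h0
        have h4 : x = b := by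
          rw [← (A.σz x hxU).2, h3, (A.σz b hbU).2]
        exact h4
      · left
        have h1 := hout x (fun _ => not_lt.mp hlt)
        refine ⟨?_, ?_⟩
        · show ξ x = 0
          rw [← h1]
          exact hx0
        · intro hxa
          have hxa' : x = a := hxa
          rw [hxa'] at hlt
          exact hlt (by linarith)
    · left
      have h1 := hout x (fun h => absurd h hxU)
      refine ⟨?_, ?_⟩
      · show ξ x = 0
        rw [← h1]
        exact hx0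
      · intro hxa
        have hxa' : x = a := hxa
        exact hxU (hxa' ▸ haU)

/-- F: absorption into one point -/
theorem absorb [ConnectedSpace M] (hE : finrank ℝ E = 2) {F : M → R4} (hF : Imm (E := E) F)
    (p0 : M) : ∃ ξ : M → R4, Nor (E := E) F ξ ∧ ∀ x, ξ x = 0 → x = p0 := by
  classical
  -- the set of points which can be absorbed into `p0`
  let S : Set M := {a | ∀ ξ : M → R4, Nor (E := E) F ξ → {x | ξ x = 0}.Finite →
    ∃ ξ' : M → R4, Nor (E := E) F ξ' ∧ {x | ξ' x = 0} ⊆ ({x | ξ x = 0} \ {a}) ∪ {p0}}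
  have hstep : ∀ p : M, ∃ O ∈ 𝓝 p, (∃ b ∈ O, b ∈ S) → O ⊆ S := by
    intro p
    obtain ⟨O, hO, hO2⟩ := absorb_local hE hF p
    refine ⟨O, hO, ?_⟩
    rintro ⟨b, hbO, hbS⟩ a haO ξ hξ hfin
    obtain ⟨ξ1, hξ1, hz1⟩ := hO2 a haO b hbO ξ hξ hfin
    have hfin1 : {x | ξ1 x = 0}.Finite :=
      ((hfin.subset sdiff_subset).union (finite_singleton b)).subset hz1
    obtain ⟨ξ2, hξ2, hz2⟩ := hbS ξ1 hξ1 hfin1
    refine ⟨ξ2, hξ2, ?_⟩
    intro x hx
    rcases hz2 hx with ⟨hx1, hxb⟩ | hx1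
    · rcases hz1 hx1 with hx2 | hx2
      · exact Or.inl hx2
      · exact absurd hx2 hxb
    · exact Or.inr hx1
  have hp0 : p0 ∈ S := by
    intro ξ hξ _
    refine ⟨ξ, hξ, ?_⟩
    intro x hx
    by_cases h : x = p0
    · exact Or.inr h
    · exact Or.inl ⟨hx, h⟩
  have hopen : IsOpen S := by
    rw [isOpen_iff_mem_nhds]
    intro p hp
    obtain ⟨O, hO, hO2⟩ := hstep p
    exact mem_of_superset hO (hO2 ⟨p, mem_of_mem_nhds hO, hp⟩)
  have hclosed : IsClosed S := by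
    rw [← isOpen_compl_iff, isOpen_iff_mem_nhds]
    intro p hp
    obtain ⟨O, hO, hO2⟩ := hstep p
    refine mem_of_superset hO ?_
    intro b hb hbS
    exact hp (hO2 ⟨b, hb, hbS⟩ (mem_of_mem_nhds hO))
  have huniv : S = univ := IsClopen.eq_univ ⟨hclosed, hopen⟩ ⟨p0, hp0⟩
  obtain ⟨ξ0, hξ0, hfin0⟩ := exists_nor_finite hE hF
  have key : ∀ n : ℕ, ∀ ξ : M → R4, Nor (E := E) F ξ → {x | ξ x = 0}.Finite →
      ({x | ξ x = 0} \ {p0}).ncard ≤ n →
      ∃ ξ' : M → R4, Nor (E := E) F ξ' ∧ ∀ x, ξ' x = 0 → x = p0 := by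
    intro n
    induction n with
    | zero =>
      intro ξ hξ hfin hn
      refine ⟨ξ, hξ, ?_⟩
      intro x hx
      by_contra h
      have h1 : ({x | ξ x = 0} \ {p0}).ncard = 0 := Nat.le_zero.mp hn
      rw [Set.ncard_eq_zero (hfin.subset sdiff_subset)] at h1
      have h2 : x ∈ {x | ξ x = 0} \ {p0} := ⟨hx, h⟩
      rw [h1] at h2
      exact h2
    | succ n ih =>
      intro ξ hξ hfin hn
      by_cases hne : ({x | ξ x = 0} \ {p0}).Nonempty
      · obtain ⟨a, ha, hap⟩ := hne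
        have haS : a ∈ S := by rw [huniv]; exact mem_univ a
        obtain ⟨ξ1, hξ1, hz1⟩ := haS ξ hξ hfin
        have hfin1 : {x | ξ1 x = 0}.Finite :=
          ((hfin.subset sdiff_subset).union (finite_singleton p0)).subset hz1
        refine ih ξ1 hξ1 hfin1 ?_
        have hlt : {x | ξ1 x = 0} \ {p0} ⊂ {x | ξ x = 0} \ {p0} := by
          refine (ssubset_iff_of_subset ?_).mpr ⟨a, ⟨ha, hap⟩, ?_⟩
          · rintro x ⟨hx, hxp⟩
            rcases hz1 hx with hx1 | hx1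
            · exact ⟨hx1.1, hxp⟩
            · exact absurd hx1 hxp
          · rintro ⟨hx, hxp⟩
            rcases hz1 hx with hx1 | hx1
            · exact hx1.2 rfl
            · exact hxp hx1
        have := Set.ncard_lt_ncard hlt (hfin.subset sdiff_subset)
        omega
      · rw [Set.not_nonempty_iff_eq_empty] at hne
        refine ⟨ξ, hξ, ?_⟩
        intro x hx
        by_contra h
        have h2 : x ∈ {x | ξ x = 0} \ {p0} := ⟨hx, h⟩
        rw [hne] at h2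
        exact h2
  exact key _ ξ0 hξ0 hfin0 le_rfl

end Surface2

end Vale.Agent.P205.Top
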