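import Vale.Agent.P205.Top.Defs

/-!
Block D2 of TOP: an immersion can be made affine near a given point.
-/

open scoped Manifold ContDiff Topology RealInnerProductSpace
open Set Filter MeasureTheory Module

noncomputable section

namespace Vale.Agent.P205.Top

section Euclid

variable {E G : Type*} [NormedAddCommGroup E] [NormedSpace ℝ E] [FiniteDimensional ℝ E]
  [NormedAddCommGroup G] [NormedSpace ℝ G]

theorem flat_euclid {f : E → G} {U : Set E} (hU : IsOpen U) {x0 : E} (hx0 : x0 ∈ U)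
    (hf : ContDiffOn ℝ ∞ f U) (hinj : ∀ x ∈ U, Function.Injective (fderiv ℝ f x)) :
    ∃ (g : E → G) (r : ℝ), 0 < r ∧ Metric.closedBall x0 r ⊆ U ∧ ContDiffOn ℝ ∞ g U ∧
      (∀ x, x ∉ Metric.closedBall x0 r → g x = f x) ∧
      (∀ᶠ x in 𝓝 x0, g x = f x0 + fderiv ℝ f x0 (x - x0)) ∧
      ∀ x ∈ U, Function.Injective (fderiv ℝ g x) := by
  set A := fderiv ℝ f x0 with hA
  have hAinj : Function.Injective A := hinj x0 hx0
  have hfd : ∀ x ∈ U, HasFDerivAt f (fderiv ℝ f x) x := fun x hx =>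
    ((hf.contDiffAt (hU.mem_nhds hx)).differentiableAt (by simp)).hasFDerivAt
  obtain ⟨δ, hδ, hball⟩ := Metric.isOpen_iff.1
    (ContinuousLinearMap.isOpen_injective (𝕜 := ℝ) (E := E) (F := G)) A hAinj
  let χ0 : ContDiffBump (0 : E) := ⟨1 / 2, 1, by norm_num, by norm_num⟩
  have hχ0 : ContDiff ℝ 1 χ0 := χ0.contDiff
  obtain ⟨C0, hC0⟩ := (hχ0.continuous_fderiv (by norm_num)).bounded_above_of_compact_support
    (χ0.hasCompactSupport.fderiv (𝕜 := ℝ))
  have hC0' : 0 ≤ C0 := le_trans (norm_nonneg _) (hC0 0)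
  set ε := δ / (C0 + 3) with hε
  have hε0 : 0 < ε := by positivity
  have e1 : ∀ᶠ x in 𝓝 x0, ‖fderiv ℝ f x - A‖ < ε := by
    have hc : ContinuousAt (fderiv ℝ f) x0 :=
      ((hf.contDiffAt (hU.mem_nhds hx0)).fderiv_right (m := 0) (by simp)).continuousAt
    have := hc.eventually (Metric.ball_mem_nhds _ hε0)
    filter_upwards [this] with x hx
    simpa [dist_eq_norm] using hx
  have e2 : ∀ᶠ x in 𝓝 x0, ‖f x - f x0 - A (x - x0)‖ ≤ ε * ‖x - x0‖ :=
    (hfd x0 hx0).isLittleO.def hε0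
  obtain ⟨r, hr, hrb⟩ := Metric.eventually_nhds_iff_ball.1
    ((e1.and e2).and (hU.eventually_mem hx0))
  set ρ := r / 2 with hρ
  have hρ0 : 0 < ρ := by positivity
  have hsub : ∀ x ∈ Metric.closedBall x0 ρ, x ∈ Metric.ball x0 r := fun x hx =>
    Metric.closedBall_subset_ball (by rw [hρ]; linarith) hx
  let χ : E → ℝ := fun x => χ0 (ρ⁻¹ • (x - x0))
  have hχs : ContDiff ℝ ∞ χ := χ0.contDiff.comp ((contDiff_id.sub contDiff_const).const_smul _)
  have hχ1 : ∀ x, |χ x| ≤ 1 := fun x => by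
    rw [abs_of_nonneg (χ0.nonneg' _)]; exact χ0.le_one
  have hχd : ∀ x, HasFDerivAt χ (ρ⁻¹ • fderiv ℝ χ0 (ρ⁻¹ • (x - x0))) x := by
    intro x
    have h1 : HasFDerivAt (fun x : E => ρ⁻¹ • (x - x0)) (ρ⁻¹ • ContinuousLinearMap.id ℝ E) x :=
      ((hasFDerivAt_id x).sub_const x0).const_smul _
    have h2 : HasFDerivAt χ0 (fderiv ℝ χ0 (ρ⁻¹ • (x - x0))) (ρ⁻¹ • (x - x0)) :=
      (hχ0.differentiable (by norm_num) _).hasFDerivAt
    have h3 := h2.comp x h1
    have h4 : (fderiv ℝ χ0 (ρ⁻¹ • (x - x0))).comp (ρ⁻¹ • ContinuousLinearMap.id ℝ E) =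
        ρ⁻¹ • fderiv ℝ χ0 (ρ⁻¹ • (x - x0)) := by
      ext v
      simp
    rw [h4] at h3
    exact h3
  let h : E → G := fun x => f x0 + A (x - x0) - f x
  have hhd : ∀ x ∈ U, HasFDerivAt h (A - fderiv ℝ f x) x := by
    intro x hx
    have h1 : HasFDerivAt (fun x : E => A (x - x0)) A x := by
      have := A.hasFDerivAt.comp x ((hasFDerivAt_id x).sub_const x0)
      rw [ContinuousLinearMap.comp_id] at this
      exact this
    exact (h1.const_add (f x0)).sub (hfd x hx)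
  let g : E → G := fun x => f x + χ x • h x
  have hhs : ContDiffOn ℝ ∞ h U :=
    (contDiffOn_const.add (A.contDiff.comp_contDiffOn (contDiffOn_id.sub contDiffOn_const))).sub hf
  have hout : ∀ x, x ∉ Metric.closedBall x0 ρ → g x = f x := by
    intro x hx
    have : χ x = 0 := by
      apply χ0.zero_of_le_dist
      rw [dist_zero_right, norm_smul, norm_inv, Real.norm_of_nonneg hρ0.le]
      rw [Metric.mem_closedBall, not_le, dist_eq_norm] at hx
      show 1 ≤ _
      rw [inv_mul_eq_div, one_le_div hρ0]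
      exact hx.le
    simp only [g, this, zero_smul, add_zero]
  refine ⟨g, ρ, hρ0, ?_, ?_, hout, ?_, ?_⟩
  · intro x hx
    exact (hrb x (hsub x hx)).2
  · exact hf.add (hχs.contDiffOn.smul hhs)
  · have : ∀ᶠ x in 𝓝 x0, ‖x - x0‖ < ρ / 2 := by
      have := Metric.ball_mem_nhds x0 (half_pos hρ0)
      filter_upwards [this] with x hx
      simpa [dist_eq_norm] using hx
    filter_upwards [this] with x hx
    have h1 : χ x = 1 := by
      apply χ0.one_of_mem_closedBall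
      rw [Metric.mem_closedBall, dist_zero_right, norm_smul, norm_inv, Real.norm_of_nonneg hρ0.le]
      show _ ≤ 1 / 2
      rw [inv_mul_eq_div, div_le_iff₀ hρ0]
      linarith
    simp only [g, h, h1, one_smul]
    abel
  · intro x hx
    by_cases hxb : x ∈ Metric.closedBall x0 ρ
    · have hxr := (hrb x (hsub x hxb)).1
      have hgd : HasFDerivAt g (fderiv ℝ f x + (χ x • (A - fderiv ℝ f x) +
          (ρ⁻¹ • fderiv ℝ χ0 (ρ⁻¹ • (x - x0))).smulRight (h x))) x :=
        (hfd x hx).add ((hχd x).smul (hhd x hx))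
      rw [hgd.fderiv]
      apply hball
      rw [Metric.mem_ball, dist_eq_norm]
      have hxρ : ‖x - x0‖ ≤ ρ := by simpa [dist_eq_norm] using hxb
      have hh : ‖h x‖ ≤ ε * ρ := by
        have : h x = -(f x - f x0 - A (x - x0)) := by simp only [h]; abel
        rw [this, norm_neg]
        exact le_trans hxr.2 (mul_le_mul_of_nonneg_left hxρ hε0.le)
      have hd : ‖(ρ⁻¹ • fderiv ℝ χ0 (ρ⁻¹ • (x - x0))).smulRight (h x)‖ ≤ C0 * ε := by
        rw [ContinuousLinearMap.norm_smulRight_apply, norm_smul, norm_inv,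
          Real.norm_of_nonneg hρ0.le]
        have := mul_le_mul (hC0 (ρ⁻¹ • (x - x0))) hh (norm_nonneg _) hC0'
        calc ρ⁻¹ * ‖fderiv ℝ χ0 (ρ⁻¹ • (x - x0))‖ * ‖h x‖
            = ρ⁻¹ * (‖fderiv ℝ χ0 (ρ⁻¹ • (x - x0))‖ * ‖h x‖) := by ring
          _ ≤ ρ⁻¹ * (C0 * (ε * ρ)) := mul_le_mul_of_nonneg_left this (inv_nonneg.2 hρ0.le)
          _ = C0 * ε := by field_simp
      have h2 : ‖χ x • (A - fderiv ℝ f x)‖ ≤ ε := by
        rw [norm_smul, Real.norm_eq_abs, norm_sub_rev]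
        calc |χ x| * ‖fderiv ℝ f x - A‖ ≤ 1 * ε :=
              mul_le_mul (hχ1 x) hxr.1.le (norm_nonneg _) (by norm_num)
          _ = ε := one_mul _
      calc ‖fderiv ℝ f x + (χ x • (A - fderiv ℝ f x) +
          (ρ⁻¹ • fderiv ℝ χ0 (ρ⁻¹ • (x - x0))).smulRight (h x)) - A‖
          = ‖(fderiv ℝ f x - A) + χ x • (A - fderiv ℝ f x) +
          (ρ⁻¹ • fderiv ℝ χ0 (ρ⁻¹ • (x - x0))).smulRight (h x)‖ := by congr 1; abel
        _ ≤ ‖fderiv ℝ f x - A‖ + ‖χ x • (A - fderiv ℝ f x)‖ +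
          ‖(ρ⁻¹ • fderiv ℝ χ0 (ρ⁻¹ • (x - x0))).smulRight (h x)‖ := norm_add₃_le
        _ < ε + ε + C0 * ε := by linarith [hxr.1]
        _ ≤ δ := by
          rw [hε]
          have : δ / (C0 + 3) + δ / (C0 + 3) + C0 * (δ / (C0 + 3)) = δ * ((C0 + 2) / (C0 + 3)) := by
            field_simp; ring
          rw [this]
          have h3 : (C0 + 2) / (C0 + 3) ≤ 1 := by rw [div_le_one (by positivity)]; linarith
          nlinarith
    · have : g =ᶠ[𝓝 x] f := by
        filter_upwards [Metric.isClosed_closedBall.isOpen_compl.mem_nhds hxb] with y hy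
        exact hout y hy
      rw [this.fderiv_eq]
      exact hinj x hx

end Euclid

section Surface

variable {E : Type*} [NormedAddCommGroup E] [NormedSpace ℝ E] [FiniteDimensional ℝ E]
  {M : Type*} [TopologicalSpace M] [ChartedSpace E M] [IsManifold 𝓘(ℝ, E) ∞ M]

variable [CompactSpace M] [T2Space M]

/-- D2: an immersion can be made affine near a given point -/
theorem exists_flat {F : M → R4} (hF : Imm (E := E) F) (p0 : M) :
    ∃ F' : M → R4, Imm (E := E) F' ∧ ∃ A : E →L[ℝ] R4, Function.Injective A ∧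
      ∀ᶠ p in 𝓝 p0, F' p = F' p0 + A (extChartAt 𝓘(ℝ, E) p0 p - extChartAt 𝓘(ℝ, E) p0 p0) := by
  classical
  set φ := extChartAt 𝓘(ℝ, E) p0 with hφ
  let f : E → R4 := F ∘ φ.symm
  have hU : IsOpen φ.target := isOpen_extChartAt_target p0
  have hS : IsOpen φ.source := isOpen_extChartAt_source p0
  have hx0 : φ p0 ∈ φ.target := mem_extChartAt_target p0
  have hsymm : ContMDiffOn 𝓘(ℝ, E) 𝓘(ℝ, E) ∞ φ.symm φ.target := contMDiffOn_extChartAt_symm p0
  have hfM : ContMDiffOn 𝓘(ℝ, E) 𝓘(ℝ, R4) ∞ f φ.target :=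
    hF.sm.comp_contMDiffOn hsymm
  have hf : ContDiffOn ℝ ∞ f φ.target := hfM.contDiffOn
  have hinj : ∀ x ∈ φ.target, Function.Injective (fderiv ℝ f x) := by
    intro x hx
    have h1 : MDifferentiableAt 𝓘(ℝ, E) 𝓘(ℝ, R4) F (φ.symm x) :=
      hF.sm.mdifferentiableAt (by simp)
    have h2 : MDifferentiableAt 𝓘(ℝ, E) 𝓘(ℝ, E) φ.symm x :=
      (hsymm.contMDiffAt (hU.mem_nhds hx)).mdifferentiableAt (by simp)
    have h3 : mfderiv 𝓘(ℝ, E) 𝓘(ℝ, R4) f x =
        (mfderiv 𝓘(ℝ, E) 𝓘(ℝ, R4) F (φ.symm x)).comp (mfderiv 𝓘(ℝ, E) 𝓘(ℝ, E) φ.symm x) :=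
      mfderiv_comp x h1 h2
    rw [← mfderiv_eq_fderiv, h3]
    have h4 := isInvertible_mfderivWithin_extChartAt_symm (I := 𝓘(ℝ, E)) (x := p0) hx
    rw [modelWithCornersSelf_coe, range_id, mfderivWithin_univ] at h4
    exact (hF.inj _).comp h4.injective
  obtain ⟨g, r, hr, hrU, hg, hout, hnear, hginj⟩ := flat_euclid hU hx0 hf hinj
  let K : Set M := φ.symm '' Metric.closedBall (φ p0) r
  have hK : IsCompact K :=
    (isCompact_closedBall (φ p0) r).image_of_continuousOn (hsymm.continuousOn.mono hrU)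
  have hKS : K ⊆ φ.source := by
    rintro _ ⟨x, hx, rfl⟩
    exact φ.map_target (hrU hx)
  let F' : M → R4 := fun p => if p ∈ φ.source then g (φ p) else F p
  have hF'S : ∀ p ∈ φ.source, F' =ᶠ[𝓝 p] g ∘ φ := by
    intro p hp
    filter_upwards [hS.mem_nhds hp] with q hq
    simp only [F', if_pos hq, Function.comp]
  have hF'K : ∀ p ∉ K, F' =ᶠ[𝓝 p] F := by
    intro p hp
    filter_upwards [hK.isClosed.isOpen_compl.mem_nhds hp] with q hq
    by_cases hqs : q ∈ φ.source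
    · simp only [F', if_pos hqs]
      have : φ q ∉ Metric.closedBall (φ p0) r := by
        intro hb
        exact hq ⟨φ q, hb, φ.left_inv hqs⟩
      rw [hout _ this]
      simp only [f, Function.comp, φ.left_inv hqs]
    · simp only [F', if_neg hqs]
  have hφM : ∀ p ∈ φ.source, ContMDiffAt 𝓘(ℝ, E) 𝓘(ℝ, E) ∞ φ p := by
    intro p hp
    have := contMDiffOn_extChartAt (I := 𝓘(ℝ, E)) (n := ∞) (x := p0)
    rw [← extChartAt_source (I := 𝓘(ℝ, E))] at this
    exact this.contMDiffAt (hS.mem_nhds hp)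
  have hgM : ∀ p ∈ φ.source, ContMDiffAt 𝓘(ℝ, E) 𝓘(ℝ, R4) ∞ g (φ p) := by
    intro p hp
    exact (hg.contDiffAt (hU.mem_nhds (φ.map_source hp))).contMDiffAt
  have hp0S : p0 ∈ φ.source := mem_extChartAt_source p0
  refine ⟨F', ⟨?_, ?_⟩, fderiv ℝ f (φ p0), hinj _ hx0, ?_⟩
  · intro p
    by_cases hp : p ∈ φ.source
    · exact ((hgM p hp).comp p (hφM p hp)).congr_of_eventuallyEq (hF'S p hp)
    · exact (hF.sm p).congr_of_eventuallyEq (hF'K p (fun h => hp (hKS h)))
  · intro p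
    by_cases hp : p ∈ φ.source
    · rw [(hF'S p hp).mfderiv_eq]
      have h1 : MDifferentiableAt 𝓘(ℝ, E) 𝓘(ℝ, R4) g (φ p) :=
        (hgM p hp).mdifferentiableAt (by simp)
      have h2 : MDifferentiableAt 𝓘(ℝ, E) 𝓘(ℝ, E) φ p :=
        (hφM p hp).mdifferentiableAt (by simp)
      rw [mfderiv_comp p h1 h2]
      have h4 := isInvertible_mfderiv_extChartAt (I := 𝓘(ℝ, E)) (x := p0) hp
      have h5 := hginj (φ p) (φ.map_source hp)
      rw [← mfderiv_eq_fderiv] at h5
      exact h5.comp h4.injective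
    · rw [(hF'K p (fun h => hp (hKS h))).mfderiv_eq]
      exact hF.inj p
  · have hc : ContinuousAt φ p0 := continuousAt_extChartAt p0
    have h0 : F' p0 = f (φ p0) := by
      have := hnear.self_of_nhds
      simp only [F', if_pos hp0S]
      rw [this]
      simp
    filter_upwards [hc.eventually hnear, hS.mem_nhds hp0S] with p hp hps
    rw [h0]
    simp only [F', if_pos hps]
    exact hp

end Surface

end Vale.Agent.P205.Top
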