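import Vale.Agent.P205.Top.Defs

/-!
Block TOP of P205, H': rescaling of the kink and reflection (both signs of the winding number).
-/

open scoped Manifold ContDiff Topology RealInnerProductSpace
open Set Filter MeasureTheory Module

noncomputable section

namespace Vale.Agent.P205.Top

/-- rescaling of a kink -/
lemma kink_scale_aux {s : ℝ} (hs : 0 < s) (j : ℕ) {R : ℝ} {W0 ζ0 : ℂ → ℂ × ℂ} (hR : 0 < R)
    (hW : ContDiff ℝ ∞ W0) (hζ : ContDiff ℝ ∞ ζ0) (hW1 : ∀ z, R ≤ ‖z‖ → W0 z = (z, 0))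
    (hζ1 : ∀ z, R ≤ ‖z‖ → ζ0 z = (0, z ^ (2 * j)))
    (hi : ∀ z, Function.Injective (fderiv ℝ W0 z)) (hn : ∀ z u, fderiv ℝ W0 z u ≠ ζ0 z) :
    ∃ (W ζ : ℂ → ℂ × ℂ), ContDiff ℝ ∞ W ∧ ContDiff ℝ ∞ ζ ∧ (∀ z, s / 2 ≤ ‖z‖ → W z = (z, 0)) ∧
    (∀ z, s / 2 ≤ ‖z‖ → ζ z = (0, z ^ (2 * j))) ∧
    (∀ z, Function.Injective (fderiv ℝ W z)) ∧ ∀ z u, fderiv ℝ W z u ≠ ζ z := by
  set ρ : ℝ := s / (2 * R) with hρ
  have hρ0 : 0 < ρ := by positivity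
  have hρne : ρ ≠ 0 := hρ0.ne'
  have hnorm : ∀ z : ℂ, s / 2 ≤ ‖z‖ → R ≤ ‖ρ⁻¹ • z‖ := by
    intro z hz
    rw [norm_smul, Real.norm_eq_abs, abs_of_pos (inv_pos.2 hρ0), le_inv_mul_iff₀ hρ0]
    have : ρ * R = s / 2 := by
      rw [hρ]; field_simp
    rw [this]; exact hz
  have hd : ∀ z : ℂ, HasFDerivAt (fun z : ℂ => ρ • W0 (ρ⁻¹ • z)) (fderiv ℝ W0 (ρ⁻¹ • z)) z := by
    intro z
    have h1 : HasFDerivAt (fun z : ℂ => ρ⁻¹ • z) (ρ⁻¹ • ContinuousLinearMap.id ℝ ℂ) z :=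
      (hasFDerivAt_id z).const_smul ρ⁻¹
    have h2 : HasFDerivAt W0 (fderiv ℝ W0 (ρ⁻¹ • z)) (ρ⁻¹ • z) :=
      ((hW.differentiable (by simp)) _).hasFDerivAt
    have h3 := (h2.comp z h1).const_smul ρ
    refine h3.congr_fderiv ?_
    ext u <;> simp [smul_smul, hρne]
  refine ⟨fun z => ρ • W0 (ρ⁻¹ • z), fun z => ρ ^ (2 * j) • ζ0 (ρ⁻¹ • z), ?_, ?_, ?_, ?_, ?_, ?_⟩
  · exact (hW.comp (contDiff_const_smul ρ⁻¹)).const_smul ρ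
  · exact (hζ.comp (contDiff_const_smul ρ⁻¹)).const_smul _
  · intro z hz
    simp only
    rw [hW1 _ (hnorm z hz)]
    simp [Prod.smul_mk, hρne]
  · intro z hz
    simp only
    rw [hζ1 _ (hnorm z hz)]
    simp only [Prod.smul_mk, smul_zero, Prod.mk.injEq, true_and]
    rw [smul_pow, smul_smul, ← mul_pow, mul_inv_cancel₀ hρne, one_pow, one_smul]
  · intro z
    rw [(hd z).fderiv]
    exact hi _
  · intro z u h
    rw [(hd z).fderiv] at h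
    apply hn (ρ⁻¹ • z) ((ρ ^ (2 * j))⁻¹ • u)
    rw [map_smul, h, smul_smul, inv_mul_cancel₀ (pow_ne_zero _ hρne), one_smul]

/-- H' from H -/
theorem exists_kink'_of (H : ∀ j : ℕ, ∃ (R : ℝ) (W ζ : ℂ → ℂ × ℂ), 0 < R ∧ ContDiff ℝ ∞ W ∧
    ContDiff ℝ ∞ ζ ∧ (∀ z, R ≤ ‖z‖ → W z = (z, 0)) ∧ (∀ z, R ≤ ‖z‖ → ζ z = (0, z ^ (2 * j))) ∧
    (∀ z, Function.Injective (fderiv ℝ W z)) ∧ ∀ z u, fderiv ℝ W z u ≠ ζ z)
    {s : ℝ} (hs : 0 < s) {w : ℤ} (hw : Even w) :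
    ∃ (W ζ : ℂ → ℂ × ℂ), ContDiff ℝ ∞ W ∧ ContDiff ℝ ∞ ζ ∧ (∀ z, s / 2 ≤ ‖z‖ → W z = (z, 0)) ∧
    (∀ z, s / 2 ≤ ‖z‖ → ζ z = (0, zp w z)) ∧
    (∀ z, Function.Injective (fderiv ℝ W z)) ∧ ∀ z u, fderiv ℝ W z u ≠ ζ z := by
  obtain ⟨r, hr⟩ := hw
  obtain ⟨R, W0, ζ0, hR, hW, hζ, hW1, hζ1, hi, hn⟩ := H r.natAbs
  obtain ⟨W, ζ, hW', hζ', hW1', hζ1', hi', hn'⟩ :=
    kink_scale_aux hs r.natAbs hR hW hζ hW1 hζ1 hi hn
  rcases le_or_gt 0 w with h0 | h0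
  · refine ⟨W, ζ, hW', hζ', hW1', ?_, hi', hn'⟩
    intro z hz
    rw [hζ1' z hz]
    have : w.toNat = 2 * r.natAbs := by omega
    simp [zp, h0, this]
  · let L : (ℂ × ℂ) ≃L[ℝ] (ℂ × ℂ) :=
      (ContinuousLinearEquiv.refl ℝ ℂ).prodCongr Complex.conjCLE
    have hL : ∀ p : ℂ × ℂ, L p = (p.1, starRingEnd ℂ p.2) := fun p => rfl
    have hd : ∀ z : ℂ, fderiv ℝ (fun z => L (W z)) z = (L : (ℂ × ℂ) →L[ℝ] (ℂ × ℂ)).comp
        (fderiv ℝ W z) := by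
      intro z
      have h2 : HasFDerivAt W (fderiv ℝ W z) z :=
        ((hW'.differentiable (by simp)) _).hasFDerivAt
      exact (L.hasFDerivAt.comp z h2).fderiv
    refine ⟨fun z => L (W z), fun z => L (ζ z), L.contDiff.comp hW', L.contDiff.comp hζ',
      ?_, ?_, ?_, ?_⟩
    · intro z hz
      simp only
      rw [hW1' z hz, hL]
      simp
    · intro z hz
      simp only
      rw [hζ1' z hz, hL]
      have h3 : (-w).toNat = 2 * r.natAbs := by omega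
      have h4 : ¬ (0 ≤ w) := by omega
      simp [zp, h4, h3]
    · intro z
      rw [hd z]
      exact L.injective.comp (hi' z)
    · intro z u h
      rw [hd z] at h
      exact hn' z u (L.injective h)

end Vale.Agent.P205.Top
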