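import Vale.Agent.P205.Top.Kink
import Vale.Agent.P205.Top.Kink2a

/-!
Block TOP of P205, H': the kink, scaled, both signs of the winding number.
-/

open scoped Manifold ContDiff Topology RealInnerProductSpace
open Set Filter MeasureTheory Module

noncomputable section

namespace Vale.Agent.P205.Top

/-- H': scaled, both signs of the winding number -/
theorem exists_kink' {s : ℝ} (hs : 0 < s) {w : ℤ} (hw : Even w) :
    ∃ (W ζ : ℂ → ℂ × ℂ), ContDiff ℝ ∞ W ∧ ContDiff ℝ ∞ ζ ∧ (∀ z, s / 2 ≤ ‖z‖ → W z = (z, 0)) ∧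
    (∀ z, s / 2 ≤ ‖z‖ → ζ z = (0, zp w z)) ∧
    (∀ z, Function.Injective (fderiv ℝ W z)) ∧ ∀ z u, fderiv ℝ W z u ≠ ζ z :=
  exists_kink'_of exists_kink hs hw

end Vale.Agent.P205.Top
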