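import Vale.Agent.P205.Top.Defs

/-!
Block TOP of P205: equal dimensional Sard on an open subset of a compact manifold.
-/

open scoped Manifold ContDiff Topology RealInnerProductSpace
open Set Filter MeasureTheory Module

noncomputable section

namespace Vale.Agent.P205.Top

section Lin

variable {V W : Type*} [NormedAddCommGroup V] [NormedSpace ℝ V] [FiniteDimensional ℝ V]
  [NormedAddCommGroup W] [NormedSpace ℝ W] [FiniteDimensional ℝ W]

/-- equal dimensional Sard on an open subset of a linear space -/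
theorem sard_lin [MeasurableSpace W] [BorelSpace W] (μ : Measure W) [μ.IsAddHaarMeasure]
    (hd : finrank ℝ V = finrank ℝ W) {U : Set V} (hU : IsOpen U) {g : V → W}
    (hg : ContDiffOn ℝ 1 g U) :
    ∀ᵐ c ∂μ, ∀ z ∈ U, g z = c → Function.Injective (fderiv ℝ g z) := by
  set T : V ≃L[ℝ] W := ContinuousLinearEquiv.ofFinrankEq hd with hT
  set f : W → W := fun w => g (T.symm w) with hf
  set s : Set W := T.symm ⁻¹' U with hs
  have hso : IsOpen s := hU.preimage T.symm.continuous
  have hfd : ∀ w ∈ s, HasFDerivAt f ((fderiv ℝ g (T.symm w)).comp (T.symm : W →L[ℝ] V)) w := by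
    intro w hw
    have h1 : ContDiffAt ℝ 1 g (T.symm w) := hg.contDiffAt (hU.mem_nhds hw)
    exact (h1.differentiableAt one_ne_zero).hasFDerivAt.comp w T.symm.hasFDerivAt
  set s0 : Set W := {w ∈ s | ((fderiv ℝ g (T.symm w)).comp (T.symm : W →L[ℝ] V)).det = 0} with hs0
  have hnull : μ (f '' s0) = 0 := by
    refine addHaar_image_eq_zero_of_det_fderivWithin_eq_zero μ
      (f' := fun w => (fderiv ℝ g (T.symm w)).comp (T.symm : W →L[ℝ] V)) ?_ ?_
    · intro w hw
      exact (hfd w hw.1).hasFDerivWithinAt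
    · intro w hw
      exact hw.2
  have h2 : ∀ᵐ c ∂μ, c ∉ f '' s0 := measure_eq_zero_iff_ae_notMem.1 hnull
  filter_upwards [h2] with c hc z hz hgz
  have hzs : T z ∈ s := by simpa [hs] using hz
  have hfz : f (T z) = c := by simpa [hf] using hgz
  have hdet : ((fderiv ℝ g (T.symm (T z))).comp (T.symm : W →L[ℝ] V)).det ≠ 0 := fun h =>
    hc ⟨T z, ⟨hzs, h⟩, hfz⟩
  have hinj : Function.Injective ((fderiv ℝ g (T.symm (T z))).comp (T.symm : W →L[ℝ] V)) := by
    have := ((fderiv ℝ g (T.symm (T z))).comp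
      (T.symm : W →L[ℝ] V)).toContinuousLinearEquivOfDetNeZero hdet
    have h3 : Function.Injective (((fderiv ℝ g (T.symm (T z))).comp
      (T.symm : W →L[ℝ] V)).toContinuousLinearEquivOfDetNeZero hdet) :=
        ContinuousLinearEquiv.injective _
    exact h3
  rw [T.symm_apply_apply] at hinj
  intro u v huv
  have h4 := @hinj (T u) (T v) (by simpa using huv)
  exact T.injective h4

end Lin

section Mfd

variable {V W : Type*} [NormedAddCommGroup V] [NormedSpace ℝ V]
  [NormedAddCommGroup W] [NormedSpace ℝ W]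
  {H : Type*} [TopologicalSpace H] (I : ModelWithCorners ℝ V H) [I.Boundaryless]
  {N : Type*} [TopologicalSpace N] [ChartedSpace H N] [IsManifold I ∞ N]

/-- the derivative in a chart -/
theorem mfderiv_inj_of_chart {f : N → W} {x p : N} (hp : p ∈ (extChartAt I x).source)
    (hf : MDifferentiableAt I 𝓘(ℝ, W) f p)
    (hi : Function.Injective
      (fderiv ℝ (f ∘ (extChartAt I x).symm) (extChartAt I x p))) :
    Function.Injective (mfderiv I 𝓘(ℝ, W) f p) := by
  set φ := extChartAt I x with hφ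
  have hp' : p ∈ (chartAt H x).source := by rwa [extChartAt_source] at hp
  have hpt : φ p ∈ φ.target := φ.map_source hp
  have hs : φ.symm (φ p) = p := φ.left_inv hp
  have hφd : MDifferentiableAt I 𝓘(ℝ, V) φ p :=
    (contMDiffAt_extChartAt' (n := ∞) hp').mdifferentiableAt (by simp)
  have hφsd : MDifferentiableAt 𝓘(ℝ, V) I φ.symm (φ p) := by
    have h1 : ContMDiffOn 𝓘(ℝ, V) I ∞ φ.symm φ.target := contMDiffOn_extChartAt_symm x
    have h2 : φ.target ∈ 𝓝 (φ p) := (isOpen_extChartAt_target x).mem_nhds hpt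
    exact (h1.contMDiffAt h2).mdifferentiableAt (by simp)
  have hf' : MDifferentiableAt I 𝓘(ℝ, W) f (φ.symm (φ p)) := by rw [hs]; exact hf
  have hg : MDifferentiableAt 𝓘(ℝ, V) 𝓘(ℝ, W) (f ∘ φ.symm) (φ p) := hf'.comp _ hφsd
  have hφ0 : p ∈ (extChartAt I x).source := hp
  have h1 : mfderiv I 𝓘(ℝ, W) ((f ∘ φ.symm) ∘ φ) p = mfderiv I 𝓘(ℝ, W) f p := by
    refine Filter.EventuallyEq.mfderiv_eq ?_
    filter_upwards [(isOpen_extChartAt_source (I := I) x).mem_nhds hφ0] with q hq
    simp only [Function.comp_apply, hφ, (extChartAt I x).left_inv hq]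
  have h2 := mfderiv_comp p hg hφd
  rw [h1, mfderiv_eq_fderiv] at h2
  rw [h2]
  have h3 : Function.Injective (mfderiv I 𝓘(ℝ, V) φ p) :=
    (isInvertible_mfderiv_extChartAt hp).injective
  exact fun u v huv => h3 (hi huv)

end Mfd

section Closed

variable {V W : Type*} [NormedAddCommGroup V] [NormedSpace ℝ V] [FiniteDimensional ℝ V]
  [NormedAddCommGroup W] [NormedSpace ℝ W] [FiniteDimensional ℝ W]
  {H : Type*} [TopologicalSpace H] (I : ModelWithCorners ℝ V H) [I.Boundaryless]
  {N : Type*} [TopologicalSpace N] [ChartedSpace H N] [IsManifold I ∞ N]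
  [CompactSpace N] [T2Space N]

/-- S: Sard, equal dimensions, on an open subset of a compact manifold -/
theorem sard [MeasurableSpace W] [BorelSpace W] (μ : Measure W) [μ.IsAddHaarMeasure]
    (hd : finrank ℝ V = finrank ℝ W) {O : Set N} (hO : IsOpen O) {G : N → W}
    (hG : ContMDiffOn I 𝓘(ℝ, W) ∞ G O) :
    ∀ᵐ c ∂μ, ∀ p ∈ O, G p = c → Function.Injective (mfderiv I 𝓘(ℝ, W) G p) := by
  obtain ⟨t, -, ht⟩ := isCompact_univ.elim_nhds_subcover (fun x : N => (extChartAt I x).source)
    (fun x _ => extChartAt_source_mem_nhds x)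
  have h1 : ∀ x : N, ∀ᵐ c ∂μ, ∀ z ∈ (extChartAt I x).target ∩ (extChartAt I x).symm ⁻¹' O,
      (G ∘ (extChartAt I x).symm) z = c →
        Function.Injective (fderiv ℝ (G ∘ (extChartAt I x).symm) z) := by
    intro x
    refine sard_lin μ hd ?_ ?_
    · exact (continuousOn_extChartAt_symm x).isOpen_inter_preimage (isOpen_extChartAt_target x) hO
    · rw [← contMDiffOn_iff_contDiffOn]
      have h2 : ContMDiffOn 𝓘(ℝ, V) I ∞ (extChartAt I x).symm (extChartAt I x).target :=
        contMDiffOn_extChartAt_symm x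
      exact (hG.comp (h2.mono inter_subset_left) (fun z hz => hz.2)).of_le (by simp)
  have h3 : ∀ᵐ c ∂μ, ∀ x ∈ t, ∀ z ∈ (extChartAt I x).target ∩ (extChartAt I x).symm ⁻¹' O,
      (G ∘ (extChartAt I x).symm) z = c →
        Function.Injective (fderiv ℝ (G ∘ (extChartAt I x).symm) z) :=
    (ae_ball_iff t.countable_toSet).2 fun x _ => h1 x
  filter_upwards [h3] with c hc p hp hGp
  obtain ⟨x, hx, hpx⟩ := mem_iUnion₂.1 (ht (mem_univ p))
  have hs : (extChartAt I x).symm (extChartAt I x p) = p := (extChartAt I x).left_inv hpx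
  refine mfderiv_inj_of_chart I hpx ?_ (hc x hx (extChartAt I x p) ⟨?_, ?_⟩ ?_)
  · exact (hG.contMDiffAt (hO.mem_nhds hp)).mdifferentiableAt (by simp)
  · exact (extChartAt I x).map_source hpx
  · rw [mem_preimage, hs]
    exact hp
  · rw [Function.comp_apply, hs]
    exact hGp

omit [FiniteDimensional ℝ V] [FiniteDimensional ℝ W] [IsManifold I ∞ N] [CompactSpace N]
  [T2Space N] in
/-- the derivative in the preferred chart -/
theorem mfderiv_eq_chart {f : N → W} {p : N} (hf : MDifferentiableAt I 𝓘(ℝ, W) f p) :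
    mfderiv I 𝓘(ℝ, W) f p = fderiv ℝ (f ∘ (extChartAt I p).symm) (extChartAt I p p) := by
  rw [hf.mfderiv, I.range_eq_univ, fderivWithin_univ]
  rfl

omit [FiniteDimensional ℝ V] [FiniteDimensional ℝ W] [IsManifold I ∞ N] [CompactSpace N]
  [T2Space N] in
theorem differentiableAt_chart {f : N → W} {p : N} (hf : MDifferentiableAt I 𝓘(ℝ, W) f p) :
    DifferentiableAt ℝ (f ∘ (extChartAt I p).symm) (extChartAt I p p) := by
  have h := hf.differentiableWithinAt_writtenInExtChartAt
  rw [I.range_eq_univ, differentiableWithinAt_univ] at h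
  exact h

/-- S2: the ratio trick. `χ ≥ 0`; for almost every `c` all zeros of `G + χ c` in `{χ > 0}` are
regular, and regular zeros of `G` on `{χ = 0}` remain regular. -/
theorem sard_add [MeasurableSpace W] [BorelSpace W] (μ : Measure W) [μ.IsAddHaarMeasure]
    (hd : finrank ℝ V = finrank ℝ W) {G : N → W} (hG : ContMDiff I 𝓘(ℝ, W) ∞ G)
    {χ : N → ℝ} (hχ : ContMDiff I 𝓘(ℝ, ℝ) ∞ χ) (h0 : ∀ p, 0 ≤ χ p) :
    ∀ᵐ c ∂μ, ∀ p, G p + χ p • c = 0 →
      (0 < χ p ∨ Function.Injective (mfderiv I 𝓘(ℝ, W) G p)) →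
      Function.Injective (mfderiv I 𝓘(ℝ, W) (fun q => G q + χ q • c) p) := by
  set O : Set N := {p | 0 < χ p} with hO
  have hOo : IsOpen O := isOpen_lt continuous_const hχ.continuous
  have hG' : ContMDiffOn I 𝓘(ℝ, W) ∞ (fun p => -((χ p)⁻¹ • G p)) O := by
    intro p hp
    have h1 : ContMDiffAt I 𝓘(ℝ, ℝ) ∞ (fun p => (χ p)⁻¹) p := by
      have h2 : ContDiffAt ℝ ∞ (fun t : ℝ => t⁻¹) (χ p) := contDiffAt_inv ℝ (ne_of_gt hp)
      exact h2.contMDiffAt.comp p (hχ p)
    exact ((h1.smul (hG p)).neg).contMDiffWithinAt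
  filter_upwards [sard I μ hd hOo hG'] with c hc p hp hor
  have hGd : MDifferentiableAt I 𝓘(ℝ, W) G p := (hG p).mdifferentiableAt (by simp)
  have hχd : MDifferentiableAt I 𝓘(ℝ, ℝ) χ p := (hχ p).mdifferentiableAt (by simp)
  have hsd : MDifferentiableAt I 𝓘(ℝ, W) (fun q => G q + χ q • c) p :=
    ((hG p).add ((hχ p).smul contMDiffAt_const)).mdifferentiableAt (by simp)
  have g1 := differentiableAt_chart I hGd
  have g2 : DifferentiableAt ℝ (χ ∘ (extChartAt I p).symm) (extChartAt I p p) :=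
    differentiableAt_chart I hχd
  have hpp : (extChartAt I p).symm (extChartAt I p p) = p := extChartAt_to_inv p
  have e1 : fderiv ℝ ((fun q => G q + χ q • c) ∘ (extChartAt I p).symm) (extChartAt I p p) =
      fderiv ℝ (G ∘ (extChartAt I p).symm) (extChartAt I p p) +
        (fderiv ℝ (χ ∘ (extChartAt I p).symm) (extChartAt I p p)).smulRight c := by
    exact (g1.hasFDerivAt.add (g2.hasFDerivAt.smul_const c)).fderiv
  rw [mfderiv_eq_chart I hsd, e1]
  by_cases hχp : 0 < χ p
  · have hinj := hc p hχp (by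
      have h5 : G p = -(χ p • c) := eq_neg_of_add_eq_zero_left hp
      simp only [h5, smul_neg, neg_neg]
      rw [smul_smul, inv_mul_cancel₀ (ne_of_gt hχp), one_smul])
    have hrd : MDifferentiableAt I 𝓘(ℝ, W) (fun p => -((χ p)⁻¹ • G p)) p :=
      (hG'.contMDiffAt (hOo.mem_nhds hχp)).mdifferentiableAt (by simp)
    rw [mfderiv_eq_chart I hrd] at hinj
    set z := extChartAt I p p with hz
    set gG : V → W := G ∘ (extChartAt I p).symm with hgG
    set gχ : V → ℝ := χ ∘ (extChartAt I p).symm with hgχ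
    have hgχz : gχ z = χ p := by simp only [hgχ, Function.comp_apply, hpp]
    have hgGz : gG z = G p := by simp only [hgG, Function.comp_apply, hpp]
    have hne : gχ z ≠ 0 := by rw [hgχz]; exact ne_of_gt hχp
    have e2 : HasFDerivAt (fun y => -((gχ y)⁻¹ • gG y))
        (-((gχ z)⁻¹ • fderiv ℝ gG z +
          ((-(gχ z ^ 2)⁻¹) • fderiv ℝ gχ z).smulRight (gG z))) z := by
      have h6 : HasFDerivAt (fun y => (gχ y)⁻¹) ((-(gχ z ^ 2)⁻¹) • fderiv ℝ gχ z) z :=
        (hasDerivAt_inv hne).comp_hasFDerivAt z g2.hasFDerivAt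
      exact (h6.smul g1.hasFDerivAt).neg
    have e3 : fderiv ℝ ((fun p => -((χ p)⁻¹ • G p)) ∘ (extChartAt I p).symm) z = _ := e2.fderiv
    rw [e3] at hinj
    have h5 : gG z = -(gχ z • c) := by
      rw [hgGz, hgχz]
      exact eq_neg_of_add_eq_zero_left hp
    intro u v huv
    apply hinj
    have h7 : ∀ u : V, (-((gχ z)⁻¹ • fderiv ℝ gG z +
          ((-(gχ z ^ 2)⁻¹) • fderiv ℝ gχ z).smulRight (gG z))) u =
        (-(gχ z)⁻¹) • (fderiv ℝ gG z + (fderiv ℝ gχ z).smulRight c) u := by
      intro u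
      simp only [neg_apply, add_apply, smul_apply,
        ContinuousLinearMap.smulRight_apply, h5, smul_neg,
        smul_add, smul_smul, neg_smul, neg_mul, neg_neg, neg_add, smul_eq_mul]
      have h8 : (gχ z ^ 2)⁻¹ * (fderiv ℝ gχ z) u * gχ z = (gχ z)⁻¹ * (fderiv ℝ gχ z) u := by
        field_simp
      rw [h8]
    exact (h7 u).trans ((congrArg (fun w : W => (-(gχ z)⁻¹) • w) huv).trans (h7 v).symm)
  · have hχ0 : χ p = 0 := le_antisymm (not_lt.1 hχp) (h0 p)
    have hinj := hor.resolve_left hχp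
    rw [mfderiv_eq_chart I hGd] at hinj
    have hmin : fderiv ℝ (χ ∘ (extChartAt I p).symm) (extChartAt I p p) = 0 := by
      refine IsLocalMin.fderiv_eq_zero ?_
      refine Filter.Eventually.of_forall fun y => ?_
      simp only [Function.comp_apply, hpp, hχ0]
      exact h0 _
    rw [hmin]
    have h9 : (0 : V →L[ℝ] ℝ).smulRight c = 0 := by
      ext u
      simp
    rw [h9, add_zero]
    exact hinj

end Closed

end Vale.Agent.P205.Top
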