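import Vale.Agent.P205.Top.A2
import Vale.Agent.P205.Top.Sard

/-!
Block TOP of P205: the number of zeros of a generic map from a closed manifold to a vector space
of the same dimension is even.
-/

open scoped Manifold ContDiff Topology RealInnerProductSpace
open Set Filter MeasureTheory Module

noncomputable section

namespace Vale.Agent.P205.Top

section Main

variable {V W : Type*} [NormedAddCommGroup V] [NormedSpace ℝ V] [FiniteDimensional ℝ V]
  [NormedAddCommGroup W] [NormedSpace ℝ W] [FiniteDimensional ℝ W]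
  {H : Type*} [TopologicalSpace H] (I : ModelWithCorners ℝ V H) [I.Boundaryless]
  {N : Type*} [TopologicalSpace N] [ChartedSpace H N] [IsManifold I ∞ N]

omit [FiniteDimensional ℝ V] [FiniteDimensional ℝ W] in
theorem chart_inj (c : N) {Φ : N → W} (hΦ : ContMDiff I 𝓘(ℝ, W) ∞ Φ) {y : V}
    (hy : y ∈ (extChartAt I c).target)
    (h : Function.Injective (mfderiv I 𝓘(ℝ, W) Φ ((extChartAt I c).symm y))) :
    Function.Injective (fderiv ℝ (Φ ∘ (extChartAt I c).symm) y) := by
  have h1 : MDifferentiableAt 𝓘(ℝ, V) I (extChartAt I c).symm y :=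
    ((contMDiffOn_extChartAt_symm (n := ∞) c).contMDiffAt
      ((isOpen_extChartAt_target c).mem_nhds hy)).mdifferentiableAt (by simp)
  have h2 := isInvertible_mfderivWithin_extChartAt_symm (I := I) hy
  rw [I.range_eq_univ, mfderivWithin_univ] at h2
  rw [← mfderiv_eq_fderiv, mfderiv_comp y (hΦ.mdifferentiableAt (by simp)) h1]
  exact h.comp h2.injective

omit [FiniteDimensional ℝ V] [FiniteDimensional ℝ W] [I.Boundaryless] in
theorem chart_smooth (c : N) {Φ : N → W} (hΦ : ContMDiff I 𝓘(ℝ, W) ∞ Φ) :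
    ContDiffOn ℝ ∞ (Φ ∘ (extChartAt I c).symm) (extChartAt I c).target := by
  rw [← contMDiffOn_iff_contDiffOn]
  exact hΦ.comp_contMDiffOn (contMDiffOn_extChartAt_symm c)

omit [FiniteDimensional ℝ V] [NormedSpace ℝ W] [FiniteDimensional ℝ W] [IsManifold I ∞ N]
  [I.Boundaryless] in
theorem chart_image (c : N) (Φ : N → W) {K : Set N} (hK : K ⊆ (extChartAt I c).source) :
    {x ∈ (extChartAt I c) '' K | (Φ ∘ (extChartAt I c).symm) x = 0} =
      (extChartAt I c) '' {p ∈ K | Φ p = 0} := by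
  ext x
  constructor
  · rintro ⟨⟨p, hp, rfl⟩, h⟩
    refine ⟨p, ⟨hp, ?_⟩, rfl⟩
    rw [Function.comp_apply, (extChartAt I c).left_inv (hK hp)] at h
    exact h
  · rintro ⟨p, ⟨hp, h⟩, rfl⟩
    refine ⟨⟨p, hp, rfl⟩, ?_⟩
    rw [Function.comp_apply, (extChartAt I c).left_inv (hK hp)]
    exact h

omit [FiniteDimensional ℝ V] [NormedSpace ℝ W] [FiniteDimensional ℝ W] [IsManifold I ∞ N]
  [I.Boundaryless] in
theorem chart_ncard (c : N) (Φ : N → W) {K : Set N} (hK : K ⊆ (extChartAt I c).source) :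
    {x ∈ (extChartAt I c) '' K | (Φ ∘ (extChartAt I c).symm) x = 0}.ncard =
      {p ∈ K | Φ p = 0}.ncard := by
  rw [chart_image I c Φ hK]
  exact ((extChartAt I c).injOn.mono (fun p hp => hK hp.1)).ncard_image

theorem chart_finite (hd : finrank ℝ V = finrank ℝ W) (c : N) {Φ : N → W}
    (hΦ : ContMDiff I 𝓘(ℝ, W) ∞ Φ)
    (hr : ∀ p, Φ p = 0 → Function.Injective (mfderiv I 𝓘(ℝ, W) Φ p)) {K : Set N}
    (hK : IsCompact K) (hKs : K ⊆ (extChartAt I c).source) : {p ∈ K | Φ p = 0}.Finite := by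
  have hK' : IsCompact ((extChartAt I c) '' K) :=
    hK.image_of_continuousOn ((continuousOn_extChartAt c).mono hKs)
  have hKU : (extChartAt I c) '' K ⊆ (extChartAt I c).target := by
    rintro _ ⟨p, hp, rfl⟩
    exact (extChartAt I c).map_source (hKs hp)
  have := finite_zeros hd (isOpen_extChartAt_target c) hK' hKU (chart_smooth I c hΦ)
    (fun x hx h0 => chart_inj I c hΦ (hKU hx) (hr _ h0))
  rw [chart_image I c Φ hKs] at this
  exact Finite.of_finite_image this ((extChartAt I c).injOn.mono (fun p hp => hKs hp.1))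

variable [CompactSpace N] [T2Space N]

theorem closed_finite (hd : finrank ℝ V = finrank ℝ W) {Φ : N → W}
    (hΦ : ContMDiff I 𝓘(ℝ, W) ∞ Φ)
    (hr : ∀ p, Φ p = 0 → Function.Injective (mfderiv I 𝓘(ℝ, W) Φ p)) : {p | Φ p = 0}.Finite := by
  have key : ({p ∈ (univ : Set N) | Φ p = 0}).Finite := by
    refine isCompact_univ.induction_on (p := fun s => {p ∈ s | Φ p = 0}.Finite) ?_ ?_ ?_ ?_
    · simp
    · intro s t hst ht
      exact ht.subset (fun p hp => ⟨hst hp.1, hp.2⟩)
    · intro s t hs ht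
      refine (hs.union ht).subset ?_
      rintro p ⟨hp | hp, h⟩
      · exact Or.inl ⟨hp, h⟩
      · exact Or.inr ⟨hp, h⟩
    · intro p _
      obtain ⟨K, hK1, hK2, hK3⟩ := local_compact_nhds (extChartAt_source_mem_nhds (I := I) p)
      exact ⟨K, mem_nhdsWithin_of_mem_nhds hK1, chart_finite I hd p hΦ hr hK3 hK2⟩
  simpa using key

theorem chart_parity (hd : finrank ℝ V = finrank ℝ W) (c : N) {Φ0 Φ1 : N → W}
    (h0 : ContMDiff I 𝓘(ℝ, W) ∞ Φ0) (h1 : ContMDiff I 𝓘(ℝ, W) ∞ Φ1)
    (r0 : ∀ p, Φ0 p = 0 → Function.Injective (mfderiv I 𝓘(ℝ, W) Φ0 p))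
    (r1 : ∀ p, Φ1 p = 0 → Function.Injective (mfderiv I 𝓘(ℝ, W) Φ1 p)) {K : Set N}
    (hK : IsCompact K) (hKs : K ⊆ (extChartAt I c).source) (heq : ∀ p, p ∉ K → Φ0 p = Φ1 p) :
    {p | Φ0 p = 0}.ncard % 2 = {p | Φ1 p = 0}.ncard % 2 := by
  have hK' : IsCompact ((extChartAt I c) '' K) :=
    hK.image_of_continuousOn ((continuousOn_extChartAt c).mono hKs)
  have hKU : (extChartAt I c) '' K ⊆ (extChartAt I c).target := by
    rintro _ ⟨p, hp, rfl⟩
    exact (extChartAt I c).map_source (hKs hp)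
  have hl := parity_local hd (isOpen_extChartAt_target c) hK' hKU (chart_smooth I c h0)
    (chart_smooth I c h1) (by
      rintro x ⟨hx, hxK⟩
      apply heq
      intro h
      exact hxK ⟨_, h, (extChartAt I c).right_inv hx⟩)
    (fun x hx hz => chart_inj I c h0 (hKU hx) (r0 _ hz))
    (fun x hx hz => chart_inj I c h1 (hKU hx) (r1 _ hz))
  rw [chart_ncard I c Φ0 hKs, chart_ncard I c Φ1 hKs] at hl
  have f0 := closed_finite I hd h0 r0
  have f1 := closed_finite I hd h1 r1
  have s0 : ({p ∈ K | Φ0 p = 0} ∪ {p | p ∉ K ∧ Φ0 p = 0}) = {p | Φ0 p = 0} := by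
    ext p; simp only [mem_union, mem_ofPred_eq]; tauto
  have s1 : ({p ∈ K | Φ1 p = 0} ∪ {p | p ∉ K ∧ Φ0 p = 0}) = {p | Φ1 p = 0} := by
    ext p
    simp only [mem_union, mem_ofPred_eq]
    constructor
    · rintro (h | h)
      · exact h.2
      · rw [← heq p h.1]; exact h.2
    · intro h
      by_cases hp : p ∈ K
      · exact Or.inl ⟨hp, h⟩
      · exact Or.inr ⟨hp, by rw [heq p hp]; exact h⟩
  have d0 : Disjoint {p ∈ K | Φ0 p = 0} {p | p ∉ K ∧ Φ0 p = 0} := by
    rw [Set.disjoint_left]; rintro p ⟨hp, _⟩ ⟨hp', _⟩; exact hp' hp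
  have d1 : Disjoint {p ∈ K | Φ1 p = 0} {p | p ∉ K ∧ Φ0 p = 0} := by
    rw [Set.disjoint_left]; rintro p ⟨hp, _⟩ ⟨hp', _⟩; exact hp' hp
  have g0 : {p ∈ K | Φ0 p = 0}.Finite := f0.subset (fun p hp => hp.2)
  have g1 : {p ∈ K | Φ1 p = 0}.Finite := f1.subset (fun p hp => hp.2)
  have g2 : {p | p ∉ K ∧ Φ0 p = 0}.Finite := f0.subset (fun p hp => hp.2)
  rw [← s0, ← s1, ncard_union_eq d0 g0 g2, ncard_union_eq d1 g1 g2]
  omega

omit [I.Boundaryless] [IsManifold I ∞ N] [CompactSpace N] [T2Space N]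
  [FiniteDimensional ℝ V] [FiniteDimensional ℝ W] in
theorem smooth_add {Φ : N → W} (hΦ : ContMDiff I 𝓘(ℝ, W) ∞ Φ) {χ : N → ℝ}
    (hχ : ContMDiff I 𝓘(ℝ, ℝ) ∞ χ) (c : W) :
    ContMDiff I 𝓘(ℝ, W) ∞ (fun q => Φ q + χ q • c) :=
  hΦ.add (hχ.smul contMDiff_const)

/-- **B** -/
theorem even_zeros (hd : finrank ℝ V = finrank ℝ W) (hpos : 0 < finrank ℝ W)
    {Ψ : N → W} (hΨ : ContMDiff I 𝓘(ℝ, W) ∞ Ψ)
    (hr : ∀ p, Ψ p = 0 → Function.Injective (mfderiv I 𝓘(ℝ, W) Ψ p)) :
    {p | Ψ p = 0}.Finite ∧ Even {p | Ψ p = 0}.ncard := by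
  classical
  refine ⟨closed_finite I hd hΨ hr, ?_⟩
  let _ : MeasurableSpace W := borel W
  have : BorelSpace W := ⟨rfl⟩
  have : ProperSpace W := FiniteDimensional.proper ℝ W
  have : Nontrivial W := nontrivial_of_finrank_pos hpos
  let μ : Measure W := Measure.addHaar
  -- finite partition of unity
  obtain ⟨t, ht⟩ := CompactSpace.elim_nhds_subcover (fun x : N => (chartAt H x).source)
    (fun x => (chartAt H x).open_source.mem_nhds (mem_chart_source H x))
  obtain ⟨f, hf⟩ := SmoothPartitionOfUnity.exists_isSubordinate I (isClosed_univ (X := N))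
    (fun i : t => (chartAt H (i : N)).source) (fun i => (chartAt H (i : N)).open_source) (by
      intro x _
      have hx : x ∈ ⋃ y ∈ t, (chartAt H y).source := by rw [ht]; trivial
      simp only [mem_iUnion] at hx ⊢
      obtain ⟨y, hy, hxy⟩ := hx
      exact ⟨⟨y, hy⟩, hxy⟩)
  obtain ⟨C, hC⟩ := isCompact_univ.exists_bound_of_continuousOn hΨ.continuous.continuousOn
  obtain ⟨b, hb⟩ := exists_norm_eq W (c := |C| + 1) (by positivity)
  have step : ∀ S : Finset t, ∃ c : t → W, (∀ i, ‖c i - b‖ < 1 / 2) ∧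
      ContMDiff I 𝓘(ℝ, W) ∞ (fun q => Ψ q + ∑ i ∈ S, f i q • c i) ∧
      (∀ p, Ψ p + ∑ i ∈ S, f i p • c i = 0 → Function.Injective
        (mfderiv I 𝓘(ℝ, W) (fun q => Ψ q + ∑ i ∈ S, f i q • c i) p)) ∧
      {p | Ψ p = 0}.ncard % 2 = {p | Ψ p + ∑ i ∈ S, f i p • c i = 0}.ncard % 2 := by
    intro S
    induction S using Finset.induction_on with
    | empty =>
      have hz : (fun q => Ψ q + ∑ i ∈ (∅ : Finset t), f i q • (fun _ => b : t → W) i) = Ψ := by
        funext q
        rw [Finset.sum_empty, add_zero]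
      refine ⟨fun _ => b, fun i => by simp, ?_, ?_, ?_⟩
      · rw [hz]
        exact hΨ
      · intro p hp
        rw [hz]
        rw [Finset.sum_empty, add_zero] at hp
        exact hr p hp
      · simp
    | insert j S hj ih =>
      obtain ⟨c, hc1, hc2, hc3, hc4⟩ := ih
      have hae := sard_add I μ hd hc2 (f j).contMDiff (fun p => f.nonneg j p)
      obtain ⟨cj, hcj, hcb⟩ := (Measure.dense_of_ae hae).exists_mem_open
        (Metric.isOpen_ball (x := b) (ε := 1 / 2)) ⟨b, Metric.mem_ball_self (by norm_num)⟩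
      have hsum : ∀ q, Ψ q + ∑ i ∈ insert j S, f i q • (Function.update c j cj) i =
          (Ψ q + ∑ i ∈ S, f i q • c i) + f j q • cj := by
        intro q
        rw [Finset.sum_insert hj, Function.update_self]
        have : ∑ i ∈ S, f i q • (Function.update c j cj) i = ∑ i ∈ S, f i q • c i := by
          refine Finset.sum_congr rfl (fun i hi => ?_)
          rw [Function.update_of_ne (ne_of_mem_of_not_mem hi hj)]
        rw [this]
        abel
      have hfun : (fun q => Ψ q + ∑ i ∈ insert j S, f i q • (Function.update c j cj) i) =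
          fun q => (Ψ q + ∑ i ∈ S, f i q • c i) + f j q • cj := funext hsum
      have hsm := smooth_add I hc2 (f j).contMDiff cj
      have hreg : ∀ p, (Ψ p + ∑ i ∈ S, f i p • c i) + f j p • cj = 0 → Function.Injective
          (mfderiv I 𝓘(ℝ, W) (fun q => (Ψ q + ∑ i ∈ S, f i q • c i) + f j q • cj) p) := by
        intro p hp
        refine hcj p hp ?_
        rcases (f.nonneg j p).lt_or_eq with h | h
        · exact Or.inl h
        · right
          apply hc3
          rw [← h] at hp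
          simpa using hp
      refine ⟨Function.update c j cj, ?_, ?_, ?_, ?_⟩
      · intro i
        by_cases hi : i = j
        · subst hi
          rw [Function.update_self]
          simpa [dist_eq_norm] using hcb
        · rw [Function.update_of_ne hi]
          exact hc1 i
      · rw [hfun]; exact hsm
      · intro p hp
        rw [hsum] at hp
        rw [hfun]
        exact hreg p hp
      · simp only [hsum]
        rw [hc4]
        refine chart_parity I hd (j : N) hc2 hsm hc3 hreg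
          (isClosed_tsupport (f j)).isCompact ?_ ?_
        · rw [extChartAt_source]
          exact hf j
        · intro p hp
          have : f j p = 0 := image_eq_zero_of_notMem_tsupport hp
          rw [this]
          simp
  obtain ⟨c, hc1, hc2, hc3, hc4⟩ := step Finset.univ
  have hempty : {p | Ψ p + ∑ i ∈ Finset.univ, f i p • c i = 0} = ∅ := by
    rw [Set.eq_empty_iff_forall_notMem]
    intro p hp
    have hs : ∑ i, f i p = 1 := by
      rw [← finsum_eq_sum_of_fintype]
      exact f.sum_eq_one (mem_univ p)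
    have h1 : ∑ i, f i p • c i = b + ∑ i, f i p • (c i - b) := by
      simp only [smul_sub, Finset.sum_sub_distrib, ← Finset.sum_smul, hs, one_smul]
      abel
    have h2 : ‖∑ i, f i p • (c i - b)‖ ≤ 1 / 2 := by
      calc ‖∑ i, f i p • (c i - b)‖ ≤ ∑ i, ‖f i p • (c i - b)‖ := norm_sum_le _ _
        _ ≤ ∑ i, f i p * (1 / 2) := by
            refine Finset.sum_le_sum (fun i _ => ?_)
            rw [norm_smul, Real.norm_of_nonneg (f.nonneg i p)]
            exact mul_le_mul_of_nonneg_left (hc1 i).le (f.nonneg i p)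
        _ = 1 / 2 := by rw [← Finset.sum_mul, hs, one_mul]
    have h3 : b = -(Ψ p + ∑ i, f i p • (c i - b)) := by
      rw [mem_ofPred_eq, h1] at hp
      have : b + (Ψ p + ∑ i, f i p • (c i - b)) = 0 := by rw [← hp]; abel
      exact eq_neg_of_add_eq_zero_left this
    have h4 : ‖b‖ ≤ |C| + 1 / 2 := by
      calc ‖b‖ = ‖Ψ p + ∑ i, f i p • (c i - b)‖ := by rw [h3, norm_neg, ← h3]
        _ ≤ ‖Ψ p‖ + ‖∑ i, f i p • (c i - b)‖ := norm_add_le _ _
        _ ≤ |C| + 1 / 2 := add_le_add ((hC p (mem_univ p)).trans (le_abs_self C)) h2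
    rw [hb] at h4
    linarith
  rw [hempty] at hc4
  rw [Nat.even_iff, hc4]
  simp

end Main

end Vale.Agent.P205.Top
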