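import Vale.Agent.P205.Top.OddA
import Vale.Agent.P205.Top.Sard

/-!
Block TOP of P205: odd functions can be made regular away from the fixed points (C2).
-/

open scoped Manifold ContDiff Topology RealInnerProductSpace
open Set Filter MeasureTheory Module

noncomputable section

namespace Vale.Agent.P205.Top

section Closed

variable {V W : Type*} [NormedAddCommGroup V] [NormedSpace ℝ V] [FiniteDimensional ℝ V]
  [NormedAddCommGroup W] [NormedSpace ℝ W] [FiniteDimensional ℝ W]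
  {H : Type*} [TopologicalSpace H] (I : ModelWithCorners ℝ V H) [I.Boundaryless]
  {N : Type*} [TopologicalSpace N] [ChartedSpace H N] [IsManifold I ∞ N]
  [CompactSpace N] [T2Space N]

/-- C2: odd functions can be made regular away from the fixed points -/
theorem odd_perturb (hd : finrank ℝ V = finrank ℝ W) {τ : N → N}
    (hτ : ContMDiff I I ∞ τ) (hττ : ∀ p, τ (τ p) = p) {G : N → W}
    (hG : ContMDiff I 𝓘(ℝ, W) ∞ G) (hodd : ∀ p, G (τ p) = - G p)
    {D O : Set N} (hD : IsCompact D) (hO : IsOpen O) (hDO : D ⊆ O) (hfix : ∀ p ∈ O, τ p ≠ p)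
    (hOτ : ∀ p ∈ O, τ p ∈ O) :
    ∃ D' : Set N, IsOpen D' ∧ D ⊆ D' ∧ D' ⊆ O ∧ ∀ m : ℝ, 0 < m →
      ∃ η : N → W, ContMDiff I 𝓘(ℝ, W) ∞ η ∧ (∀ p, η (τ p) = - η p) ∧ (∀ p, ‖η p‖ < m) ∧
        tsupport η ⊆ O ∧ ∀ p ∈ D', G p + η p = 0 →
        Function.Injective (mfderiv I 𝓘(ℝ, W) (fun q => G q + η q) p) := by
  let _ : MeasurableSpace W := borel W
  have _ : BorelSpace W := ⟨rfl⟩
  exact odd_perturb_of I (smallReg_of_ae I Measure.addHaar
    fun G hG χ hχ h0 => sard_add I Measure.addHaar hd hG hχ h0) hτ hττ hG hodd hD hO hDO hfix hOτ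

end Closed

end Vale.Agent.P205.Top
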