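import Vale.Agent.P205.Top.Diag
import Vale.Agent.P205.Top.Odd
import Vale.Agent.P205.Top.Even

/-!
Block C of TOP: the number of zeros of a generic normal field is even.
-/

open scoped Manifold ContDiff Topology RealInnerProductSpace
open Set Filter MeasureTheory Module

noncomputable section

namespace Vale.Agent.P205.Top

/-- a finite set with a fixed point free involution has an even number of elements -/
theorem par_even_of_involution {X : Type*} {Z : Set X} (hZ : Z.Finite) {τ : X → X}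
    (h1 : ∀ z ∈ Z, τ z ∈ Z) (h2 : ∀ z, τ (τ z) = z) (h3 : ∀ z ∈ Z, τ z ≠ z) :
    Even Z.ncard := by
  classical
  have h : ∑ _z ∈ hZ.toFinset, (1 : ZMod 2) = 0 := by
    refine Finset.sum_involution (fun z _ => τ z) (fun _ _ => by decide) ?_ ?_ ?_
    · intro z hz _
      exact h3 z (hZ.mem_toFinset.1 hz)
    · intro z hz
      exact hZ.mem_toFinset.2 (h1 z (hZ.mem_toFinset.1 hz))
    · intro z _
      exact h2 z
  rw [Finset.sum_const, nsmul_eq_mul, mul_one, ← Set.ncard_eq_toFinset_card Z hZ] at h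
  exact (ZMod.natCast_eq_zero_iff_even).1 h

section Surface

variable {E : Type*} [NormedAddCommGroup E] [NormedSpace ℝ E] [FiniteDimensional ℝ E]
  {M : Type*} [TopologicalSpace M] [ChartedSpace E M] [IsManifold 𝓘(ℝ, E) ∞ M]

variable [CompactSpace M] [T2Space M]

/-- C -/
theorem even_normal_zeros (hE : finrank ℝ E = 2) {F ξ : M → R4} (hF : Imm (E := E) F)
    (hξ : Nor (E := E) F ξ)
    (hr : ∀ p, ξ p = 0 → Function.Injective (mfderiv 𝓘(ℝ, E) 𝓘(ℝ, R4) ξ p)) :
    Even {p | ξ p = 0}.ncard := by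
  classical
  -- the good neighbourhood of the diagonal
  choose V hV hVd using fun p => near_diag hF hξ p
  let 𝒱 : Set (M × M) := ⋃ p, interior (V p) ×ˢ interior (V p)
  have h𝒱o : IsOpen 𝒱 := isOpen_iUnion fun p => isOpen_interior.prod isOpen_interior
  have h𝒱Δ : ∀ a : M, (a, a) ∈ 𝒱 := fun a =>
    mem_iUnion.2 ⟨a, mem_interior_iff_mem_nhds.2 (hV a), mem_interior_iff_mem_nhds.2 (hV a)⟩
  have h𝒱s : ∀ q : M × M, q ∈ 𝒱 → q.swap ∈ 𝒱 := by
    intro q hq
    obtain ⟨p, hp⟩ := mem_iUnion.1 hq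
    exact mem_iUnion.2 ⟨p, hp.2, hp.1⟩
  have h𝒱d : ∀ q ∈ 𝒱, ∀ ε : ℝ, F q.1 - F q.2 = ε • ξ q.2 → q.1 = q.2 := by
    intro q hq ε h
    obtain ⟨p, hp⟩ := mem_iUnion.1 hq
    exact hVd p _ (interior_subset hp.1) _ (interior_subset hp.2) ε h
  -- the cut off function
  obtain ⟨β, hβ0, hβ1, -⟩ := exists_contMDiffMap_zero_one_nhds_of_isClosed
    (𝓘(ℝ, E).prod 𝓘(ℝ, E)) (n := (⊤ : ℕ∞)) (M := M × M) (s := 𝒱ᶜ) (t := diagonal M)
    h𝒱o.isClosed_compl isClosed_diagonal (by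
      rw [disjoint_compl_left_iff_subset]
      rintro ⟨a, b⟩ hab
      have : a = b := hab
      subst this
      exact h𝒱Δ a)
  obtain ⟨V1, hV1o, hΔV1, hV1⟩ := eventually_nhdsSet_iff_exists.1 hβ1
  obtain ⟨V0, hV0o, h𝒱V0, hV0⟩ := eventually_nhdsSet_iff_exists.1 hβ0
  let T : Set (M × M) := tsupport β
  have hTc : IsClosed T := isClosed_tsupport _
  have hT𝒱 : T ⊆ 𝒱 := by
    have h1 : T ⊆ V0ᶜ := by
      refine closure_minimal ?_ hV0o.isClosed_compl
      intro q hq hq0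
      exact hq (hV0 q hq0)
    intro q hq
    by_contra h
    exact h1 hq (h𝒱V0 h)
  have hV1T : V1 ⊆ T := by
    intro q hq
    apply subset_tsupport
    rw [Function.mem_support, hV1 q hq]
    exact one_ne_zero
  have hΔT : ∀ a : M, (a, a) ∈ T := fun a => hV1T (hΔV1 (mem_diagonal a))
  -- the odd function
  let τ : M × M → M × M := Prod.swap
  have hτ : ContMDiff (𝓘(ℝ, E).prod 𝓘(ℝ, E)) (𝓘(ℝ, E).prod 𝓘(ℝ, E)) ∞ τ :=
    contMDiff_snd.prodMk contMDiff_fst
  have hττ : ∀ q, τ (τ q) = q := fun q => Prod.swap_swap q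
  let G : M × M → R4 := fun q => F q.1 - F q.2
  have hG : ContMDiff (𝓘(ℝ, E).prod 𝓘(ℝ, E)) 𝓘(ℝ, R4) ∞ G :=
    (hF.sm.comp contMDiff_fst).sub (hF.sm.comp contMDiff_snd)
  have hGodd : ∀ q, G (τ q) = - G q := fun q => by simp [G, τ]
  have hGc : Continuous G := hG.continuous
  let D : Set (M × M) := {q | G q = 0} \ 𝒱
  have hDc : IsCompact D :=
    ((isClosed_eq hGc continuous_const).sdiff h𝒱o).isCompact
  let O : Set (M × M) := (T ∪ τ ⁻¹' T)ᶜ
  have hτc : Continuous τ := hτ.continuous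
  have hOo : IsOpen O := (hTc.union (hTc.preimage hτc)).isOpen_compl
  have hDO : D ⊆ O := by
    intro q hq h
    rcases h with h | h
    · exact hq.2 (hT𝒱 h)
    · have := h𝒱s _ (hT𝒱 h)
      exact hq.2 (by simpa [τ] using this)
  have hfix : ∀ q ∈ O, τ q ≠ q := by
    intro q hq h
    apply hq
    left
    have : q.1 = q.2 := by
      have := congrArg Prod.fst h
      simpa [τ] using this.symm
    have h2 : q = (q.1, q.1) := Prod.ext rfl this.symm
    rw [h2]
    exact hΔT _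
  have hOτ : ∀ q ∈ O, τ q ∈ O := by
    intro q hq h
    apply hq
    rcases h with h | h
    · exact Or.inr h
    · left
      have h' : τ (τ q) ∈ T := h
      rwa [hττ] at h'
  have hd : finrank ℝ (E × E) = finrank ℝ R4 := by
    rw [Module.finrank_prod, hE, finrank_euclideanSpace_fin]
  obtain ⟨D', hD'o, hDD', hD'O, hD'⟩ := odd_perturb (𝓘(ℝ, E).prod 𝓘(ℝ, E)) hd hτ hττ hG hGodd
    hDc hOo hDO hfix hOτ
  -- a lower bound for `G`
  have hm : ∃ m : ℝ, 0 < m ∧ ∀ q ∈ (D' ∪ V1)ᶜ, m ≤ ‖G q‖ := by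
    have hC : IsCompact (D' ∪ V1)ᶜ := (hD'o.union hV1o).isClosed_compl.isCompact
    rcases (D' ∪ V1)ᶜ.eq_empty_or_nonempty with h | h
    · exact ⟨1, one_pos, fun q hq => by rw [h] at hq; exact hq.elim⟩
    · obtain ⟨q0, hq0, hq0m⟩ := hC.exists_isMinOn h hGc.norm.continuousOn
      refine ⟨‖G q0‖, ?_, fun q hq => hq0m hq⟩
      rw [norm_pos_iff]
      intro h0
      by_cases h1 : q0 ∈ 𝒱
      · have h2 : q0.1 = q0.2 := h𝒱d q0 h1 0 (by simpa [G] using h0)
        exact hq0 (Or.inr (hΔV1 h2))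
      · exact hq0 (Or.inl (hDD' ⟨h0, h1⟩))
  obtain ⟨m, hm0, hm⟩ := hm
  obtain ⟨η, hηs, hηodd, hηm, hηO, hηr⟩ := hD' m hm0
  -- the final function
  let Ψ : M × M → R4 := fun q => G q - β q • ξ q.2 + η q
  have hΨ : ContMDiff (𝓘(ℝ, E).prod 𝓘(ℝ, E)) 𝓘(ℝ, R4) ∞ Ψ :=
    (hG.sub (β.contMDiff.smul (hξ.sm.comp contMDiff_snd))).add hηs
  have hηT : ∀ q ∈ T, η =ᶠ[𝓝 q] 0 := by
    intro q hq
    apply notMem_tsupport_iff_eventuallyEq.1
    intro h
    exact hηO h (Or.inl hq)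
  -- zeros in `T`
  have hin : ∀ q ∈ T, Ψ q = 0 → q.1 = q.2 ∧ ξ q.1 = 0 := by
    intro q hq h
    have h0 : η q = 0 := (hηT q hq).self_of_nhds
    have h1 : F q.1 - F q.2 = β q • ξ q.2 := by
      have : G q - β q • ξ q.2 + η q = 0 := h
      rw [h0, add_zero, sub_eq_zero] at this
      exact this
    have h2 : q.1 = q.2 := h𝒱d q (hT𝒱 hq) _ h1
    refine ⟨h2, ?_⟩
    rw [h2, sub_self] at h1
    have h3 : β q = 1 := hV1 q (hΔV1 h2)
    rw [h3, one_smul] at h1
    rw [h2]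
    exact h1.symm
  have hdiag : ∀ a : M, ξ a = 0 → Ψ (a, a) = 0 := by
    intro a ha
    have h0 : η (a, a) = 0 := (hηT _ (hΔT a)).self_of_nhds
    show G (a, a) - β (a, a) • ξ a + η (a, a) = 0
    rw [h0, ha]
    simp [G]
  have hout : ∀ q, q ∉ T → Ψ =ᶠ[𝓝 q] fun x => G x + η x := by
    intro q hq
    have h := notMem_tsupport_iff_eventuallyEq.1 hq
    filter_upwards [h] with x hx
    show G x - β x • ξ x.2 + η x = G x + η x
    rw [hx]
    simp
  have houtD : ∀ q, q ∉ T → Ψ q = 0 → q ∈ D' := by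
    intro q hq h
    rw [(hout q hq).self_of_nhds] at h
    by_contra hc
    have h1 : q ∉ V1 := fun h => hq (hV1T h)
    have h2 := hm q (fun h => h.elim hc h1)
    have h3 : ‖G q‖ = ‖η q‖ := by
      rw [eq_neg_of_add_eq_zero_left h, norm_neg]
    exact absurd (hηm q) (not_lt.2 (h3 ▸ h2))
  have hreg : ∀ q, Ψ q = 0 →
      Function.Injective (mfderiv (𝓘(ℝ, E).prod 𝓘(ℝ, E)) 𝓘(ℝ, R4) Ψ q) := by
    intro q h
    by_cases hq : q ∈ T
    · obtain ⟨h1, h2⟩ := hin q hq h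
      obtain ⟨a, b⟩ := q
      have h1' : a = b := h1
      subst h1'
      have h2' : ξ a = 0 := h2
      have h3 : Ψ =ᶠ[𝓝 (a, a)] fun q : M × M => F q.1 - F q.2 - (1 : ℝ) • ξ q.2 := by
        filter_upwards [hηT _ hq, hV1o.mem_nhds (hΔV1 (mem_diagonal a))] with x hx1 hx2
        show G x - β x • ξ x.2 + η x = F x.1 - F x.2 - (1 : ℝ) • ξ x.2
        rw [hx1, hV1 x hx2]
        simp [G]
      rw [h3.mfderiv_eq]
      exact regular_diag hF hξ h2' (hr a h2') one_ne_zero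
    · have h1 := houtD q hq h
      rw [(hout q hq).mfderiv_eq]
      rw [(hout q hq).self_of_nhds] at h
      exact hηr q h1 h
  obtain ⟨hfin, heven⟩ := even_zeros (𝓘(ℝ, E).prod 𝓘(ℝ, E)) hd
    (by rw [finrank_euclideanSpace_fin]; norm_num) hΨ hreg
  let Z : Set (M × M) := {q | q ∈ O ∧ G q + η q = 0}
  have hOT : ∀ q ∈ O, q ∉ T := fun q hq h => hq (Or.inl h)
  have hsplit : {q | Ψ q = 0} = (fun a : M => (a, a)) '' {p | ξ p = 0} ∪ Z := by
    ext q
    constructor
    · intro h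
      by_cases hq : q ∈ T
      · left
        obtain ⟨h1, h2⟩ := hin q hq h
        exact ⟨q.1, h2, Prod.ext rfl h1⟩
      · right
        refine ⟨hD'O (houtD q hq h), ?_⟩
        have h' : Ψ q = 0 := h
        rwa [(hout q hq).self_of_nhds] at h'
    · rintro (⟨a, ha, rfl⟩ | h)
      · exact hdiag a ha
      · show Ψ q = 0
        rw [(hout q (hOT q h.1)).self_of_nhds]
        exact h.2
  have hZfin : Z.Finite := hfin.subset (by rw [hsplit]; exact subset_union_right)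
  have hAfin : ((fun a : M => (a, a)) '' {p | ξ p = 0}).Finite :=
    hfin.subset (by rw [hsplit]; exact subset_union_left)
  have hdisj : Disjoint ((fun a : M => (a, a)) '' {p | ξ p = 0}) Z := by
    rw [Set.disjoint_left]
    rintro q ⟨a, -, rfl⟩ h
    exact hOT _ h.1 (hΔT a)
  have hZeven : Even Z.ncard := by
    refine par_even_of_involution hZfin (τ := τ) ?_ hττ ?_
    · intro q hq
      refine ⟨hOτ q hq.1, ?_⟩
      rw [hGodd, hηodd, ← neg_add, hq.2, neg_zero]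
    · intro q hq
      exact hfix q hq.1
  have hinj : Function.Injective (fun a : M => (a, a)) := fun a b h => (Prod.ext_iff.1 h).1
  rw [hsplit, Set.ncard_union_eq hdisj hAfin hZfin, Set.ncard_image_of_injective _ hinj] at heven
  exact (Nat.even_add.1 heven).2 hZeven

end Surface

end Vale.Agent.P205.Top
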