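import Vale.Agent.P205.Top.Log

/-!
Block TOP of P205: functions on a disc of the plane. All zeros inside a circle are replaced by one
standard zero in the centre, or moved to a given point inside.
-/

open scoped Manifold ContDiff Topology RealInnerProductSpace
open Set Filter MeasureTheory Module

noncomputable section

namespace Vale.Agent.P205.Top

section Plane

theorem pl_zp_contDiff (w : ℤ) : ContDiff ℝ ∞ (zp w) := by
  by_cases hw : 0 ≤ w
  · have h : zp w = fun z => z ^ w.toNat := by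
      funext z
      simp only [zp, if_pos hw]
    rw [h]
    exact contDiff_id.pow _
  · have h : zp w = fun z => (starRingEnd ℂ z) ^ (-w).toNat := by
      funext z
      simp only [zp, if_neg hw]
    rw [h]
    have h2 : ContDiff ℝ ∞ (fun z : ℂ => starRingEnd ℂ z) := Complex.conjCLE.contDiff
    exact h2.pow _

theorem pl_zp_eq_zero {w : ℤ} {z : ℂ} (h : zp w z = 0) : z = 0 := by
  unfold zp at h
  split_ifs at h
  · exact eq_zero_of_pow_eq_zero h
  · have h2 := eq_zero_of_pow_eq_zero h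
    simpa using h2

/-- radial cut-off: `0` for `‖z‖ ≤ a` and `1` for `b ≤ ‖z‖` -/
def plCut (a b : ℝ) (z : ℂ) : ℝ := Real.smoothTransition ((‖z‖ ^ 2 - a ^ 2) / (b ^ 2 - a ^ 2))

theorem plCut_contDiff (a b : ℝ) : ContDiff ℝ ∞ (plCut a b) := by
  unfold plCut
  refine Real.smoothTransition.contDiff.comp ?_
  exact ((contDiff_norm_sq ℝ).sub contDiff_const).div_const _

theorem plCut_zero {a b : ℝ} (ha : 0 < a) (hab : a < b) {z : ℂ} (hz : ‖z‖ ≤ a) :
    plCut a b z = 0 := by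
  unfold plCut
  apply Real.smoothTransition.zero_of_nonpos
  have h1 : ‖z‖ ^ 2 ≤ a ^ 2 := pow_le_pow_left₀ (norm_nonneg z) hz 2
  have h2 : a ^ 2 < b ^ 2 := pow_lt_pow_left₀ hab ha.le two_ne_zero
  exact div_nonpos_of_nonpos_of_nonneg (by linarith) (by linarith)

theorem plCut_one {a b : ℝ} (ha : 0 < a) (hab : a < b) {z : ℂ} (hz : b ≤ ‖z‖) :
    plCut a b z = 1 := by
  unfold plCut
  apply Real.smoothTransition.one_of_one_le
  have h1 : b ^ 2 ≤ ‖z‖ ^ 2 := pow_le_pow_left₀ (ha.trans hab).le hz 2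
  have h2 : a ^ 2 < b ^ 2 := pow_lt_pow_left₀ hab ha.le two_ne_zero
  rw [le_div_iff₀ (by linarith)]
  linarith

theorem plCut_nonneg (a b : ℝ) (z : ℂ) : 0 ≤ plCut a b z := Real.smoothTransition.nonneg _

theorem plCut_le_one (a b : ℝ) (z : ℂ) : plCut a b z ≤ 1 := Real.smoothTransition.le_one _

theorem pl_glue {r1 r2 R : ℝ} (h1 : 0 < r1) (h2 : r1 < r2) {g : ℂ → ℂ}
    (hg : ContDiffOn ℝ ∞ g {z | ‖z‖ < R}) {w : ℤ} {h : ℂ → ℂ}
    (hh : ContDiffOn ℝ ∞ h {z | r1 < ‖z‖ ∧ ‖z‖ < r2})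
    (hgh : ∀ z, r1 < ‖z‖ → ‖z‖ < r2 → g z = zp w z * Complex.exp (h z))
    {u : ℂ → ℂ} (hu : ContDiff ℝ ∞ u) (huz : ∀ z, r1 ≤ ‖z‖ → u z = zp w z) :
    ∃ (g' : ℂ → ℂ) (s : ℝ), r1 < s ∧ s < r2 ∧ ContDiffOn ℝ ∞ g' {z | ‖z‖ < R} ∧
      (∀ z, r2 ≤ ‖z‖ → g' z = g z) ∧ (∀ z, ‖z‖ < s → g' z = u z) ∧
      (∀ z, ‖z‖ < r2 → g' z = 0 → u z = 0) := by
  set a : ℝ := r1 + (r2 - r1) / 3 with ha
  set b : ℝ := r1 + 2 * (r2 - r1) / 3 with hb
  have ha1 : r1 < a := by rw [ha]; linarith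
  have hab : a < b := by rw [ha, hb]; linarith
  have hb2 : b < r2 := by rw [hb]; linarith
  have ha0 : 0 < a := h1.trans ha1
  set F : ℂ → ℂ := fun z => u z * Complex.exp ((plCut a b z : ℂ) * h z) with hF
  set g' : ℂ → ℂ := fun z => if ‖z‖ < r2 then F z else g z with hg'
  have hFa : ∀ z, ‖z‖ ≤ a → F z = u z := by
    intro z hz
    simp only [hF, plCut_zero ha0 hab hz]
    simp
  have hFb : ∀ z, b ≤ ‖z‖ → ‖z‖ < r2 → F z = g z := by
    intro z hz hz2
    simp only [hF, plCut_one ha0 hab hz]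
    rw [hgh z (by linarith) hz2, huz z (by linarith)]
    simp
  have hgb : ∀ z, b ≤ ‖z‖ → g' z = g z := by
    intro z hz
    simp only [hg']
    split_ifs with h3
    · exact hFb z hz h3
    · rfl
  have hga : ∀ z, ‖z‖ ≤ a → g' z = u z := by
    intro z hz
    simp only [hg']
    rw [if_pos (by linarith)]
    exact hFa z hz
  refine ⟨g', a, ha1, hab.trans hb2, ?_, ?_, ?_, ?_⟩
  · intro z hz
    have hopen : IsOpen {z : ℂ | ‖z‖ < R} := isOpen_lt continuous_norm continuous_const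
    apply ContDiffAt.contDiffWithinAt
    rcases lt_or_ge ‖z‖ a with h3 | h3
    · have h4 : g' =ᶠ[𝓝 z] u := by
        have : {z : ℂ | ‖z‖ < a} ∈ 𝓝 z := (isOpen_lt continuous_norm continuous_const).mem_nhds h3
        filter_upwards [this] with y hy
        exact hga y (le_of_lt hy)
      exact hu.contDiffAt.congr_of_eventuallyEq h4
    · rcases lt_or_ge b ‖z‖ with h5 | h5
      · have h4 : g' =ᶠ[𝓝 z] g := by
          have : {z : ℂ | b < ‖z‖} ∈ 𝓝 z :=
            (isOpen_lt continuous_const continuous_norm).mem_nhds h5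
          filter_upwards [this] with y hy
          exact hgb y (le_of_lt hy)
        exact ((hg z hz).contDiffAt (hopen.mem_nhds hz)).congr_of_eventuallyEq h4
      · have h6 : z ∈ {z : ℂ | r1 < ‖z‖ ∧ ‖z‖ < r2} := ⟨by linarith, by linarith⟩
        have hopen2 : IsOpen {z : ℂ | r1 < ‖z‖ ∧ ‖z‖ < r2} :=
          (isOpen_lt continuous_const continuous_norm).inter
            (isOpen_lt continuous_norm continuous_const)
        have h4 : g' =ᶠ[𝓝 z] F := by
          have : {z : ℂ | ‖z‖ < r2} ∈ 𝓝 z :=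
            (isOpen_lt continuous_norm continuous_const).mem_nhds h6.2
          filter_upwards [this] with y hy
          simp only [hg']
          rw [if_pos hy]
        refine ContDiffAt.congr_of_eventuallyEq ?_ h4
        have h7 : ContDiffAt ℝ ∞ h z := (hh z h6).contDiffAt (hopen2.mem_nhds h6)
        have h8 : ContDiffAt ℝ ∞ (fun z : ℂ => (plCut a b z : ℂ)) z :=
          (Complex.ofRealCLM.contDiff.comp (plCut_contDiff a b)).contDiffAt
        exact hu.contDiffAt.mul ((h8.mul h7).cexp)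
  · intro z hz
    exact hgb z (by linarith)
  · intro z hz
    exact hga z (le_of_lt hz)
  · intro z hz h0
    simp only [hg'] at h0
    rw [if_pos hz] at h0
    simp only [hF] at h0
    rcases mul_eq_zero.1 h0 with h3 | h3
    · exact h3
    · exact absurd h3 (Complex.exp_ne_zero _)

/-- G1: all zeros inside a circle can be replaced by one standard zero in the centre -/
theorem exists_standard {r1 r2 R : ℝ} (h1 : 0 < r1) (h2 : r1 < r2) (h3 : r2 < R) {g : ℂ → ℂ}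
    (hg : ContDiffOn ℝ ∞ g {z | ‖z‖ < R}) (h0 : ∀ z, r1 < ‖z‖ → ‖z‖ < r2 → g z ≠ 0) :
    ∃ (w : ℤ) (g' : ℂ → ℂ) (s : ℝ), 0 < s ∧ s < r2 ∧ ContDiffOn ℝ ∞ g' {z | ‖z‖ < R} ∧
      (∀ z, r2 ≤ ‖z‖ → g' z = g z) ∧ (∀ z, ‖z‖ < s → g' z = zp w z) ∧
      (∀ z, ‖z‖ < r2 → g' z = 0 → z = 0) := by
  have hgA : ContDiffOn ℝ ∞ g {z | r1 < ‖z‖ ∧ ‖z‖ < r2} := by
    refine hg.mono ?_
    rintro z ⟨-, hz⟩
    exact hz.trans h3
  obtain ⟨w, h, hh, hgh⟩ := exists_log h1 h2 hgA h0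
  obtain ⟨g', s, hs1, hs2, hg1, hg2, hg3, hg4⟩ :=
    pl_glue h1 h2 hg hh hgh (pl_zp_contDiff w) (fun z _ => rfl)
  exact ⟨w, g', s, h1.trans hs1, hs2, hg1, hg2, hg3, fun z hz hz0 => pl_zp_eq_zero (hg4 z hz hz0)⟩

/-- F1: all zeros inside a circle can be moved to a given point inside -/
theorem exists_absorb {r1 r2 R : ℝ} (h1 : 0 < r1) (h2 : r1 < r2) (h3 : r2 < R) {g : ℂ → ℂ}
    (hg : ContDiffOn ℝ ∞ g {z | ‖z‖ < R}) (h0 : ∀ z, r1 < ‖z‖ → ‖z‖ < r2 → g z ≠ 0)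
    {q : ℂ} (hq : ‖q‖ < r1) :
    ∃ g' : ℂ → ℂ, ContDiffOn ℝ ∞ g' {z | ‖z‖ < R} ∧ (∀ z, r2 ≤ ‖z‖ → g' z = g z) ∧
      (∀ z, ‖z‖ < r2 → g' z = 0 → z = q) := by
  have hgA : ContDiffOn ℝ ∞ g {z | r1 < ‖z‖ ∧ ‖z‖ < r2} := by
    refine hg.mono ?_
    rintro z ⟨-, hz⟩
    exact hz.trans h3
  obtain ⟨w, h, hh, hgh⟩ := exists_log h1 h2 hgA h0
  set c : ℝ := (‖q‖ + r1) / 2 with hc
  have hqc : ‖q‖ < c := by rw [hc]; linarith
  have hc1 : c < r1 := by rw [hc]; linarith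
  have hc0 : 0 < c := lt_of_le_of_lt (norm_nonneg q) hqc
  set u : ℂ → ℂ := fun z => zp w (z - ((1 - plCut c r1 z : ℝ) : ℂ) * q) with hu
  have hus : ContDiff ℝ ∞ u := by
    have e1 : ContDiff ℝ ∞ (fun z : ℂ => ((1 - plCut c r1 z : ℝ) : ℂ)) :=
      Complex.ofRealCLM.contDiff.comp (contDiff_const.sub (plCut_contDiff c r1))
    exact (pl_zp_contDiff w).comp (contDiff_id.sub (e1.mul contDiff_const))
  have huz : ∀ z, r1 ≤ ‖z‖ → u z = zp w z := by
    intro z hz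
    simp only [hu, plCut_one hc0 hc1 hz]
    simp
  obtain ⟨g', s, hs1, hs2, hg1, hg2, hg3, hg4⟩ := pl_glue h1 h2 hg hh hgh hus huz
  refine ⟨g', hg1, hg2, fun z hz hz0 => ?_⟩
  have e2 : u z = 0 := hg4 z hz hz0
  have e3 : z = ((1 - plCut c r1 z : ℝ) : ℂ) * q := sub_eq_zero.1 (pl_zp_eq_zero e2)
  have e4 : ‖z‖ ≤ ‖q‖ := by
    have e5 : ‖z‖ = |1 - plCut c r1 z| * ‖q‖ := by
      conv_lhs => rw [e3]
      rw [norm_mul, Complex.norm_real, Real.norm_eq_abs]
    rw [e5]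
    have e6 : |1 - plCut c r1 z| ≤ 1 := by
      rw [abs_le]
      have := plCut_nonneg c r1 z
      have := plCut_le_one c r1 z
      constructor <;> linarith
    calc |1 - plCut c r1 z| * ‖q‖ ≤ 1 * ‖q‖ := mul_le_mul_of_nonneg_right e6 (norm_nonneg q)
      _ = ‖q‖ := one_mul _
  rw [plCut_zero hc0 hc1 (e4.trans hqc.le)] at e3
  simpa using e3

end Plane

end Vale.Agent.P205.Top
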