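import Vale.Agent.P205.Top.Defs

/-!
Block TOP of P205, G2: the standard zero can be split into simple zeros.
-/

open scoped Manifold ContDiff Topology RealInnerProductSpace
open Set Filter MeasureTheory Module

noncomputable section

namespace Vale.Agent.P205.Top

section Plane

theorem split_roots {n : ℕ} (hn : n ≠ 0) {r : ℝ} (hr : 0 < r) :
    {z : ℂ | z ^ n = (r : ℂ) ^ n}.ncard = n := by
  have hr' : (r : ℂ) ≠ 0 := by exact_mod_cast hr.ne'
  have h1 : {z : ℂ | z ^ n = (r : ℂ) ^ n} =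
      (fun ζ : ℂ => (r : ℂ) * ζ) '' (↑(Polynomial.nthRootsFinset n (1 : ℂ)) : Set ℂ) := by
    ext z
    simp only [mem_setOf_eq, mem_image, Finset.mem_coe,
      Polynomial.mem_nthRootsFinset (Nat.pos_of_ne_zero hn)]
    constructor
    · intro hz
      refine ⟨z / r, ?_, ?_⟩
      · rw [div_pow, hz]
        exact div_self (pow_ne_zero _ hr')
      · field_simp
    · rintro ⟨ζ, h, rfl⟩
      rw [mul_pow, h, mul_one]
  rw [h1, ncard_image_of_injective _ (mul_right_injective₀ hr'), ncard_coe_finset]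
  exact (Complex.isPrimitiveRoot_exp n hn).card_nthRootsFinset

theorem split_nat {s : ℝ} (hs : 0 < s) (n : ℕ) :
    ∃ g : ℂ → ℂ, ContDiff ℝ ∞ g ∧ (∀ z, s / 2 ≤ ‖z‖ → g z = z ^ n) ∧
      {z | ‖z‖ < s / 2 ∧ g z = 0}.ncard = n ∧
      (∀ z, ‖z‖ < s / 2 → g z = 0 → Function.Injective (fderiv ℝ g z)) := by
  rcases Nat.eq_zero_or_pos n with rfl | hn
  · refine ⟨fun _ => 1, contDiff_const, fun z _ => by simp, ?_, ?_⟩
    · have : {z : ℂ | ‖z‖ < s / 2 ∧ (1 : ℂ) = 0} = ∅ := by
        ext z; simp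
      rw [this, ncard_empty]
    · intro z _ h
      exact absurd h one_ne_zero
  · let f : ContDiffBump (0 : ℂ) := ⟨s / 4, s / 2, by positivity, by linarith⟩
    have f1 : ∀ z : ℂ, ‖z‖ ≤ s / 4 → f z = 1 := fun z hz =>
      f.one_of_mem_closedBall (by simpa [Metric.mem_closedBall, dist_zero_right] using hz)
    have f0 : ∀ z : ℂ, s / 2 ≤ ‖z‖ → f z = 0 := fun z hz =>
      f.zero_of_le_dist (by simpa [dist_zero_right] using hz)
    have fle : ∀ z : ℂ, f z ≤ 1 := fun z => f.le_one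
    have fnn : ∀ z : ℂ, 0 ≤ f z := fun z => f.nonneg
    have hr : 0 < s / 8 := by positivity
    have hn' : n ≠ 0 := hn.ne'
    -- the zeros
    have key : ∀ z : ℂ, (‖z‖ < s / 2 ∧ z ^ n - ((s / 8 : ℝ) : ℂ) ^ n * ((f z : ℝ) : ℂ) = 0) ↔
        z ^ n = ((s / 8 : ℝ) : ℂ) ^ n := by
      intro z
      constructor
      · rintro ⟨h1, h2⟩
        have h3 : z ^ n = ((s / 8 : ℝ) : ℂ) ^ n * ((f z : ℝ) : ℂ) := sub_eq_zero.1 h2
        by_cases h4 : ‖z‖ ≤ s / 4
        · rw [h3, f1 z h4]
          simp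
        · push Not at h4
          exfalso
          have h5 : ‖z‖ ^ n = (s / 8) ^ n * f z := by
            have := congrArg norm h3
            rw [norm_pow, norm_mul, norm_pow, Complex.norm_real, Complex.norm_real,
              Real.norm_of_nonneg hr.le, Real.norm_of_nonneg (fnn z)] at this
            exact this
          have h6 : (s / 8) ^ n < ‖z‖ ^ n := pow_lt_pow_left₀ (by linarith) hr.le hn'
          have h7 : (s / 8) ^ n * f z ≤ (s / 8) ^ n * 1 :=
            mul_le_mul_of_nonneg_left (fle z) (by positivity)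
          linarith
      · intro h
        have h1 : ‖z‖ = s / 8 := by
          have := congrArg norm h
          rw [norm_pow, norm_pow, Complex.norm_real, Real.norm_of_nonneg hr.le] at this
          exact (pow_left_inj₀ (norm_nonneg _) hr.le hn').1 this
        refine ⟨by rw [h1]; linarith, ?_⟩
        rw [f1 z (by rw [h1]; linarith), h]
        simp
    refine ⟨fun z => z ^ n - ((s / 8 : ℝ) : ℂ) ^ n * ((f z : ℝ) : ℂ), ?_, ?_, ?_, ?_⟩
    · have hf : ContDiff ℝ ∞ (fun z : ℂ => ((f z : ℝ) : ℂ)) :=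
        Complex.ofRealCLM.contDiff.comp f.contDiff
      exact (contDiff_id.pow n).sub (contDiff_const.mul hf)
    · intro z hz
      simp only [f0 z hz, Complex.ofReal_zero, mul_zero, sub_zero]
    · have : {z : ℂ | ‖z‖ < s / 2 ∧ z ^ n - ((s / 8 : ℝ) : ℂ) ^ n * ((f z : ℝ) : ℂ) = 0} =
          {z : ℂ | z ^ n = ((s / 8 : ℝ) : ℂ) ^ n} := by
        ext z
        exact key z
      rw [this]
      exact split_roots hn' hr
    · intro z hz h
      have h0 : z ^ n = ((s / 8 : ℝ) : ℂ) ^ n := (key z).1 ⟨hz, h⟩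
      have h1 : ‖z‖ = s / 8 := by
        have := congrArg norm h0
        rw [norm_pow, norm_pow, Complex.norm_real, Real.norm_of_nonneg hr.le] at this
        exact (pow_left_inj₀ (norm_nonneg _) hr.le hn').1 this
      have hz0 : z ≠ 0 := by
        rintro rfl
        rw [norm_zero] at h1
        linarith
      have hev : (fun z : ℂ => z ^ n - ((s / 8 : ℝ) : ℂ) ^ n * ((f z : ℝ) : ℂ)) =ᶠ[𝓝 z]
          fun z => z ^ n - ((s / 8 : ℝ) : ℂ) ^ n := by
        have hopen : IsOpen {y : ℂ | ‖y‖ < s / 4} := isOpen_lt continuous_norm continuous_const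
        filter_upwards [hopen.mem_nhds (show ‖z‖ < s / 4 by rw [h1]; linarith)] with y hy
        rw [f1 y (le_of_lt hy)]
        simp
      have hd : HasDerivAt (fun z : ℂ => z ^ n - ((s / 8 : ℝ) : ℂ) ^ n)
          ((n : ℂ) * z ^ (n - 1)) z := (hasDerivAt_pow n z).sub_const _
      have hc : (n : ℂ) * z ^ (n - 1) ≠ 0 :=
        mul_ne_zero (by exact_mod_cast hn') (pow_ne_zero _ hz0)
      have hfd := hd.hasFDerivAt.restrictScalars ℝ
      rw [hev.fderiv_eq, hfd.fderiv]
      intro u v huv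
      have huv' : u * ((n : ℂ) * z ^ (n - 1)) = v * ((n : ℂ) * z ^ (n - 1)) := by
        simpa using huv
      exact mul_right_cancel₀ hc huv'

/-- G2: the standard zero can be split into `|w|` simple zeros -/
theorem exists_split {s : ℝ} (hs : 0 < s) (w : ℤ) :
    ∃ g : ℂ → ℂ, ContDiff ℝ ∞ g ∧ (∀ z, s / 2 ≤ ‖z‖ → g z = zp w z) ∧
      {z | ‖z‖ < s / 2 ∧ g z = 0}.ncard = w.natAbs ∧
      (∀ z, ‖z‖ < s / 2 → g z = 0 → Function.Injective (fderiv ℝ g z)) := by
  by_cases hw : 0 ≤ w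
  · obtain ⟨g, h1, h2, h3, h4⟩ := split_nat hs w.toNat
    refine ⟨g, h1, fun z hz => ?_, ?_, h4⟩
    · rw [h2 z hz, zp, if_pos hw]
    · rw [h3]
      omega
  · obtain ⟨g, h1, h2, h3, h4⟩ := split_nat hs (-w).toNat
    refine ⟨fun z => g (starRingEnd ℂ z), ?_, ?_, ?_, ?_⟩
    · exact h1.comp Complex.conjCLE.contDiff
    · intro z hz
      have hz' : s / 2 ≤ ‖starRingEnd ℂ z‖ := by rwa [RCLike.norm_conj]
      show g (starRingEnd ℂ z) = zp w z
      rw [h2 _ hz', zp, if_neg hw]
    · have himg : {z : ℂ | ‖z‖ < s / 2 ∧ g (starRingEnd ℂ z) = 0} =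
          (starRingEnd ℂ) '' {z : ℂ | ‖z‖ < s / 2 ∧ g z = 0} := by
        ext z
        simp only [mem_setOf_eq, mem_image]
        constructor
        · rintro ⟨ha, hb⟩
          exact ⟨starRingEnd ℂ z, ⟨by rwa [RCLike.norm_conj], hb⟩, Complex.conj_conj z⟩
        · rintro ⟨y, ⟨ha, hb⟩, rfl⟩
          exact ⟨by rwa [RCLike.norm_conj], by rwa [Complex.conj_conj]⟩
      rw [himg, ncard_image_of_injective _ (starRingEnd ℂ).injective, h3]
      omega
    · intro z hz h
      have hz' : ‖starRingEnd ℂ z‖ < s / 2 := by rwa [RCLike.norm_conj]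
      have hinj := h4 _ hz' h
      have hgd : HasFDerivAt g (fderiv ℝ g (starRingEnd ℂ z)) (Complex.conjCLE z) :=
        (h1.differentiable (by simp)).differentiableAt.hasFDerivAt
      have hcomp : HasFDerivAt (fun z => g (starRingEnd ℂ z))
          ((fderiv ℝ g (starRingEnd ℂ z)).comp (Complex.conjCLE : ℂ →L[ℝ] ℂ)) z :=
        hgd.comp z Complex.conjCLE.hasFDerivAt
      rw [hcomp.fderiv]
      intro u v huv
      have huv' : fderiv ℝ g (starRingEnd ℂ z) (starRingEnd ℂ u) =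
          fderiv ℝ g (starRingEnd ℂ z) (starRingEnd ℂ v) := huv
      exact (starRingEnd ℂ).injective (hinj huv')

end Plane

end Vale.Agent.P205.Top
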