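import Vale.Agent.P205.Top.Immers
import Vale.Agent.P205.Top.Flat
import Vale.Agent.P205.Top.Absorb
import Vale.Agent.P205.Top.Plane
import Vale.Agent.P205.Top.Split
import Vale.Agent.P205.Top.Par
import Vale.Agent.P205.Top.Kink2

/-!
Block TOP of P205, part G: a pair (immersion, nowhere tangent field) on a connected surface.
-/

open scoped Manifold ContDiff Topology RealInnerProductSpace
open Set Filter MeasureTheory Module

noncomputable section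

namespace Vale.Agent.P205.Top

namespace Pair

section Chart

variable {E : Type*} [NormedAddCommGroup E] [NormedSpace ℝ E]
  {M : Type*} [TopologicalSpace M] [ChartedSpace E M]

/-- complex coordinate of the chart at `p0` -/
def zc (L : E ≃L[ℝ] ℂ) (p0 p : M) : ℂ :=
  L (extChartAt 𝓘(ℝ, E) p0 p - extChartAt 𝓘(ℝ, E) p0 p0)

/-- inverse of the complex coordinate -/
def zi (L : E ≃L[ℝ] ℂ) (p0 : M) (z : ℂ) : M :=
  (extChartAt 𝓘(ℝ, E) p0).symm (extChartAt 𝓘(ℝ, E) p0 p0 + L.symm z)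

/-- disc in the chart -/
def Dz (L : E ≃L[ℝ] ℂ) (p0 : M) (R : ℝ) : Set M :=
  {p | p ∈ (extChartAt 𝓘(ℝ, E) p0).source ∧ ‖zc L p0 p‖ < R}

/-- closed disc in the chart -/
def Kz (L : E ≃L[ℝ] ℂ) (p0 : M) (r : ℝ) : Set M :=
  {p | p ∈ (extChartAt 𝓘(ℝ, E) p0).source ∧ ‖zc L p0 p‖ ≤ r}

/-- the disc of radius `R` is contained in the image of the chart -/
structure Good (L : E ≃L[ℝ] ℂ) (p0 : M) (R : ℝ) : Prop where
  pos : 0 < R
  tgt : ∀ z : ℂ, ‖z‖ < R → extChartAt 𝓘(ℝ, E) p0 p0 + L.symm z ∈ (extChartAt 𝓘(ℝ, E) p0).target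

variable {L : E ≃L[ℝ] ℂ} {p0 p : M} {R : ℝ}

theorem zc_self : zc L p0 p0 = 0 := by simp [zc]

theorem zi_zc (hp : p ∈ (extChartAt 𝓘(ℝ, E) p0).source) : zi L p0 (zc L p0 p) = p := by
  unfold zi zc
  rw [L.symm_apply_apply, add_sub_cancel]
  exact (extChartAt 𝓘(ℝ, E) p0).left_inv hp

theorem zc_zi (hG : Good L p0 R) {z : ℂ} (hz : ‖z‖ < R) : zc L p0 (zi L p0 z) = z := by
  unfold zi zc
  rw [(extChartAt 𝓘(ℝ, E) p0).right_inv (hG.tgt z hz), add_sub_cancel_left, L.apply_symm_apply]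

theorem zi_mem (hG : Good L p0 R) {z : ℂ} (hz : ‖z‖ < R) : zi L p0 z ∈ Dz L p0 R := by
  refine ⟨(extChartAt 𝓘(ℝ, E) p0).map_target (hG.tgt z hz), ?_⟩
  rw [zc_zi hG hz]
  exact hz

theorem isOpen_Dz : IsOpen (Dz L p0 R) := by
  have h := isOpen_extChartAt_preimage (I := 𝓘(ℝ, E)) p0
    (s := {x : E | ‖L (x - extChartAt 𝓘(ℝ, E) p0 p0)‖ < R})
    (isOpen_lt (by fun_prop) continuous_const)
  rw [← extChartAt_source (I := 𝓘(ℝ, E))] at h
  exact h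

theorem isClosed_Kz [T2Space M] (hG : Good L p0 R) {r : ℝ} (hr : r < R) :
    IsClosed (Kz L p0 r) := by
  have h1 : Kz L p0 r = zi L p0 '' Metric.closedBall (0 : ℂ) r := by
    ext q
    constructor
    · rintro ⟨h1, h2⟩
      exact ⟨zc L p0 q, by simpa using h2, zi_zc h1⟩
    · rintro ⟨z, hz, rfl⟩
      have hz' : ‖z‖ ≤ r := by simpa using hz
      refine ⟨(zi_mem hG (hz'.trans_lt hr)).1, ?_⟩
      rw [zc_zi hG (hz'.trans_lt hr)]
      exact hz'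
  have h2 : ContinuousOn (zi L p0) (Metric.closedBall (0 : ℂ) r) := by
    refine (continuousOn_extChartAt_symm (I := 𝓘(ℝ, E)) p0).comp (t := (extChartAt 𝓘(ℝ, E) p0).target)
      (f := fun z : ℂ => extChartAt 𝓘(ℝ, E) p0 p0 + L.symm z) (by fun_prop) ?_
    intro z hz
    have hz' : ‖z‖ ≤ r := by simpa using hz
    exact hG.tgt z (hz'.trans_lt hr)
  rw [h1]
  exact ((isCompact_closedBall (0 : ℂ) r).image_of_continuousOn h2).isClosed

theorem exists_good (L : E ≃L[ℝ] ℂ) (p0 : M) {U : Set M} (hU : U ∈ 𝓝 p0) :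
    ∃ R : ℝ, Good L p0 R ∧ Dz L p0 R ⊆ U := by
  set φ := extChartAt 𝓘(ℝ, E) p0 with hφ
  have h1 : φ.target ∈ 𝓝 (φ p0) := extChartAt_target_mem_nhds (I := 𝓘(ℝ, E)) p0
  have h2 : φ.symm ⁻¹' U ∈ 𝓝 (φ p0) := by
    refine (continuousAt_extChartAt_symm (I := 𝓘(ℝ, E)) p0).preimage_mem_nhds ?_
    rw [extChartAt_to_inv]
    exact hU
  have h3 : Tendsto (fun z : ℂ => φ p0 + L.symm z) (𝓝 0) (𝓝 (φ p0)) := by
    have : Continuous (fun z : ℂ => φ p0 + L.symm z) := by fun_prop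
    simpa using this.tendsto 0
  have h4 := h3 (inter_mem h1 h2)
  obtain ⟨R, hR, h5⟩ := Metric.mem_nhds_iff.1 (Filter.mem_map.1 h4)
  have h6 : ∀ z : ℂ, ‖z‖ < R → φ p0 + L.symm z ∈ φ.target ∧ zi L p0 z ∈ U := by
    intro z hz
    have : z ∈ Metric.ball (0 : ℂ) R := by simpa using hz
    exact h5 this
  refine ⟨R, ⟨hR, fun z hz => (h6 z hz).1⟩, ?_⟩
  rintro q ⟨hq1, hq2⟩
  have := (h6 _ hq2).2
  rwa [zi_zc hq1] at this

theorem Good.mono (hG : Good L p0 R) {r : ℝ} (h0 : 0 < r) (hr : r ≤ R) : Good L p0 r :=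
  ⟨h0, fun z hz => hG.tgt z (hz.trans_le hr)⟩

theorem zi_smooth [IsManifold 𝓘(ℝ, E) ∞ M] (hG : Good L p0 R) :
    ContMDiffOn 𝓘(ℝ, ℂ) 𝓘(ℝ, E) ∞ (zi L p0) {z | ‖z‖ < R} := by
  have h1 : ContMDiffOn 𝓘(ℝ, ℂ) 𝓘(ℝ, E) ∞
      (fun z : ℂ => extChartAt 𝓘(ℝ, E) p0 p0 + L.symm z) {z | ‖z‖ < R} := by
    have : ContDiff ℝ ∞ (fun z : ℂ => extChartAt 𝓘(ℝ, E) p0 p0 + L.symm z) := by fun_prop
    exact this.contMDiff.contMDiffOn
  exact (contMDiffOn_extChartAt_symm (I := 𝓘(ℝ, E)) (n := ∞) p0).comp h1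
    (fun z hz => hG.tgt z hz)

theorem zc_smooth [IsManifold 𝓘(ℝ, E) ∞ M] (hp : p ∈ (extChartAt 𝓘(ℝ, E) p0).source) :
    ContMDiffAt 𝓘(ℝ, E) 𝓘(ℝ, ℂ) ∞ (zc L p0) p := by
  rw [extChartAt_source] at hp
  have h1 : ContMDiffAt 𝓘(ℝ, E) 𝓘(ℝ, E) ∞ (extChartAt 𝓘(ℝ, E) p0) p :=
    contMDiffAt_extChartAt' hp
  have h2 : ContDiff ℝ ∞ (fun x : E => L (x - extChartAt 𝓘(ℝ, E) p0 p0)) := by fun_prop
  exact (h2.contMDiff.contMDiffAt).comp p h1

theorem zc_bij [IsManifold 𝓘(ℝ, E) ∞ M] (hp : p ∈ (extChartAt 𝓘(ℝ, E) p0).source) :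
    Function.Bijective (mfderiv 𝓘(ℝ, E) 𝓘(ℝ, ℂ) (zc L p0) p) := by
  have : IsManifold 𝓘(ℝ, E) 1 M := IsManifold.of_le (n := ∞) (by simp)
  have h0 := isInvertible_mfderiv_extChartAt (I := 𝓘(ℝ, E)) hp
  have h1 : MDifferentiableAt 𝓘(ℝ, E) 𝓘(ℝ, E) (extChartAt 𝓘(ℝ, E) p0) p := by
    rw [extChartAt_source] at hp
    exact (contMDiffAt_extChartAt' (I := 𝓘(ℝ, E)) (n := ∞) hp).mdifferentiableAt (by simp)
  have h2 : HasFDerivAt (fun x : E => L (x - extChartAt 𝓘(ℝ, E) p0 p0)) (L : E →L[ℝ] ℂ)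
      (extChartAt 𝓘(ℝ, E) p0 p) := by
    have h := (L : E →L[ℝ] ℂ).hasFDerivAt.comp (extChartAt 𝓘(ℝ, E) p0 p)
      ((hasFDerivAt_id (𝕜 := ℝ) (extChartAt 𝓘(ℝ, E) p0 p)).sub_const
        (extChartAt 𝓘(ℝ, E) p0 p0))
    rw [ContinuousLinearMap.comp_id] at h
    exact h
  have h3 : HasMFDerivAt 𝓘(ℝ, E) 𝓘(ℝ, ℂ) (zc L p0) p
      ((L : E →L[ℝ] ℂ).comp (mfderiv 𝓘(ℝ, E) 𝓘(ℝ, E) (extChartAt 𝓘(ℝ, E) p0) p)) :=
    (h2.hasMFDerivAt).comp p h1.hasMFDerivAt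
  rw [h3.mfderiv]
  have h4 : Function.Bijective (mfderiv 𝓘(ℝ, E) 𝓘(ℝ, E) (extChartAt 𝓘(ℝ, E) p0) p) :=
    h0.bijective
  exact L.bijective.comp h4

end Chart

section Glue

variable {E : Type*} [NormedAddCommGroup E] [NormedSpace ℝ E]
  {M : Type*} [TopologicalSpace M] [ChartedSpace E M]

open Classical in
/-- `u ∘ z` on the disc, `f` outside -/
def glue (L : E ≃L[ℝ] ℂ) (p0 : M) (R : ℝ) (u : ℂ → R4) (f : M → R4) (p : M) : R4 :=
  if p ∈ Dz L p0 R then u (zc L p0 p) else f p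

/-- gluing data -/
structure GlueOK (L : E ≃L[ℝ] ℂ) (p0 : M) (R r : ℝ) (u : ℂ → R4) (f : M → R4) : Prop where
  good : Good L p0 R
  lt : r < R
  smu : ContDiffOn ℝ ∞ u {z | ‖z‖ < R}
  smf : ContMDiff 𝓘(ℝ, E) 𝓘(ℝ, R4) ∞ f
  agree : ∀ p ∈ Dz L p0 R, r ≤ ‖zc L p0 p‖ → u (zc L p0 p) = f p

variable {L : E ≃L[ℝ] ℂ} {p0 p : M} {R r : ℝ} {u : ℂ → R4} {f : M → R4}

theorem glue_in (hp : p ∈ Dz L p0 R) : glue L p0 R u f p = u (zc L p0 p) := if_pos hp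

theorem glue_out (hp : p ∉ Dz L p0 R) : glue L p0 R u f p = f p := if_neg hp

theorem glue_in_ev (hp : p ∈ Dz L p0 R) :
    glue L p0 R u f =ᶠ[𝓝 p] fun q => u (zc L p0 q) := by
  filter_upwards [isOpen_Dz.mem_nhds hp] with q hq
  exact glue_in hq

theorem glue_out_ev [T2Space M] (h : GlueOK L p0 R r u f) (hp : p ∉ Dz L p0 R) :
    glue L p0 R u f =ᶠ[𝓝 p] f := by
  have h1 : p ∉ Kz L p0 r := fun h2 => hp ⟨h2.1, h2.2.trans_lt h.lt⟩
  filter_upwards [(isClosed_Kz h.good h.lt).isOpen_compl.mem_nhds h1] with q hq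
  by_cases hq2 : q ∈ Dz L p0 R
  · rw [glue_in hq2]
    refine h.agree q hq2 ?_
    by_contra h3
    exact hq ⟨hq2.1, (not_le.1 h3).le⟩
  · exact glue_out hq2

theorem comp_smooth [IsManifold 𝓘(ℝ, E) ∞ M] (hu : ContDiffOn ℝ ∞ u {z | ‖z‖ < R})
    (hp : p ∈ Dz L p0 R) : ContMDiffAt 𝓘(ℝ, E) 𝓘(ℝ, R4) ∞ (fun q => u (zc L p0 q)) p := by
  have h1 : ContDiffAt ℝ ∞ u (zc L p0 p) :=
    hu.contDiffAt ((isOpen_lt continuous_norm continuous_const).mem_nhds hp.2)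
  exact h1.contMDiffAt.comp p (zc_smooth hp.1)

theorem comp_mfderiv [IsManifold 𝓘(ℝ, E) ∞ M] (hu : ContDiffOn ℝ ∞ u {z | ‖z‖ < R})
    (hp : p ∈ Dz L p0 R) (v : TangentSpace 𝓘(ℝ, E) p) :
    mfderiv 𝓘(ℝ, E) 𝓘(ℝ, R4) (fun q => u (zc L p0 q)) p v =
      fderiv ℝ u (zc L p0 p) (mfderiv 𝓘(ℝ, E) 𝓘(ℝ, ℂ) (zc L p0) p v) := by
  have h1 : ContDiffAt ℝ ∞ u (zc L p0 p) :=
    hu.contDiffAt ((isOpen_lt continuous_norm continuous_const).mem_nhds hp.2)
  have h2 : HasFDerivAt u (fderiv ℝ u (zc L p0 p)) (zc L p0 p) :=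
    (h1.differentiableAt (by simp)).hasFDerivAt
  have h3 : MDifferentiableAt 𝓘(ℝ, E) 𝓘(ℝ, ℂ) (zc L p0) p :=
    (zc_smooth hp.1).mdifferentiableAt (by simp)
  have h4 : HasMFDerivAt 𝓘(ℝ, E) 𝓘(ℝ, R4) (fun q => u (zc L p0 q)) p
      ((fderiv ℝ u (zc L p0 p)).comp (mfderiv 𝓘(ℝ, E) 𝓘(ℝ, ℂ) (zc L p0) p)) :=
    (h2.hasMFDerivAt).comp p h3.hasMFDerivAt
  rw [h4.mfderiv]
  rfl

theorem GlueOK.smooth [T2Space M] [IsManifold 𝓘(ℝ, E) ∞ M] (h : GlueOK L p0 R r u f) :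
    ContMDiff 𝓘(ℝ, E) 𝓘(ℝ, R4) ∞ (glue L p0 R u f) := by
  intro p
  by_cases hp : p ∈ Dz L p0 R
  · exact (comp_smooth h.smu hp).congr_of_eventuallyEq (glue_in_ev hp)
  · exact (h.smf p).congr_of_eventuallyEq (glue_out_ev h hp)

theorem GlueOK.mfderiv_in [IsManifold 𝓘(ℝ, E) ∞ M] (h : GlueOK L p0 R r u f)
    (hp : p ∈ Dz L p0 R) (v : TangentSpace 𝓘(ℝ, E) p) :
    mfderiv 𝓘(ℝ, E) 𝓘(ℝ, R4) (glue L p0 R u f) p v =
      fderiv ℝ u (zc L p0 p) (mfderiv 𝓘(ℝ, E) 𝓘(ℝ, ℂ) (zc L p0) p v) := by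
  rw [(glue_in_ev hp).mfderiv_eq]
  exact comp_mfderiv h.smu hp v

theorem GlueOK.inj [IsManifold 𝓘(ℝ, E) ∞ M] (h : GlueOK L p0 R r u f)
    (hp : p ∈ Dz L p0 R) (hu : Function.Injective (fderiv ℝ u (zc L p0 p))) :
    Function.Injective (mfderiv 𝓘(ℝ, E) 𝓘(ℝ, R4) (glue L p0 R u f) p) := by
  intro v v' hv
  have h1 := (h.mfderiv_in hp v).symm.trans (hv.trans (h.mfderiv_in hp v'))
  exact (zc_bij hp.1).1 (hu h1)

theorem GlueOK.mfderiv_out [T2Space M] (h : GlueOK L p0 R r u f) (hp : p ∉ Dz L p0 R)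
    (v : TangentSpace 𝓘(ℝ, E) p) :
    mfderiv 𝓘(ℝ, E) 𝓘(ℝ, R4) (glue L p0 R u f) p v = mfderiv 𝓘(ℝ, E) 𝓘(ℝ, R4) f p v := by
  rw [(glue_out_ev h hp).mfderiv_eq]
  rfl

end Glue

section Frame

/-- orthogonal frame of the complement of the image of a plane -/
theorem exists_normal (A : ℂ →L[ℝ] R4) (hA : Function.Injective A) :
    ∃ (B : ℂ →L[ℝ] R4) (Bl : R4 →L[ℝ] ℂ), (∀ z, Bl (B z) = z) ∧
      (∀ y, (∀ a, ⟪y, A a⟫ = 0) → B (Bl y) = y) ∧ ∀ a b, ⟪B b, A a⟫ = 0 := by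
  set N : Submodule ℝ R4 := (LinearMap.range (A : ℂ →ₗ[ℝ] R4))ᗮ with hN
  have h1 : finrank ℝ (LinearMap.range (A : ℂ →ₗ[ℝ] R4)) = 2 := by
    rw [LinearMap.finrank_range_of_inj hA, Complex.finrank_real_complex]
  have h2 : finrank ℝ N = 2 := by
    have h3 := Submodule.finrank_add_finrank_orthogonal (LinearMap.range (A : ℂ →ₗ[ℝ] R4))
    rw [h1, finrank_euclideanSpace_fin, ← hN] at h3
    omega
  have e : ℂ ≃L[ℝ] N := ContinuousLinearEquiv.ofFinrankEq (by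
    rw [h2, Complex.finrank_real_complex])
  refine ⟨N.subtypeL.comp (e : ℂ →L[ℝ] N),
    (e.symm : N →L[ℝ] ℂ).comp N.orthogonalProjectionOnto, ?_, ?_, ?_⟩
  · intro z
    simp
  · intro y hy
    have hyN : y ∈ N := by
      rw [hN, Submodule.mem_orthogonal']
      rintro _ ⟨a, rfl⟩
      exact hy a
    simp only [ContinuousLinearMap.comp_apply, ContinuousLinearEquiv.coe_coe,
      ContinuousLinearEquiv.apply_symm_apply, Submodule.subtypeL_apply]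
    exact Submodule.starProjection_eq_self_iff.2 hyN
  · intro a b
    have hb : (e b : R4) ∈ N := (e b).2
    exact (Submodule.mem_orthogonal' _ _).1 hb _ ⟨a, rfl⟩

end Frame

section Main

variable {E : Type*} [NormedAddCommGroup E] [NormedSpace ℝ E]
  {M : Type*} [TopologicalSpace M] [ChartedSpace E M]

/-- the situation after flattening, absorption and standardisation -/
structure Setup (L : E ≃L[ℝ] ℂ) (p0 : M) (R s : ℝ) (w : ℤ) (F ξ : M → R4)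
    (A B : ℂ →L[ℝ] R4) (Bl : R4 →L[ℝ] ℂ) (g : ℂ → ℂ) : Prop where
  good : Good L p0 R
  imm : Imm (E := E) F
  nor : Nor (E := E) F ξ
  injA : Function.Injective A
  BlB : ∀ z, Bl (B z) = z
  orth : ∀ a b, ⟪B b, A a⟫ = 0
  flat : ∀ p ∈ Dz L p0 R, F p = F p0 + A (zc L p0 p)
  nz : ∀ p, p ∉ Dz L p0 R → ξ p ≠ 0
  spos : 0 < s
  slt : s < R / 2
  gsm : ContDiffOn ℝ ∞ g {z | ‖z‖ < R}
  gout : ∀ p ∈ Dz L p0 R, R / 2 ≤ ‖zc L p0 p‖ → B (g (zc L p0 p)) = ξ p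
  gin : ∀ z, ‖z‖ < s → g z = zp w z
  gnz : ∀ z, z ≠ 0 → ‖z‖ < R → g z ≠ 0

theorem flat_mfderiv [IsManifold 𝓘(ℝ, E) ∞ M] {L : E ≃L[ℝ] ℂ} {p0 : M} {R : ℝ} {F : M → R4}
    {A : ℂ →L[ℝ] R4} (hF : ∀ p ∈ Dz L p0 R, F p = F p0 + A (zc L p0 p)) {p : M}
    (hp : p ∈ Dz L p0 R) (v : TangentSpace 𝓘(ℝ, E) p) :
    mfderiv 𝓘(ℝ, E) 𝓘(ℝ, R4) F p v = A (mfderiv 𝓘(ℝ, E) 𝓘(ℝ, ℂ) (zc L p0) p v) := by
  have h1 : F =ᶠ[𝓝 p] fun q => (fun z => F p0 + A z) (zc L p0 q) := by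
    filter_upwards [isOpen_Dz.mem_nhds hp] with q hq
    exact hF q hq
  rw [h1.mfderiv_eq]
  have h2 : ContDiffOn ℝ ∞ (fun z => F p0 + A z) {z | ‖z‖ < R} := by fun_prop
  have h3 := comp_mfderiv h2 hp v
  have h4 : fderiv ℝ (fun z => F p0 + A z) (zc L p0 p) = A := by
    rw [fderiv_const_add, A.fderiv]
  rw [h4] at h3
  exact h3

variable [IsManifold 𝓘(ℝ, E) ∞ M] [CompactSpace M] [T2Space M]

theorem exists_setup [FiniteDimensional ℝ E] [ConnectedSpace M] (hE : finrank ℝ E = 2) :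
    ∃ (L : E ≃L[ℝ] ℂ) (p0 : M) (R s : ℝ) (w : ℤ) (F ξ : M → R4) (A B : ℂ →L[ℝ] R4)
      (Bl : R4 →L[ℝ] ℂ) (g : ℂ → ℂ), Setup L p0 R s w F ξ A B Bl g := by
  obtain ⟨p0⟩ := (inferInstance : Nonempty M)
  obtain ⟨F0, hF0⟩ := exists_imm (E := E) (M := M) hE
  obtain ⟨F, hF, A0, hA0, hflat⟩ := exists_flat hF0 p0
  obtain ⟨ξ, hξ, hξ0⟩ := absorb hE hF p0
  have L : E ≃L[ℝ] ℂ := ContinuousLinearEquiv.ofFinrankEq (by
    rw [hE, Complex.finrank_real_complex])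
  obtain ⟨R, hG, hRU⟩ := exists_good L p0 hflat
  set A : ℂ →L[ℝ] R4 := A0.comp (L.symm : ℂ →L[ℝ] E) with hA
  have hAinj : Function.Injective A := hA0.comp L.symm.injective
  obtain ⟨B, Bl, hBl, hB, hBA⟩ := exists_normal A hAinj
  have hFl : ∀ p ∈ Dz L p0 R, F p = F p0 + A (zc L p0 p) := by
    intro p hp
    have h1 : F p = F p0 + A0 (extChartAt 𝓘(ℝ, E) p0 p - extChartAt 𝓘(ℝ, E) p0 p0) := hRU hp
    rw [h1, hA]
    simp [zc]
  have hξB : ∀ p ∈ Dz L p0 R, B (Bl (ξ p)) = ξ p := by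
    intro p hp
    refine hB _ (fun a => ?_)
    obtain ⟨v, hv⟩ := (zc_bij (L := L) hp.1).2 a
    have h1 := hξ.orth p v
    rw [flat_mfderiv hFl hp v, hv] at h1
    exact h1
  have hgs : ContDiffOn ℝ ∞ (fun z => Bl (ξ (zi L p0 z))) {z | ‖z‖ < R} := by
    have h1 : ContMDiffOn 𝓘(ℝ, ℂ) 𝓘(ℝ, R4) ∞ (fun z => ξ (zi L p0 z)) {z | ‖z‖ < R} :=
      hξ.sm.comp_contMDiffOn (zi_smooth hG)
    have h2 : ContDiffOn ℝ ∞ (fun z => ξ (zi L p0 z)) {z | ‖z‖ < R} := h1.contDiffOn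
    exact Bl.contDiff.comp_contDiffOn h2
  have hg0 : ∀ z, z ≠ 0 → ‖z‖ < R → Bl (ξ (zi L p0 z)) ≠ 0 := by
    intro z hz0 hz h
    have h1 := hξB _ (zi_mem hG hz)
    rw [h, map_zero] at h1
    have h2 := hξ0 _ h1.symm
    have h3 := zc_zi hG hz
    rw [h2, zc_self] at h3
    exact hz0 h3.symm
  have hRp := hG.pos
  obtain ⟨w, g, s, hs0, hs, hgsm, hgo, hgi, hgz⟩ := exists_standard (r1 := R / 4) (r2 := R / 2)
    (R := R) (by linarith) (by linarith) (by linarith) hgs (by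
      intro z h1 h2
      refine hg0 z ?_ (by linarith)
      rintro rfl
      rw [norm_zero] at h1
      linarith)
  refine ⟨L, p0, R, s, w, F, ξ, A, B, Bl, g, ⟨hG, hF, hξ, hAinj, hBl, hBA, hFl, ?_, hs0, hs,
    hgsm, ?_, hgi, ?_⟩⟩
  · intro p hp h
    have := hξ0 p h
    rw [this] at hp
    refine hp ⟨mem_extChartAt_source p0, ?_⟩
    rw [zc_self, norm_zero]
    exact hRp
  · intro p hp h
    rw [hgo _ h, zi_zc hp.1]
    exact hξB p hp
  · intro z hz0 hz h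
    by_cases h1 : ‖z‖ < R / 2
    · exact hz0 (hgz z h1 h)
    · rw [hgo z (not_lt.1 h1)] at h
      exact hg0 z hz0 hz h

variable {L : E ≃L[ℝ] ℂ} {p0 : M} {R s : ℝ} {w : ℤ} {F ξ : M → R4} {A B : ℂ →L[ℝ] R4}
  {Bl : R4 →L[ℝ] ℂ} {g : ℂ → ℂ}

omit [IsManifold 𝓘(ℝ, E) ∞ M] [CompactSpace M] [T2Space M] in
theorem Setup.B_inj (S : Setup L p0 R s w F ξ A B Bl g) {z : ℂ} (h : B z = 0) : z = 0 := by
  have := S.BlB z
  rw [h, map_zero] at this
  exact this.symm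

theorem Setup.even [FiniteDimensional ℝ E] (hE : finrank ℝ E = 2)
    (S : Setup L p0 R s w F ξ A B Bl g) : Even w := by
  obtain ⟨gs, hgs, hgo, hgc, hgr⟩ := exists_split S.spos w
  have hs0 := S.spos
  have hsR := S.slt
  have hRp := S.good.pos
  set g2 : ℂ → ℂ := fun z => if ‖z‖ < s then gs z else g z with hg2
  have e1 : ∀ z, ‖z‖ < s → g2 =ᶠ[𝓝 z] gs := by
    intro z hz
    filter_upwards [(isOpen_lt continuous_norm continuous_const).mem_nhds hz] with y hy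
    exact if_pos hy
  have e0 : ∀ y, s / 2 ≤ ‖y‖ → g2 y = g y := by
    intro y hy
    by_cases h : ‖y‖ < s
    · rw [hg2]
      simp only [if_pos h]
      rw [hgo y hy, S.gin y h]
    · exact if_neg h
  have e2 : ∀ z, s / 2 < ‖z‖ → g2 =ᶠ[𝓝 z] g := by
    intro z hz
    filter_upwards [(isOpen_lt continuous_const continuous_norm).mem_nhds hz] with y hy
    exact e0 y (le_of_lt hy)
  have hsm : ContDiffOn ℝ ∞ g2 {z | ‖z‖ < R} := by
    intro z hz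
    by_cases h : ‖z‖ < s
    · exact ((hgs.contDiffAt).congr_of_eventuallyEq (e1 z h)).contDiffWithinAt
    · have h1 : s / 2 < ‖z‖ := by
        have := not_lt.1 h
        linarith
      have h2 : ContDiffAt ℝ ∞ g z :=
        S.gsm.contDiffAt ((isOpen_lt continuous_norm continuous_const).mem_nhds hz)
      exact (h2.congr_of_eventuallyEq (e2 z h1)).contDiffWithinAt
  have hGl : GlueOK L p0 R (R / 2) (fun z => B (g2 z)) ξ := by
    refine ⟨S.good, by linarith, B.contDiff.comp_contDiffOn hsm, S.nor.sm, ?_⟩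
    intro p hp h
    have h1 : B (g2 (zc L p0 p)) = ξ p := by
      rw [e0 _ (by linarith)]
      exact S.gout p hp h
    exact h1
  have hN : Nor (E := E) F (glue L p0 R (fun z => B (g2 z)) ξ) := by
    refine ⟨hGl.smooth, ?_⟩
    intro p v
    by_cases hp : p ∈ Dz L p0 R
    · rw [glue_in hp, flat_mfderiv S.flat hp v]
      exact S.orth _ _
    · rw [glue_out hp]
      exact S.nor.orth p v
  have hz0 : ∀ p, glue L p0 R (fun z => B (g2 z)) ξ p = 0 →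
      p ∈ Dz L p0 R ∧ ‖zc L p0 p‖ < s / 2 ∧ gs (zc L p0 p) = 0 := by
    intro p h
    by_cases hp : p ∈ Dz L p0 R
    · rw [glue_in hp] at h
      have h1 : g2 (zc L p0 p) = 0 := S.B_inj h
      by_cases h2 : ‖zc L p0 p‖ < s / 2
      · rw [hg2] at h1
        simp only [if_pos (show ‖zc L p0 p‖ < s by linarith)] at h1
        exact ⟨hp, h2, h1⟩
      · exfalso
        rw [e0 _ (not_lt.1 h2)] at h1
        refine S.gnz _ ?_ hp.2 h1
        intro h3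
        rw [h3, norm_zero] at h2
        linarith
    · exfalso
      rw [glue_out hp] at h
      exact S.nz p hp h
  have hev := even_normal_zeros hE S.imm hN (by
    intro p h
    obtain ⟨hp, h1, h2⟩ := hz0 p h
    have h3 := hgr _ h1 h2
    have h4 : fderiv ℝ (fun z => B (g2 z)) (zc L p0 p) =
        B.comp (fderiv ℝ gs (zc L p0 p)) := by
      have h5 : (fun z => B (g2 z)) =ᶠ[𝓝 (zc L p0 p)] fun z => B (gs z) := by
        filter_upwards [e1 (zc L p0 p) (by linarith)] with y hy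
        rw [hy]
      rw [h5.fderiv_eq]
      have h6 : HasFDerivAt (fun z => B (gs z)) (B.comp (fderiv ℝ gs (zc L p0 p)))
          (zc L p0 p) :=
        B.hasFDerivAt.comp _ ((hgs.differentiable (by simp)) _).hasFDerivAt
      exact h6.fderiv
    refine hGl.inj hp ?_
    rw [h4]
    intro v v' hv
    refine h3 ?_
    have h5 := congrArg Bl hv
    simp only [ContinuousLinearMap.comp_apply] at h5
    rw [S.BlB, S.BlB] at h5
    exact h5)
  have hset : {p | glue L p0 R (fun z => B (g2 z)) ξ p = 0} =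
      zi L p0 '' {z | ‖z‖ < s / 2 ∧ gs z = 0} := by
    ext p
    constructor
    · intro h
      obtain ⟨hp, h1, h2⟩ := hz0 p h
      exact ⟨zc L p0 p, ⟨h1, h2⟩, zi_zc hp.1⟩
    · rintro ⟨z, ⟨h1, h2⟩, rfl⟩
      have h3 : ‖z‖ < R := by linarith
      have h4 : glue L p0 R (fun z => B (g2 z)) ξ (zi L p0 z) = 0 := by
        rw [glue_in (zi_mem S.good h3), zc_zi S.good h3]
        rw [hg2]
        simp only [if_pos (show ‖z‖ < s by linarith)]
        rw [h2, map_zero]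
      exact h4
  have hinj : Set.InjOn (zi L p0) {z | ‖z‖ < s / 2 ∧ gs z = 0} := by
    rintro z ⟨h1, -⟩ z' ⟨h1', -⟩ h
    rw [← zc_zi S.good (show ‖z‖ < R by linarith), h, zc_zi S.good (show ‖z'‖ < R by linarith)]
  have hev2 := hev
  rw [hset, hinj.ncard_image, hgc, Int.natAbs_even] at hev2
  exact hev2

omit [CompactSpace M] in
theorem Setup.pair (S : Setup L p0 R s w F ξ A B Bl g) (hw : Even w) :
    ∃ F' ζ : M → R4, Imm (E := E) F' ∧ ContMDiff 𝓘(ℝ, E) 𝓘(ℝ, R4) ∞ ζ ∧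
      ∀ p (v : TangentSpace 𝓘(ℝ, E) p), mfderiv 𝓘(ℝ, E) 𝓘(ℝ, R4) F' p v ≠ ζ p := by
  obtain ⟨W, ζk, hW, hζk, hWo, hζo, hWi, hne⟩ := exists_kink' S.spos hw
  have hs0 := S.spos
  have hsR := S.slt
  have hRp := S.good.pos
  set Φ : ℂ × ℂ →L[ℝ] R4 := A.comp (ContinuousLinearMap.fst ℝ ℂ ℂ) +
    B.comp (ContinuousLinearMap.snd ℝ ℂ ℂ) with hΦ
  have hΦa : ∀ a b, Φ (a, b) = A a + B b := by
    intro a b
    simp [hΦ]
  have hAB : ∀ a b, A a = B b → b = 0 := by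
    intro a b h
    have h1 := S.orth a b
    rw [h, inner_self_eq_zero] at h1
    exact S.B_inj h1
  have hΦi : Function.Injective Φ := by
    rw [injective_iff_map_eq_zero]
    rintro ⟨a, b⟩ h
    rw [hΦa] at h
    have h1 : A a = B (-b) := by
      rw [map_neg]
      exact eq_neg_of_add_eq_zero_left h
    have h2 : b = 0 := by simpa using hAB _ _ h1
    rw [h2, neg_zero, map_zero] at h1
    have h3 : a = 0 := S.injA (by rw [h1, map_zero])
    rw [h2, h3]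
    rfl
  have hF1 : GlueOK L p0 R (s / 2) (fun z => F p0 + Φ (W z)) F := by
    refine ⟨S.good, by linarith, ?_, S.imm.sm, ?_⟩
    · exact (contDiff_const.add (Φ.contDiff.comp hW)).contDiffOn
    · intro p hp h
      have h1 : F p0 + Φ (W (zc L p0 p)) = F p := by
        rw [hWo _ h, hΦa, map_zero, add_zero, S.flat p hp]
      exact h1
  have hζ1 : ∀ y, s / 2 ≤ ‖y‖ → (if ‖y‖ < s then Φ (ζk y) else B (g y)) = B (g y) := by
    intro y hy
    by_cases h : ‖y‖ < s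
    · rw [if_pos h, hζo y hy, hΦa, map_zero, zero_add, S.gin y h]
    · rw [if_neg h]
  have hZ1 : GlueOK L p0 R (R / 2) (fun z => if ‖z‖ < s then Φ (ζk z) else B (g z)) ξ := by
    refine ⟨S.good, by linarith, ?_, S.nor.sm, ?_⟩
    · intro z hz
      by_cases h : ‖z‖ < s
      · have e1 : (fun z => if ‖z‖ < s then Φ (ζk z) else B (g z)) =ᶠ[𝓝 z]
            fun z => Φ (ζk z) := by
          filter_upwards [(isOpen_lt continuous_norm continuous_const).mem_nhds h] with y hy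
          exact if_pos hy
        exact ((Φ.contDiff.comp hζk).contDiffAt.congr_of_eventuallyEq e1).contDiffWithinAt
      · have h1 : s / 2 < ‖z‖ := by
          have := not_lt.1 h
          linarith
        have e1 : (fun z => if ‖z‖ < s then Φ (ζk z) else B (g z)) =ᶠ[𝓝 z]
            fun z => B (g z) := by
          filter_upwards [(isOpen_lt continuous_const continuous_norm).mem_nhds h1] with y hy
          exact hζ1 y (le_of_lt hy)
        have h2 : ContDiffAt ℝ ∞ g z :=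
          S.gsm.contDiffAt ((isOpen_lt continuous_norm continuous_const).mem_nhds hz)
        exact ((B.contDiff.contDiffAt.comp z h2).congr_of_eventuallyEq e1).contDiffWithinAt
    · intro p hp h
      have h1 : (if ‖zc L p0 p‖ < s then Φ (ζk (zc L p0 p)) else B (g (zc L p0 p))) = ξ p := by
        rw [hζ1 _ (by linarith)]
        exact S.gout p hp h
      exact h1
  have hd : ∀ z, fderiv ℝ (fun z => F p0 + Φ (W z)) z = Φ.comp (fderiv ℝ W z) := by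
    intro z
    have h1 : HasFDerivAt (fun z => Φ (W z)) (Φ.comp (fderiv ℝ W z)) z :=
      Φ.hasFDerivAt.comp _ ((hW.differentiable (by simp)) _).hasFDerivAt
    exact (h1.const_add (F p0)).fderiv
  refine ⟨glue L p0 R (fun z => F p0 + Φ (W z)) F,
    glue L p0 R (fun z => if ‖z‖ < s then Φ (ζk z) else B (g z)) ξ,
    ⟨hF1.smooth, ?_⟩, hZ1.smooth, ?_⟩
  · intro p
    by_cases hp : p ∈ Dz L p0 R
    · refine hF1.inj hp ?_
      rw [hd]
      exact hΦi.comp (hWi _)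
    · intro v v' hv
      exact S.imm.inj p ((hF1.mfderiv_out hp v).symm.trans (hv.trans (hF1.mfderiv_out hp v')))
  · intro p v hv0
    by_cases hp : p ∈ Dz L p0 R
    · obtain ⟨a, ha⟩ : ∃ a : ℂ, a = mfderiv 𝓘(ℝ, E) 𝓘(ℝ, ℂ) (zc L p0) p v := ⟨_, rfl⟩
      have hv : fderiv ℝ (fun z => F p0 + Φ (W z)) (zc L p0 p) a =
          if ‖zc L p0 p‖ < s then Φ (ζk (zc L p0 p)) else B (g (zc L p0 p)) := by
        rw [ha]
        exact (hF1.mfderiv_in hp v).symm.trans (hv0.trans (glue_in hp))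
      rw [hd] at hv
      by_cases h : ‖zc L p0 p‖ < s
      · rw [if_pos h] at hv
        exact hne _ _ (hΦi hv)
      · rw [if_neg h] at hv
        have h1 : s / 2 < ‖zc L p0 p‖ := by
          have := not_lt.1 h
          linarith
        have e1 : W =ᶠ[𝓝 (zc L p0 p)] fun z => (z, (0 : ℂ)) := by
          filter_upwards [(isOpen_lt continuous_const continuous_norm).mem_nhds h1] with y hy
          exact hWo y (le_of_lt hy)
        have h2 : fderiv ℝ W (zc L p0 p) = ContinuousLinearMap.inl ℝ ℂ ℂ := by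
          rw [e1.fderiv_eq]
          exact (ContinuousLinearMap.inl ℝ ℂ ℂ).fderiv
        rw [h2, ContinuousLinearMap.comp_apply, ContinuousLinearMap.inl_apply, hΦa, map_zero,
          add_zero] at hv
        have h3 := hAB _ _ hv
        refine S.gnz _ ?_ hp.2 h3
        intro h4
        rw [h4, norm_zero] at h1
        linarith
    · have hv : mfderiv 𝓘(ℝ, E) 𝓘(ℝ, R4) F p v = ξ p :=
        (hF1.mfderiv_out hp v).symm.trans (hv0.trans (glue_out hp))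
      have h1 : ⟪ξ p, ξ p⟫ = 0 := by
        have h2 := S.nor.orth p v
        rw [hv] at h2
        exact h2
      rw [inner_self_eq_zero] at h1
      exact S.nz p hp h1

end Main

end Pair

section Final

variable {E : Type*} [NormedAddCommGroup E] [NormedSpace ℝ E] [FiniteDimensional ℝ E]
  {M : Type*} [TopologicalSpace M] [ChartedSpace E M] [IsManifold 𝓘(ℝ, E) ∞ M]
  [CompactSpace M] [T2Space M]

/-- G: immersion and nowhere tangent field on a connected closed surface -/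
theorem exists_pair_connected [ConnectedSpace M] (hE : finrank ℝ E = 2) :
    ∃ F ζ : M → R4, Imm (E := E) F ∧ ContMDiff 𝓘(ℝ, E) 𝓘(ℝ, R4) ∞ ζ ∧
      ∀ p (v : TangentSpace 𝓘(ℝ, E) p), mfderiv 𝓘(ℝ, E) 𝓘(ℝ, R4) F p v ≠ ζ p := by
  obtain ⟨L, p0, R, s, w, F, ξ, A, B, Bl, g, S⟩ := Pair.exists_setup (E := E) (M := M) hE
  exact S.pair (S.even hE)

end Final

end Vale.Agent.P205.Top
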