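import Vale.Agent.P205.Top.Comp
import Vale.Agent.P205.Top.Pair
import Vale.Agent.P205.Top.Frame

/-!
Block TOP of P205: every compact smooth surface has a smooth immersion into `ℝ⁴` with a smooth
unit normal field.
-/

open scoped Manifold ContDiff Topology RealInnerProductSpace
open Set Filter MeasureTheory Module

noncomputable section

namespace Vale.Agent.P205.Top

variable {E : Type*} [NormedAddCommGroup E] [NormedSpace ℝ E] [FiniteDimensional ℝ E]
  {M : Type*} [TopologicalSpace M] [ChartedSpace E M] [IsManifold 𝓘(ℝ, E) ∞ M]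
  [CompactSpace M] [T2Space M]

/-- **TOP** -/
theorem exists_imm_unitNormal (hE : finrank ℝ E = 2) :
    ∃ F q : M → R4, Imm (E := E) F ∧ Nor (E := E) F q ∧ ∀ p, ‖q p‖ = 1 := by
  refine exists_imm_unitNormal_of (E := E) (M := M) ?_
  intro N _ _ _ _ _ _
  obtain ⟨F, ζ, hF, hζ, h⟩ := exists_pair_connected (E := E) (M := N) hE
  obtain ⟨q, hq, hn⟩ := unit_of_transversal (E := E) (M := N) hF hζ h
  exact ⟨F, q, hF, hq, hn⟩

end Vale.Agent.P205.Top
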