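import Mathlib

/-!
Block TOP of P205, part A1: a null Lagrangian. If two smooth maps agree outside a compact set then
the integrals of `g (f x) * det (Df x)` agree.
-/

open scoped ContDiff Topology
open Set Filter MeasureTheory Module

noncomputable section

namespace Vale.Agent.P205.Top

namespace A1

variable {n : ℕ}

/-- the determinant as a continuous multilinear function of the rows -/
def dtm (n : ℕ) : ContinuousMultilinearMap ℝ (fun _ : Fin n => Fin n → ℝ) ℝ :=
  { (Matrix.detRowAlternating (n := Fin n) (R := ℝ)).toMultilinearMap with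
    cont := by
      change Continuous (fun v : Fin n → Fin n → ℝ => Matrix.det (Matrix.of v))
      exact Continuous.matrix_det continuous_id }

lemma dtm_apply (v : Fin n → Fin n → ℝ) : dtm n v = Matrix.det (Matrix.of v) := rfl

lemma dtm_cramer (v : Fin n → Fin n → ℝ) (b : Fin n → ℝ) :
    ∑ j, dtm n (Function.update v j b) • v j = dtm n v • b := by
  have h := Matrix.mulVec_cramer (Matrix.of v).transpose b
  rw [Matrix.det_transpose] at h
  funext k
  have hk := congrFun h k
  simp only [Matrix.mulVec, dotProduct, Matrix.cramer_transpose_apply, Matrix.transpose_apply,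
    Matrix.of_apply] at hk
  rw [Finset.sum_apply]
  simp only [Pi.smul_apply, smul_eq_mul] at hk ⊢
  rw [dtm_apply v, ← hk]
  refine Finset.sum_congr rfl fun j _ => ?_
  rw [mul_comm]
  rfl

lemma dtm_swap (v : Fin n → Fin n → ℝ) {i j : Fin n} (hij : i ≠ j) :
    dtm n (v ∘ Equiv.swap i j) = - dtm n v :=
  (Matrix.detRowAlternating (n := Fin n) (R := ℝ)).map_swap v hij

/-- the unit vectors -/
def ee (i : Fin n) : Fin n → ℝ := Pi.single i 1

lemma det_eq_dtm (L : (Fin n → ℝ) →L[ℝ] (Fin n → ℝ)) :
    L.det = dtm n (fun i => L (ee i)) := by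
  have h1 : L.det = (LinearMap.toMatrix' (L : (Fin n → ℝ) →ₗ[ℝ] (Fin n → ℝ))).det := by
    rw [LinearMap.det_toMatrix']
  rw [h1, dtm_apply, ← Matrix.det_transpose]
  congr 1

/-- the antisymmetric double sum -/
lemma double_sum (v : Fin n → Fin n → ℝ) (b : Fin n → ℝ) (w : Fin n → Fin n → Fin n → ℝ)
    (hw : ∀ i j, w i j = w j i) :
    ∑ j, ∑ i ∈ Finset.univ.erase j,
      dtm n (Function.update (Function.update v j b) i (w j i)) = 0 := by
  classical
  set a : Fin n → Fin n → ℝ := fun j i =>
    if i = j then 0 else dtm n (Function.update (Function.update v j b) i (w j i)) with ha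
  have h1 : ∑ j, ∑ i ∈ Finset.univ.erase j,
      dtm n (Function.update (Function.update v j b) i (w j i)) = ∑ j, ∑ i, a j i := by
    refine Finset.sum_congr rfl fun j _ => ?_
    rw [← Finset.add_sum_erase Finset.univ (a j) (Finset.mem_univ j)]
    simp only [ha, if_true, zero_add]
    refine Finset.sum_congr rfl fun i hi => ?_
    rw [if_neg (Finset.ne_of_mem_erase hi)]
  have h2 : ∀ i j, a j i = - a i j := by
    intro i j
    simp only [ha]
    by_cases hij : i = j
    · simp [hij]
    · rw [if_neg hij, if_neg (Ne.symm hij), ← dtm_swap _ hij]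
      congr 1
      funext k
      simp only [Function.comp_apply]
      by_cases hki : k = i
      · subst hki
        rw [Equiv.swap_apply_left, Function.update_self, Function.update_self, hw]
      · by_cases hkj : k = j
        · subst hkj
          rw [Equiv.swap_apply_right, Function.update_of_ne (Ne.symm hij),
            Function.update_self, Function.update_of_ne hij, Function.update_self]
        · rw [Equiv.swap_apply_of_ne_of_ne hki hkj, Function.update_of_ne hki,
            Function.update_of_ne hkj, Function.update_of_ne hkj, Function.update_of_ne hki]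
  rw [h1]
  have h3 : ∑ j, ∑ i, a j i = - ∑ j, ∑ i, a j i := by
    conv_lhs => rw [Finset.sum_comm]
    rw [← Finset.sum_neg_distrib]
    refine Finset.sum_congr rfl fun j _ => ?_
    rw [← Finset.sum_neg_distrib]
    exact Finset.sum_congr rfl fun i _ => h2 j i
  linarith

/-- the rows of the derivative -/
def rows (f : (Fin n → ℝ) → (Fin n → ℝ)) (x : Fin n → ℝ) : Fin n → Fin n → ℝ :=
  fun i => fderiv ℝ f x (ee i)

/-- the vector field of the Piola identity -/
def XX (g : (Fin n → ℝ) → ℝ) (f η : (Fin n → ℝ) → (Fin n → ℝ)) (j : Fin n) (x : Fin n → ℝ) : ℝ :=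
  g (f x) * dtm n (Function.update (rows f x) j (η x))

lemma contDiff_rows {f : (Fin n → ℝ) → (Fin n → ℝ)} (hf : ContDiff ℝ ∞ f) (i : Fin n) :
    ContDiff ℝ ∞ (fun x => rows f x i) :=
  (hf.fderiv_right (m := ∞) (by simp)).clm_apply contDiff_const

lemma contDiff_XX {g : (Fin n → ℝ) → ℝ} {f η : (Fin n → ℝ) → (Fin n → ℝ)}
    (hg : ContDiff ℝ ∞ g) (hf : ContDiff ℝ ∞ f) (hη : ContDiff ℝ ∞ η) (j : Fin n) :
    ContDiff ℝ ∞ (XX g f η j) := by
  refine (hg.comp hf).mul ((dtm n).contDiff.comp ?_)
  refine contDiff_pi.2 fun i => ?_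
  by_cases hi : i = j
  · subst hi
    simpa using hη
  · simpa [Function.update_of_ne hi] using contDiff_rows hf i

lemma fderiv_XX {g : (Fin n → ℝ) → ℝ} {f η : (Fin n → ℝ) → (Fin n → ℝ)}
    (hg : ContDiff ℝ ∞ g) (hf : ContDiff ℝ ∞ f) (hη : ContDiff ℝ ∞ η) (j : Fin n)
    (x : Fin n → ℝ) (h : Fin n → ℝ) :
    fderiv ℝ (XX g f η j) x h =
      fderiv ℝ g (f x) (fderiv ℝ f x h) * dtm n (Function.update (rows f x) j (η x)) +
      g (f x) * (dtm n (Function.update (rows f x) j (fderiv ℝ η x h)) +
        ∑ i ∈ Finset.univ.erase j, dtm n (Function.update (Function.update (rows f x) j (η x)) i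
          (fderiv ℝ (fderiv ℝ f) x h (ee i)))) := by
  have htop : (∞ : WithTop ℕ∞) ≠ 0 := by simp
  have d1 : HasFDerivAt (fun x => g (f x)) ((fderiv ℝ g (f x)).comp (fderiv ℝ f x)) x :=
    ((hg.differentiable htop) (f x)).hasFDerivAt.comp x ((hf.differentiable htop) x).hasFDerivAt
  have d2 : ∀ i, HasFDerivAt (fun x => rows f x i) ((fderiv ℝ (fderiv ℝ f) x).flip (ee i)) x := by
    intro i
    have h1 : HasFDerivAt (fderiv ℝ f) (fderiv ℝ (fderiv ℝ f) x) x :=
      (((hf.fderiv_right (m := ∞) (by simp)).differentiable htop) x).hasFDerivAt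
    have h2 := h1.clm_apply (hasFDerivAt_const (ee i) x)
    refine h2.congr_fderiv ?_
    ext v
    simp
  have d3 : HasFDerivAt η (fderiv ℝ η x) x := ((hη.differentiable htop) x).hasFDerivAt
  have d4 : HasFDerivAt (fun x => Function.update (rows f x) j (η x))
      (ContinuousLinearMap.pi (Function.update
        (fun i => (fderiv ℝ (fderiv ℝ f) x).flip (ee i)) j (fderiv ℝ η x))) x := by
    rw [hasFDerivAt_pi]
    intro i
    by_cases hi : i = j
    · subst hi
      simpa using d3
    · simpa [Function.update_of_ne hi] using d2 i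
  have d5 := ((dtm n).hasFDerivAt (Function.update (rows f x) j (η x))).comp x d4
  have d6 := d1.mul d5
  rw [HasFDerivAt.fderiv (f := XX g f η j) d6]
  simp only [ContinuousLinearMap.add_apply, ContinuousLinearMap.smul_apply,
    ContinuousLinearMap.comp_apply, smul_eq_mul, ContinuousMultilinearMap.linearDeriv_apply,
    Function.comp_apply, ContinuousLinearMap.coe_pi']
  rw [← Finset.add_sum_erase Finset.univ _ (Finset.mem_univ j)]
  simp only [Function.update_self, Function.update_idem]
  rw [add_comm]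
  congr 1
  · ring
  · congr 2
    refine Finset.sum_congr rfl fun i hi => ?_
    rw [Function.update_of_ne (Finset.ne_of_mem_erase hi)]
    rfl

/-- the Piola identity -/
lemma div_XX {g : (Fin n → ℝ) → ℝ} {f η : (Fin n → ℝ) → (Fin n → ℝ)}
    (hg : ContDiff ℝ ∞ g) (hf : ContDiff ℝ ∞ f) (hη : ContDiff ℝ ∞ η) (x : Fin n → ℝ) :
    ∑ j, fderiv ℝ (XX g f η j) x (ee j) =
      fderiv ℝ g (f x) (η x) * dtm n (rows f x) +
      g (f x) * ∑ j, dtm n (Function.update (rows f x) j (fderiv ℝ η x (ee j))) := by
  simp only [fderiv_XX hg hf hη, Finset.sum_add_distrib, mul_add, ← Finset.mul_sum]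
  have h1 : ∑ j, fderiv ℝ g (f x) (fderiv ℝ f x (ee j)) *
      dtm n (Function.update (rows f x) j (η x)) =
      fderiv ℝ g (f x) (η x) * dtm n (rows f x) := by
    have h2 := congrArg (fderiv ℝ g (f x)) (dtm_cramer (rows f x) (η x))
    rw [map_sum, map_smul, smul_eq_mul, mul_comm] at h2
    rw [← h2]
    refine Finset.sum_congr rfl fun j _ => ?_
    rw [map_smul, smul_eq_mul, mul_comm]
    rfl
  have h3 : ∑ j, ∑ i ∈ Finset.univ.erase j,
      dtm n (Function.update (Function.update (rows f x) j (η x)) i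
        (fderiv ℝ (fderiv ℝ f) x (ee j) (ee i))) = 0 := by
    refine double_sum (rows f x) (η x) (fun j i => fderiv ℝ (fderiv ℝ f) x (ee j) (ee i)) ?_
    intro i j
    have h2 : (2 : WithTop ℕ∞) ≤ ∞ := WithTop.coe_le_coe.2 (le_top : (2 : ℕ∞) ≤ ⊤)
    exact (hf.contDiffAt.isSymmSndFDerivAt (by simpa using h2)).eq _ _
  rw [h1, h3]
  ring

/-- the integral of the divergence of a compactly supported field vanishes -/
lemma integral_div_zero {X : (Fin n → ℝ) → ℝ} (hX : ContDiff ℝ ∞ X) (hc : HasCompactSupport X)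
    (v : Fin n → ℝ) : ∫ x, fderiv ℝ X x v = 0 := by
  have htop : (∞ : WithTop ℕ∞) ≠ 0 := by simp
  have h1 : Continuous (fun x => fderiv ℝ X x v) := (hX.continuous_fderiv htop).clm_apply
    continuous_const
  have h2 : HasCompactSupport (fun x => fderiv ℝ X x v) := hc.fderiv_apply ℝ v
  have h := integral_mul_fderiv_eq_neg_fderiv_mul_of_integrable (μ := volume)
    (f := fun _ : Fin n → ℝ => (1 : ℝ)) (g := X) (v := v) (by simp)
    (by simpa using h1.integrable_of_hasCompactSupport h2)
    (by simpa using hX.continuous.integrable_of_hasCompactSupport hc)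
    (fun x _ => (differentiable_const (1 : ℝ)) x) (fun x _ => (hX.differentiable htop) x)
  simpa using h

/-- the global form -/
theorem global {K : Set (Fin n → ℝ)} (hK : IsCompact K) {f η : (Fin n → ℝ) → (Fin n → ℝ)}
    {g : (Fin n → ℝ) → ℝ} (hg : ContDiff ℝ ∞ g) (hf : ContDiff ℝ ∞ f) (hη : ContDiff ℝ ∞ η)
    (h0 : ∀ x, x ∉ K → η x = 0) :
    ∫ x in K, (g (f x + η x) * dtm n (rows (f + η) x) - g (f x) * dtm n (rows f x)) = 0 := by
  have htop : (∞ : WithTop ℕ∞) ≠ 0 := by simp
  -- the family
  set F : ℝ → (Fin n → ℝ) → ℝ := fun t x =>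
    g (f x + t • η x) * dtm n (fun i => rows f x i + t • rows η x i) with hF
  set F' : ℝ → (Fin n → ℝ) → ℝ := fun t x =>
    fderiv ℝ g (f x + t • η x) (η x) * dtm n (fun i => rows f x i + t • rows η x i) +
      g (f x + t • η x) * ∑ j, dtm n (Function.update (fun i => rows f x i + t • rows η x i) j
        (rows η x j)) with hF'
  have hft : ∀ t : ℝ, ContDiff ℝ ∞ (f + t • η) := fun t => hf.add (hη.const_smul t)
  have hrows : ∀ (t : ℝ) x i, rows (f + t • η) x i = rows f x i + t • rows η x i := by
    intro t x i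
    unfold rows
    have h1 := ((hf.differentiable htop) x).hasFDerivAt.add
      (((hη.differentiable htop) x).hasFDerivAt.const_smul t)
    rw [HasFDerivAt.fderiv (f := f + t • η) h1]
    rfl
  have hF'div : ∀ t x, F' t x = ∑ j, fderiv ℝ (XX g (f + t • η) η j) x (ee j) := by
    intro t x
    rw [div_XX hg (hft t) hη x]
    have : rows (f + t • η) x = fun i => rows f x i + t • rows η x i := funext (hrows t x)
    rw [this]
    rfl
  have hint : ∀ t, ∫ x in K, F' t x = 0 := by
    intro t
    have hsupp : ∀ j, ∀ x, x ∉ K → XX g (f + t • η) η j x = 0 := by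
      intro j x hx
      unfold XX
      have h1 : dtm n (Function.update (rows (f + t • η) x) j 0) = 0 :=
        (dtm n).toMultilinearMap.map_update_zero _ j
      rw [h0 x hx, h1, mul_zero]
    have hcs : ∀ j, HasCompactSupport (XX g (f + t • η) η j) := fun j =>
      HasCompactSupport.intro hK (hsupp j)
    have h1 : ∫ x in K, F' t x = ∫ x, F' t x := by
      refine setIntegral_eq_integral_of_forall_compl_eq_zero fun x hx => ?_
      rw [hF'div]
      refine Finset.sum_eq_zero fun j _ => ?_
      have h2 : XX g (f + t • η) η j =ᶠ[𝓝 x] fun _ => (0 : ℝ) := by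
        filter_upwards [hK.isClosed.isOpen_compl.mem_nhds hx] with y hy
        exact hsupp j y hy
      rw [h2.fderiv_eq]
      simp
    rw [h1]
    simp only [hF'div]
    rw [integral_finset_sum]
    · exact Finset.sum_eq_zero fun j _ =>
        integral_div_zero (contDiff_XX hg (hft t) hη j) (hcs j) _
    · intro j _
      refine Continuous.integrable_of_hasCompactSupport ?_ ((hcs j).fderiv_apply ℝ _)
      exact ((contDiff_XX hg (hft t) hη j).continuous_fderiv htop).clm_apply continuous_const
  -- continuity in both variables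
  have c1 : Continuous (fun p : ℝ × (Fin n → ℝ) => f p.2 + p.1 • η p.2) :=
    (hf.continuous.comp continuous_snd).add
      (continuous_fst.smul (hη.continuous.comp continuous_snd))
  have cr : ∀ {u : (Fin n → ℝ) → (Fin n → ℝ)}, ContDiff ℝ ∞ u → ∀ i,
      Continuous (fun p : ℝ × (Fin n → ℝ) => rows u p.2 i) := fun hu i =>
    (contDiff_rows hu i).continuous.comp continuous_snd
  have c2 : Continuous (fun p : ℝ × (Fin n → ℝ) =>
      (fun i => rows f p.2 i + p.1 • rows η p.2 i : Fin n → Fin n → ℝ)) :=
    continuous_pi fun i => (cr hf i).add (continuous_fst.smul (cr hη i))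
  have cF : Continuous (fun p : ℝ × (Fin n → ℝ) => F p.1 p.2) :=
    (hg.continuous.comp c1).mul ((dtm n).cont.comp c2)
  have cF' : Continuous (fun p : ℝ × (Fin n → ℝ) => F' p.1 p.2) := by
    refine Continuous.add (Continuous.mul ?_ ((dtm n).cont.comp c2))
      ((hg.continuous.comp c1).mul (continuous_finset_sum _ fun j _ => (dtm n).cont.comp ?_))
    · exact ((hg.continuous_fderiv htop).comp c1).clm_apply (hη.continuous.comp continuous_snd)
    · exact c2.update j (cr hη j)
  -- derivative in t
  have hder : ∀ t x, HasDerivAt (fun t => F t x) (F' t x) t := by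
    intro t x
    have d1 : HasDerivAt (fun t : ℝ => f x + t • η x) (η x) t := by
      simpa using ((hasDerivAt_id t).smul_const (η x)).const_add (f x)
    have d2 : HasDerivAt (fun t : ℝ => g (f x + t • η x)) (fderiv ℝ g (f x + t • η x) (η x)) t :=
      ((hg.differentiable htop) _).hasFDerivAt.comp_hasDerivAt t d1
    have d3 : HasDerivAt (fun t : ℝ => (fun i => rows f x i + t • rows η x i :
        Fin n → Fin n → ℝ)) (rows η x) t := by
      rw [hasDerivAt_pi]
      intro i
      simpa using ((hasDerivAt_id t).smul_const (rows η x i)).const_add (rows f x i)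
    have d4 := ((dtm n).hasFDerivAt (fun i => rows f x i + t • rows η x i)).comp_hasDerivAt t d3
    rw [ContinuousMultilinearMap.linearDeriv_apply] at d4
    exact d2.mul d4
  -- the integral is constant
  have hΦ : ∀ t, HasDerivAt (fun t => ∫ x in K, F t x) 0 t := by
    intro t
    obtain ⟨B, hB⟩ := ((isCompact_Icc (a := t - 1) (b := t + 1)).prod hK).exists_bound_of_continuousOn
      cF'.continuousOn
    have h := hasDerivAt_integral_of_dominated_loc_of_deriv_le (μ := volume.restrict K)
      (F := F) (F' := F') (x₀ := t) (bound := fun _ => B) (s := Set.Icc (t - 1) (t + 1))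
      (Icc_mem_nhds (by linarith) (by linarith))
      (Eventually.of_forall fun s =>
        (cF.comp (continuous_const.prodMk continuous_id)).aestronglyMeasurable)
      ((cF.comp (continuous_const.prodMk continuous_id)).continuousOn.integrableOn_compact hK)
      ((cF'.comp (continuous_const.prodMk continuous_id)).aestronglyMeasurable)
      ((ae_restrict_iff' hK.measurableSet).2 (Eventually.of_forall fun x hx s hs =>
        hB (s, x) ⟨hs, hx⟩))
      (by
        have : IsFiniteMeasure (volume.restrict K) := ⟨by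
          rw [Measure.restrict_apply_univ]
          exact hK.measure_lt_top⟩
        exact integrable_const B)
      (Eventually.of_forall fun x s _ => hder s x)
    have h2 := h.2
    rwa [hint t] at h2
  have hconst : ∫ x in K, F 1 x = ∫ x in K, F 0 x :=
    is_const_of_deriv_eq_zero (fun t => (hΦ t).differentiableAt) (fun t => (hΦ t).deriv) 1 0
  have i1 : ∀ t, IntegrableOn (F t) K := fun t =>
    (cF.comp (continuous_const.prodMk continuous_id)).continuousOn.integrableOn_compact hK
  have e1 : ∀ x, F 1 x = g (f x + η x) * dtm n (rows (f + η) x) := by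
    intro x
    have : rows (f + η) x = fun i => rows f x i + (1 : ℝ) • rows η x i := by
      funext i
      rw [← hrows 1 x i, one_smul]
    simp only [hF, this, one_smul]
  have e0 : ∀ x, F 0 x = g (f x) * dtm n (rows f x) := by
    intro x
    simp only [hF, zero_smul, add_zero]
  simp only [← e1, ← e0]
  rw [integral_sub (i1 1) (i1 0), hconst, sub_self]

end A1

/-- A1 -/
theorem integral_det_eq {n : ℕ} {U K : Set (Fin n → ℝ)} (hU : IsOpen U) (hK : IsCompact K)
    (hKU : K ⊆ U) {f0 f1 : (Fin n → ℝ) → (Fin n → ℝ)} (h0 : ContDiffOn ℝ ∞ f0 U)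
    (h1 : ContDiffOn ℝ ∞ f1 U) (heq : ∀ x ∈ U \ K, f0 x = f1 x)
    {g : (Fin n → ℝ) → ℝ} (hg : ContDiff ℝ ∞ g) :
    ∫ x in K, (g (f1 x) * (fderiv ℝ f1 x).det - g (f0 x) * (fderiv ℝ f0 x).det) = 0 := by
  -- cut off
  obtain ⟨V, hVo, hKV, hVU, hVc⟩ : ∃ V : Set (Fin n → ℝ), IsOpen V ∧ K ⊆ V ∧ closure V ⊆ U ∧
      IsCompact (closure V) := exists_open_between_and_isCompact_closure hK hU hKU
  obtain ⟨χ, hχs, hχ1, hχc⟩ : ∃ χ : (Fin n → ℝ) → ℝ, ContDiff ℝ ∞ χ ∧
      (∀ x ∈ closure V, χ x = 1) ∧ tsupport χ ⊆ U := by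
    obtain ⟨W, hWo, hVW, hWU, hWc⟩ := exists_open_between_and_isCompact_closure hVc hU hVU
    obtain ⟨χ, c1, c2, c3, c4⟩ := exists_contMDiff_support_eq_eq_one_iff
      (I := modelWithCornersSelf ℝ (Fin n → ℝ)) hWo isClosed_closure hVW
    refine ⟨χ, c1.contDiff, fun x hx => (c4 x).1 hx, ?_⟩
    rw [tsupport, c3]
    exact hWU
  have glob : ∀ {f : (Fin n → ℝ) → (Fin n → ℝ)}, ContDiffOn ℝ ∞ f U →
      ContDiff ℝ ∞ (fun x => χ x • f x) := by
    intro f hf
    rw [contDiff_iff_contDiffAt]
    intro x
    by_cases hx : x ∈ tsupport χ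
    · exact hχs.contDiffAt.smul (hf.contDiffAt (hU.mem_nhds (hχc hx)))
    · refine (contDiffAt_const (c := (0 : Fin n → ℝ))).congr_of_eventuallyEq ?_
      filter_upwards [(isClosed_tsupport χ).isOpen_compl.mem_nhds hx] with y hy
      rw [image_eq_zero_of_notMem_tsupport hy, zero_smul]
  set F0 : (Fin n → ℝ) → (Fin n → ℝ) := fun x => χ x • f0 x with hF0
  set F1 : (Fin n → ℝ) → (Fin n → ℝ) := fun x => χ x • f1 x with hF1
  have g0 : ContDiff ℝ ∞ F0 := glob h0
  have g1 : ContDiff ℝ ∞ F1 := glob h1
  have hη0 : ∀ x, x ∉ K → (F1 - F0) x = 0 := by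
    intro x hx
    by_cases hxU : x ∈ U
    · simp only [Pi.sub_apply, hF0, hF1, heq x ⟨hxU, hx⟩, sub_self]
    · have : χ x = 0 := image_eq_zero_of_notMem_tsupport fun h => hxU (hχc h)
      simp only [Pi.sub_apply, hF0, hF1, this, zero_smul, sub_self]
  have main := A1.global (η := F1 - F0) hK hg g0 (g1.sub g0) hη0
  have e : F0 + (F1 - F0) = F1 := by
    funext x
    simp
  have e' : ∀ x, F0 x + (F1 - F0) x = F1 x := fun x => congrFun e x
  have d : ∀ {f : (Fin n → ℝ) → (Fin n → ℝ)}, ∀ x ∈ K,
      A1.dtm n (A1.rows (fun x => χ x • f x) x) = (fderiv ℝ f x).det ∧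
        χ x • f x = f x := by
    intro f x hx
    have h2 : (fun x => χ x • f x) =ᶠ[𝓝 x] f := by
      filter_upwards [hVo.mem_nhds (hKV hx)] with y hy
      rw [hχ1 y (subset_closure hy), one_smul]
    refine ⟨?_, h2.self_of_nhds⟩
    rw [A1.det_eq_dtm, ← h2.fderiv_eq]
    rfl
  have fin : ∫ x in K, (g (f1 x) * (fderiv ℝ f1 x).det - g (f0 x) * (fderiv ℝ f0 x).det) =
      ∫ x in K, (g (F0 x + (F1 - F0) x) * A1.dtm n (A1.rows (F0 + (F1 - F0)) x) -
        g (F0 x) * A1.dtm n (A1.rows F0 x)) := by
    refine setIntegral_congr_fun hK.measurableSet fun x hx => ?_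
    have d0 := d (f := f0) x hx
    have d1 := d (f := f1) x hx
    rw [e, e' x, ← d0.1, ← d1.1]
    simp only [hF0, hF1, d0.2, d1.2]
  rw [fin, main]

end Vale.Agent.P205.Top
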