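import Vale.Agent.P205.Top.Defs
import Vale.Agent.P205.TOP.Piola

/-!
Block A2 of TOP (P205): the parity of the number of regular zeros does not change under a
change of the function on a compact set.
-/

open scoped Manifold ContDiff Topology RealInnerProductSpace
open Set Filter MeasureTheory Module

noncomputable section

namespace Vale.Agent.P205.Top

section Local

variable {V W : Type*} [NormedAddCommGroup V] [NormedSpace ℝ V] [FiniteDimensional ℝ V]
  [NormedAddCommGroup W] [NormedSpace ℝ W] [FiniteDimensional ℝ W]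

omit [FiniteDimensional ℝ W] in
/-- regular zeros are isolated -/
theorem A2_eventually_ne {f : V → W} {x : V} (hf : DifferentiableAt ℝ f x)
    (hi : Function.Injective (fderiv ℝ f x)) : ∀ᶠ y in 𝓝[≠] x, f y ≠ 0 := by
  obtain ⟨K, -, hK⟩ := (fderiv ℝ f x).toLinearMap.exists_antilipschitzWith
    (LinearMap.ker_eq_bot.2 hi)
  exact hf.hasFDerivAt.eventually_ne ⟨K, hK⟩

omit [FiniteDimensional ℝ W] in
/-- near a point where all zeros are regular there are no other zeros -/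
theorem A2_not_mem {f : V → W} {U : Set V} (hU : IsOpen U) (hf : ContDiffOn ℝ ∞ f U) {x : V}
    (hx : x ∈ U) (hr : f x = 0 → Function.Injective (fderiv ℝ f x)) :
    ∀ᶠ y in 𝓝 x, f y = 0 → y = x := by
  have hd : ContDiffAt ℝ ∞ f x := hf.contDiffAt (hU.mem_nhds hx)
  by_cases h : f x = 0
  · have h1 := A2_eventually_ne (hd.differentiableAt (by simp)) (hr h)
    rw [eventually_nhdsWithin_iff] at h1
    filter_upwards [h1] with y hy h2
    by_contra h3
    exact hy h3 h2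
  · filter_upwards [hd.continuousAt.eventually_ne h] with y hy h2
    exact absurd h2 hy

omit [FiniteDimensional ℝ W] in
theorem A2_finite {U K : Set V} (hU : IsOpen U)
    (hK : IsCompact K) (hKU : K ⊆ U) {f : V → W} (hf : ContDiffOn ℝ ∞ f U)
    (hr : ∀ x ∈ K, f x = 0 → Function.Injective (fderiv ℝ f x)) : {x ∈ K | f x = 0}.Finite := by
  by_contra hinf
  obtain ⟨x, hx, hacc⟩ := Set.Infinite.exists_accPt_of_subset_isCompact hinf hK
    (fun y hy => hy.1)
  rw [accPt_iff_frequently] at hacc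
  refine hacc ?_
  filter_upwards [A2_not_mem hU hf (hKU hx) (hr x hx)] with y hy h2
  exact h2.1 (hy h2.2.2)

omit [FiniteDimensional ℝ W] in
/-- all zeros in a neighbourhood of `K` are in `K` -/
theorem A2_nhds {U K : Set V} (hU : IsOpen U)
    (hKU : K ⊆ U) {f : V → W} (hf : ContDiffOn ℝ ∞ f U)
    (hr : ∀ x ∈ K, f x = 0 → Function.Injective (fderiv ℝ f x)) :
    ∃ O : Set V, IsOpen O ∧ K ⊆ O ∧ O ⊆ U ∧ ∀ x ∈ O, f x = 0 → x ∈ K := by
  refine ⟨U ∩ (closure ({x | f x = 0} \ K))ᶜ, hU.inter isClosed_closure.isOpen_compl, ?_,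
    inter_subset_left, ?_⟩
  · intro x hx
    refine ⟨hKU hx, fun hcl => ?_⟩
    rw [mem_closure_iff_frequently] at hcl
    refine hcl ?_
    filter_upwards [A2_not_mem hU hf (hKU hx) (hr x hx)] with y hy h2
    exact h2.2 (by rw [hy h2.1]; exact hx)
  · intro x hx h0
    by_contra h1
    exact hx.2 (subset_closure ⟨h0, h1⟩)

end Local

section Deg

/-- the local contribution of a regular zero -/
theorem A2_local {n : ℕ} {G : Set (Fin n → ℝ)} (hG : IsOpen G)
    {f : (Fin n → ℝ) → (Fin n → ℝ)} (hf : ContDiffOn ℝ ∞ f G) {z : Fin n → ℝ} (hz : z ∈ G)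
    (hi : Function.Injective (fderiv ℝ f z)) (h0 : f z = 0) :
    ∃ N : Set (Fin n → ℝ), IsOpen N ∧ z ∈ N ∧ N ⊆ G ∧ ∃ s : ℤ, (s : ZMod 2) = 1 ∧
      ∃ δ : ℝ, 0 < δ ∧ ∀ g : (Fin n → ℝ) → ℝ, (∀ y, δ ≤ ‖y‖ → g y = 0) →
        ∫ x in N, g (f x) * (fderiv ℝ f x).det = s * ∫ y, g y := by
  have hd : ContDiffAt ℝ ∞ f z := hf.contDiffAt (hG.mem_nhds hz)
  have hdet : (fderiv ℝ f z).det ≠ 0 := by
    have h1 : LinearMap.ker (fderiv ℝ f z).toLinearMap = ⊥ := LinearMap.ker_eq_bot.2 hi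
    have h2 : IsUnit (fderiv ℝ f z).toLinearMap := (LinearMap.isUnit_iff_ker_eq_bot _).2 h1
    exact ((LinearMap.isUnit_iff_isUnit_det _).1 h2).ne_zero
  let f' : (Fin n → ℝ) ≃L[ℝ] (Fin n → ℝ) :=
    ContinuousLinearEquiv.ofBijective (fderiv ℝ f z) (LinearMap.ker_eq_bot.2 hi)
      (LinearMap.range_eq_top.2 (LinearMap.surjective_of_injective
        (f := (fderiv ℝ f z).toLinearMap) hi))
  have hf' : HasStrictFDerivAt f (f' : (Fin n → ℝ) →L[ℝ] (Fin n → ℝ)) z := by
    have : (f' : (Fin n → ℝ) →L[ℝ] (Fin n → ℝ)) = fderiv ℝ f z := by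
      ext v; rfl
    rw [this]
    exact hd.hasStrictFDerivAt (by simp)
  let e := hf'.toOpenPartialHomeomorph f
  have hez : z ∈ e.source := hf'.mem_toOpenPartialHomeomorph_source
  have hec : (e : (Fin n → ℝ) → (Fin n → ℝ)) = f := hf'.toOpenPartialHomeomorph_coe
  have hcd : ContinuousOn (fun x => (fderiv ℝ f x).det) G :=
    ContinuousLinearMap.continuous_det.comp_continuousOn
      (hf.continuousOn_fderiv_of_isOpen hG (by simp))
  -- the open set where the determinant has the sign at `z`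
  let P : Set (Fin n → ℝ) := {x ∈ G | 0 < (fderiv ℝ f x).det * (fderiv ℝ f z).det}
  have hP : IsOpen P :=
    (hcd.mul continuousOn_const).isOpen_inter_preimage hG isOpen_Ioi
  have hzP : z ∈ P := ⟨hz, mul_self_pos.2 hdet⟩
  let N := e.source ∩ P
  have hN : IsOpen N := e.open_source.inter hP
  have hzN : z ∈ N := ⟨hez, hzP⟩
  have himg : IsOpen (f '' N) := by
    have := e.isOpen_image_of_subset_source hN inter_subset_left
    rwa [hec] at this
  have h0img : (0 : Fin n → ℝ) ∈ f '' N := ⟨z, hzN, h0⟩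
  obtain ⟨δ, hδ, hball⟩ := Metric.isOpen_iff.1 himg 0 h0img
  have hinj : InjOn f N := by
    have := e.injOn
    rw [hec] at this
    exact this.mono inter_subset_left
  have key : ∀ g : (Fin n → ℝ) → ℝ, (∀ y, δ ≤ ‖y‖ → g y = 0) →
      ∫ x in N, |(fderiv ℝ f x).det| • g (f x) = ∫ y, g y := by
    intro g hg
    rw [← integral_image_eq_integral_abs_det_fderiv_smul volume hN.measurableSet
      (fun x hx => ((hf.contDiffAt (hG.mem_nhds hx.2.1)).differentiableAt
        (by simp)).hasFDerivAt.hasFDerivWithinAt) hinj]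
    refine setIntegral_eq_integral_of_forall_compl_eq_zero fun y hy => ?_
    refine hg y ?_
    by_contra hlt
    exact hy (hball (by simpa using not_le.1 hlt))
  refine ⟨N, hN, hzN, fun x hx => hx.2.1, ?_⟩
  rcases lt_or_gt_of_ne hdet with hneg | hpos
  · refine ⟨-1, by decide, δ, hδ, fun g hg => ?_⟩
    rw [← key g hg]
    push_cast
    rw [neg_one_mul, ← integral_neg]
    refine setIntegral_congr_fun hN.measurableSet fun x hx => ?_
    have : (fderiv ℝ f x).det < 0 := by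
      have := hx.2.2
      nlinarith [mul_pos_iff.1 this |>.resolve_left (fun h => absurd h.2 hneg.not_gt)]
    simp only [smul_eq_mul]
    rw [abs_of_neg this]; ring
  · refine ⟨1, by decide, δ, hδ, fun g hg => ?_⟩
    rw [← key g hg]
    push_cast
    rw [one_mul]
    refine setIntegral_congr_fun hN.measurableSet fun x hx => ?_
    have : 0 < (fderiv ℝ f x).det := by
      have := hx.2.2
      exact (mul_pos_iff_of_pos_right hpos).1 this
    simp only [smul_eq_mul]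
    rw [abs_of_pos this]; ring

/-- the signed number of zeros as an integral -/
theorem A2_degree {n : ℕ} {U K : Set (Fin n → ℝ)} (hU : IsOpen U) (hK : IsCompact K)
    (hKU : K ⊆ U) {f : (Fin n → ℝ) → (Fin n → ℝ)} (hf : ContDiffOn ℝ ∞ f U)
    (hr : ∀ x ∈ K, f x = 0 → Function.Injective (fderiv ℝ f x))
    (hint : ∀ x ∈ K, f x = 0 → x ∈ interior K) :
    ∃ m : ℤ, (m : ZMod 2) = ({x ∈ K | f x = 0}.ncard : ZMod 2) ∧
      ∀ᶠ δ : ℝ in 𝓝[>] 0, ∀ g : (Fin n → ℝ) → ℝ, Continuous g → (∀ y, δ ≤ ‖y‖ → g y = 0) →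
        ∫ x in K, g (f x) * (fderiv ℝ f x).det = m * ∫ y, g y := by
  classical
  set Z : Set (Fin n → ℝ) := {x ∈ K | f x = 0} with hZdef
  have hZ : Z.Finite := A2_finite hU hK hKU hf hr
  obtain ⟨T, hT, hTd⟩ := hZ.t2_separation
  have hloc : ∀ z : Fin n → ℝ, ∃ (N : Set (Fin n → ℝ)) (s : ℤ) (δ : ℝ), z ∈ Z →
      IsOpen N ∧ z ∈ N ∧ N ⊆ interior K ∩ T z ∧ (s : ZMod 2) = 1 ∧ 0 < δ ∧
      ∀ g : (Fin n → ℝ) → ℝ, (∀ y, δ ≤ ‖y‖ → g y = 0) →
        ∫ x in N, g (f x) * (fderiv ℝ f x).det = s * ∫ y, g y := by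
    intro z
    by_cases hz : z ∈ Z
    · obtain ⟨N, hN, hzN, hNG, s, hs, δ, hδ, h⟩ := A2_local (G := interior K ∩ T z)
        (isOpen_interior.inter (hT z).2) (hf.mono (fun x hx => hKU (interior_subset hx.1)))
        (f := f) (z := z) ⟨hint z hz.1 hz.2, (hT z).1⟩ (hr z hz.1 hz.2) hz.2
      exact ⟨N, s, δ, fun _ => ⟨hN, hzN, hNG, hs, hδ, h⟩⟩
    · exact ⟨∅, 0, 0, fun h => absurd h hz⟩
  choose N s δ hprop using hloc
  refine ⟨∑ z ∈ hZ.toFinset, s z, ?_, ?_⟩
  · push_cast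
    rw [Finset.sum_congr rfl (g := fun _ => (1 : ZMod 2))]
    · rw [Finset.sum_const, nsmul_eq_mul, mul_one, Set.ncard_eq_toFinset_card _ hZ]
    · intro z hz
      exact (hprop z (hZ.mem_toFinset.1 hz)).2.2.2.1
  -- the complement of the small neighbourhoods
  set Nn : Set (Fin n → ℝ) := ⋃ z ∈ hZ.toFinset, N z with hNn
  have hNo : IsOpen Nn := isOpen_biUnion fun z hz => (hprop z (hZ.mem_toFinset.1 hz)).1
  have hNK : Nn ⊆ K := by
    intro x hx
    obtain ⟨z, hz, hx⟩ := mem_iUnion₂.1 hx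
    exact interior_subset ((hprop z (hZ.mem_toFinset.1 hz)).2.2.1 hx).1
  have hcomp : IsCompact (K \ Nn) := hK.diff hNo
  have hfar : ∃ d : ℝ, 0 < d ∧ ∀ x ∈ K \ Nn, d ≤ ‖f x‖ := by
    rcases (K \ Nn).eq_empty_or_nonempty with he | hne
    · exact ⟨1, one_pos, fun x hx => by simp [he] at hx⟩
    · obtain ⟨x0, hx0, hmin⟩ := hcomp.exists_isMinOn hne
        ((hf.continuousOn.mono (sdiff_subset.trans hKU)).norm)
      refine ⟨‖f x0‖, ?_, fun x hx => hmin hx⟩
      rw [norm_pos_iff]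
      intro h0
      refine hx0.2 (mem_iUnion₂.2 ⟨x0, hZ.mem_toFinset.2 ⟨hx0.1, h0⟩, ?_⟩)
      exact (hprop x0 ⟨hx0.1, h0⟩).2.1
  obtain ⟨d, hd, hfar⟩ := hfar
  have hcd : ContinuousOn (fun x => (fderiv ℝ f x).det) U :=
    ContinuousLinearMap.continuous_det.comp_continuousOn
      (hf.continuousOn_fderiv_of_isOpen hU (by simp))
  have hev : ∀ᶠ ε : ℝ in 𝓝[>] 0, ∀ z ∈ Z, ε < δ z := by
    rw [eventually_all_finite hZ]
    intro z hz
    filter_upwards [Ioo_mem_nhdsGT (hprop z hz).2.2.2.2.1] with ε hε using hε.2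
  filter_upwards [hev, Ioo_mem_nhdsGT hd] with ε hε1 hε2 g hg hg0
  have hcont : ContinuousOn (fun x => g (f x) * (fderiv ℝ f x).det) K :=
    (hg.comp_continuousOn (hf.continuousOn.mono hKU)).mul (hcd.mono hKU)
  have hi : IntegrableOn (fun x => g (f x) * (fderiv ℝ f x).det) K volume :=
    hcont.integrableOn_compact hK
  rw [setIntegral_eq_of_subset_of_forall_sdiff_eq_zero hK.measurableSet hNK
    (fun x hx => by rw [hg0 _ (hε2.2.le.trans (hfar x hx)), zero_mul]),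
    hNn, integral_biUnion_finset]
  · push_cast
    rw [Finset.sum_mul]
    refine Finset.sum_congr rfl fun z hz => ?_
    have hz' := hZ.mem_toFinset.1 hz
    exact (hprop z hz').2.2.2.2.2 g fun y hy => hg0 y ((hε1 z hz').le.trans hy)
  · intro z hz
    exact (hprop z (hZ.mem_toFinset.1 hz)).1.measurableSet
  · intro z hz w hw hzw
    have hz' := hZ.mem_toFinset.1 hz
    have hw' := hZ.mem_toFinset.1 hw
    exact (hTd hz' hw' hzw).mono (fun x hx => ((hprop z hz').2.2.1 hx).2)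
      (fun x hx => ((hprop w hw').2.2.1 hx).2)
  · intro z hz
    exact hi.mono_set (fun x hx => interior_subset ((hprop z (hZ.mem_toFinset.1 hz)).2.2.1 hx).1)

/-- the Jacobian integrals agree -/
theorem A2_int {n : ℕ} {U K : Set (Fin n → ℝ)} (hU : IsOpen U) (hK : IsCompact K)
    (hKU : K ⊆ U) {f0 f1 : (Fin n → ℝ) → (Fin n → ℝ)} (h0 : ContDiffOn ℝ ∞ f0 U)
    (h1 : ContDiffOn ℝ ∞ f1 U) (heq : ∀ x ∈ U \ K, f0 x = f1 x)
    {H : (Fin n → ℝ) → ℝ} (hH : ContDiff ℝ ∞ H) (v : Fin n → ℝ) :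
    ∫ x in K, (fderiv ℝ H (f1 x) v * (fderiv ℝ f1 x).det
      - fderiv ℝ H (f0 x) v * (fderiv ℝ f0 x).det) = 0 := by
  obtain ⟨L, hL, hKL, hLU⟩ := exists_compact_between hK hU hKU
  obtain ⟨χ, hχ1, hχ0, -⟩ := exists_contMDiffMap_one_nhds_of_subset_interior (n := (⊤ : ℕ∞))
    𝓘(ℝ, Fin n → ℝ) hK.isClosed hKL
  have hχ : ContDiff ℝ ∞ (χ : (Fin n → ℝ) → ℝ) := contMDiff_iff_contDiff.1 χ.contMDiff
  have hsm : ∀ {f : (Fin n → ℝ) → (Fin n → ℝ)}, ContDiffOn ℝ ∞ f U →
      ContDiff ℝ ∞ (fun x => χ x • f x) := by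
    intro f hf
    rw [contDiff_iff_contDiffAt]
    intro x
    by_cases hx : x ∈ U
    · exact hχ.contDiffAt.smul (hf.contDiffAt (hU.mem_nhds hx))
    · have h2 : x ∈ Lᶜ := fun h => hx (hLU h)
      have h3 : (fun x => χ x • f x) =ᶠ[𝓝 x] fun _ => 0 := by
        filter_upwards [hL.isClosed.isOpen_compl.mem_nhds h2] with y hy
        rw [hχ0 y hy, zero_smul]
      exact contDiffAt_const.congr_of_eventuallyEq h3
  have hab : ∀ x ∉ K, (fun x => χ x • f1 x) x = (fun x => χ x • f0 x) x := by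
    intro x hx
    by_cases hxU : x ∈ U
    · simp only [heq x ⟨hxU, hx⟩]
    · simp only [hχ0 x fun h => hxU (hLU h), zero_smul]
  have key := TOP.degree_integral_eq (hsm h1) (hsm h0) hK hab hH v
  rw [← setIntegral_eq_integral_of_forall_compl_eq_zero (s := K)] at key
  · rw [← key]
    refine setIntegral_congr_fun hK.measurableSet fun x hx => ?_
    have h2 : ∀ᶠ y in 𝓝 x, χ y = 1 := hχ1.filter_mono (nhds_le_nhdsSet hx)
    have h3 : ∀ f : (Fin n → ℝ) → (Fin n → ℝ), (fun x => χ x • f x) =ᶠ[𝓝 x] f := by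
      intro f
      filter_upwards [h2] with y hy
      rw [hy, one_smul]
    simp only [TOP.jd_eq]
    rw [(h3 f1).fderiv_eq, (h3 f0).fderiv_eq, h2.self_of_nhds, one_smul, one_smul]
    ring
  · intro x hx
    have h2 : (fun x => χ x • f1 x) =ᶠ[𝓝 x] (fun x => χ x • f0 x) := by
      filter_upwards [hK.isClosed.isOpen_compl.mem_nhds hx] with y hy
      exact hab y hy
    simp only [TOP.jd_eq]
    rw [h2.fderiv_eq]
    have := hab x hx
    simp only at this
    rw [this, sub_self]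

/-- a test function which is a derivative -/
theorem A2_test {n : ℕ} (hn : 0 < n) {δ : ℝ} (hδ : 0 < δ) :
    ∃ (H : (Fin n → ℝ) → ℝ) (v : Fin n → ℝ), ContDiff ℝ ∞ H ∧
      Continuous (fun y => fderiv ℝ H y v) ∧ (∀ y, δ ≤ ‖y‖ → fderiv ℝ H y v = 0) ∧
      0 < ∫ y, fderiv ℝ H y v := by
  classical
  let β : ContDiffBump (0 : ℝ) := ⟨δ / 2, δ, half_pos hδ, half_lt_self hδ⟩
  let θ : ℝ → ℝ := fun s => ∫ u in (0 : ℝ)..s, β u
  have hβ : ContDiff ℝ ∞ (β : ℝ → ℝ) := β.contDiff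
  have hθd : ∀ s, HasDerivAt θ (β s) s := fun s =>
    intervalIntegral.integral_hasDerivAt_right (hβ.continuous.intervalIntegrable _ _)
      (hβ.continuous.stronglyMeasurableAtFilter _ _) hβ.continuous.continuousAt
  have hθ : ContDiff ℝ ∞ θ := by
    rw [contDiff_infty_iff_deriv]
    refine ⟨fun s => (hθd s).differentiableAt, ?_⟩
    have : deriv θ = β := by
      funext s
      exact (hθd s).deriv
    rw [this]
    exact hβ
  let i0 : Fin n := ⟨0, hn⟩
  let H : (Fin n → ℝ) → ℝ := fun y => θ (y i0) * ∏ j ∈ Finset.univ.erase i0, β (y j)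
  let v : Fin n → ℝ := Pi.single i0 1
  have hH : ContDiff ℝ ∞ H := by
    refine (hθ.comp (contDiff_apply ℝ ℝ i0)).mul (contDiff_prod fun j _ => ?_)
    exact hβ.comp (contDiff_apply ℝ ℝ j)
  have hd : ∀ y, fderiv ℝ H y v = ∏ j, β (y j) := by
    intro y
    rw [← (hH.differentiable (by simp) y).lineDeriv_eq_fderiv]
    have h1 : HasDerivAt (fun t : ℝ => H (y + t • v))
        (β (y i0) * ∏ j ∈ Finset.univ.erase i0, β (y j)) 0 := by
      have e1 : (fun t : ℝ => H (y + t • v))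
          = fun t => θ (y i0 + t) * ∏ j ∈ Finset.univ.erase i0, β (y j) := by
        funext t
        simp only [H, v]
        congr 1
        · simp
        · refine Finset.prod_congr rfl fun j hj => ?_
          have : j ≠ i0 := Finset.ne_of_mem_erase hj
          simp [this]
      rw [e1]
      have h2 : HasDerivAt (fun t : ℝ => θ (y i0 + t)) (β (y i0)) 0 := by
        have h3 := hθd (y i0 + 0)
        have h4 : HasDerivAt (fun t : ℝ => y i0 + t) 1 0 := (hasDerivAt_id 0).const_add _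
        have h5 := HasDerivAt.comp (h₂ := θ) (h := fun t : ℝ => y i0 + t) (0 : ℝ) h3 h4
        rw [add_zero, mul_one] at h5
        exact h5
      exact h2.mul_const _
    rw [Finset.mul_prod_erase _ (fun j => β (y j)) (Finset.mem_univ i0)] at h1
    exact h1.deriv
  have hfun : (fun y => fderiv ℝ H y v) = fun y => ∏ j, β (y j) := funext hd
  have hcont : Continuous fun y : Fin n → ℝ => ∏ j, β (y j) :=
    continuous_finsetProd _ fun j _ => hβ.continuous.comp (continuous_apply j)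
  have hzero : ∀ y : Fin n → ℝ, δ ≤ ‖y‖ → ∏ j, β (y j) = 0 := by
    intro y hy
    have h1 : ¬ ∀ j, ‖y j‖ < δ := fun h => absurd ((pi_norm_lt_iff hδ).2 h) (not_lt.2 hy)
    push Not at h1
    obtain ⟨j, hj⟩ := h1
    refine Finset.prod_eq_zero (Finset.mem_univ j) ?_
    refine β.zero_of_le_dist ?_
    simpa [β] using hj
  refine ⟨H, v, hH, hfun ▸ hcont, fun y hy => (hd y).trans (hzero y hy), ?_⟩
  rw [hfun]
  refine hcont.integral_pos_of_hasCompactSupport_nonneg_nonzero ?_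
    (fun y => Finset.prod_nonneg fun j _ => β.nonneg) (x := 0) ?_
  · refine HasCompactSupport.intro (isCompact_closedBall (0 : Fin n → ℝ) δ) fun y hy => hzero y ?_
    rw [mem_closedBall_zero_iff, not_le] at hy
    exact hy.le
  · refine Finset.prod_ne_zero_iff.2 fun j _ => ?_
    have : β (0 : ℝ) = 1 := β.one_of_mem_closedBall (by
      simp only [β, Metric.mem_closedBall, dist_self]; exact (half_pos hδ).le)
    simp [this]

/-- parity, in coordinates -/
theorem A2_parity {n : ℕ} {U K : Set (Fin n → ℝ)} (hU : IsOpen U) (hK : IsCompact K)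
    (hKU : K ⊆ U) {f0 f1 : (Fin n → ℝ) → (Fin n → ℝ)} (h0 : ContDiffOn ℝ ∞ f0 U)
    (h1 : ContDiffOn ℝ ∞ f1 U) (heq : ∀ x ∈ U \ K, f0 x = f1 x)
    (r0 : ∀ x ∈ K, f0 x = 0 → Function.Injective (fderiv ℝ f0 x))
    (r1 : ∀ x ∈ K, f1 x = 0 → Function.Injective (fderiv ℝ f1 x)) :
    {x ∈ K | f0 x = 0}.ncard % 2 = {x ∈ K | f1 x = 0}.ncard % 2 := by
  rcases Nat.eq_zero_or_pos n with hn | hn
  · subst hn
    have : f0 = f1 := by
      funext x
      exact Subsingleton.elim _ _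
    rw [this]
  obtain ⟨O0, hO0, hKO0, hO0U, hz0⟩ := A2_nhds hU hKU h0 r0
  obtain ⟨O1, hO1, hKO1, hO1U, hz1⟩ := A2_nhds hU hKU h1 r1
  obtain ⟨L, hL, hKL, hLO⟩ := exists_compact_between hK (hO0.inter hO1) (subset_inter hKO0 hKO1)
  have hLU : L ⊆ U := fun x hx => hO0U (hLO hx).1
  have hKL' : K ⊆ L := hKL.trans interior_subset
  have e0 : {x ∈ L | f0 x = 0} = {x ∈ K | f0 x = 0} := by
    ext x
    exact ⟨fun h => ⟨hz0 x (hLO h.1).1 h.2, h.2⟩, fun h => ⟨hKL' h.1, h.2⟩⟩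
  have e1 : {x ∈ L | f1 x = 0} = {x ∈ K | f1 x = 0} := by
    ext x
    exact ⟨fun h => ⟨hz1 x (hLO h.1).2 h.2, h.2⟩, fun h => ⟨hKL' h.1, h.2⟩⟩
  obtain ⟨m0, hm0, hd0⟩ := A2_degree hU hL hLU h0
    (fun x hx h => r0 x (hz0 x (hLO hx).1 h) h) (fun x hx h => hKL (hz0 x (hLO hx).1 h))
  obtain ⟨m1, hm1, hd1⟩ := A2_degree hU hL hLU h1
    (fun x hx h => r1 x (hz1 x (hLO hx).2 h) h) (fun x hx h => hKL (hz1 x (hLO hx).2 h))
  have hpos : ∀ᶠ δ : ℝ in 𝓝[>] 0, 0 < δ := self_mem_nhdsWithin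
  obtain ⟨δ, hδ, hδ0, hδ1⟩ := (hpos.and (hd0.and hd1)).exists
  rw [e0] at hm0
  rw [e1] at hm1
  obtain ⟨H, v, hH, hgc, hg0, hgi⟩ := A2_test hn hδ
  have hi : ∀ {f : (Fin n → ℝ) → (Fin n → ℝ)}, ContDiffOn ℝ ∞ f U →
      IntegrableOn (fun x => fderiv ℝ H (f x) v * (fderiv ℝ f x).det) L volume := by
    intro f hf
    have hcd : ContinuousOn (fun x => (fderiv ℝ f x).det) U :=
      ContinuousLinearMap.continuous_det.comp_continuousOn
        (hf.continuousOn_fderiv_of_isOpen hU (by simp))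
    exact ((hgc.comp_continuousOn (hf.continuousOn.mono hLU)).mul
      (hcd.mono hLU)).integrableOn_compact hL
  have key := A2_int hU hL hLU h0 h1 (fun x hx => heq x ⟨hx.1, fun h => hx.2 (hKL' h)⟩) hH v
  rw [integral_sub (hi h1) (hi h0), hδ0 _ hgc hg0, hδ1 _ hgc hg0, ← sub_mul,
    mul_eq_zero, or_iff_left hgi.ne', sub_eq_zero] at key
  have hm : m1 = m0 := by exact_mod_cast key
  rw [← ZMod.natCast_eq_natCast_iff', ← hm0, ← hm1, hm]

end Deg

section Transport

variable {V W : Type*} [NormedAddCommGroup V] [NormedSpace ℝ V] [FiniteDimensional ℝ V]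
  [NormedAddCommGroup W] [NormedSpace ℝ W] [FiniteDimensional ℝ W]

/-- A2a -/
theorem finite_zeros (hd : finrank ℝ V = finrank ℝ W) {U K : Set V} (hU : IsOpen U)
    (hK : IsCompact K) (hKU : K ⊆ U) {f : V → W} (hf : ContDiffOn ℝ ∞ f U)
    (hr : ∀ x ∈ K, f x = 0 → Function.Injective (fderiv ℝ f x)) : {x ∈ K | f x = 0}.Finite :=
  A2_finite hU hK hKU hf hr

/-- A2 -/
theorem parity_local (hd : finrank ℝ V = finrank ℝ W) {U K : Set V} (hU : IsOpen U)
    (hK : IsCompact K) (hKU : K ⊆ U) {f0 f1 : V → W} (h0 : ContDiffOn ℝ ∞ f0 U)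
    (h1 : ContDiffOn ℝ ∞ f1 U) (heq : ∀ x ∈ U \ K, f0 x = f1 x)
    (r0 : ∀ x ∈ K, f0 x = 0 → Function.Injective (fderiv ℝ f0 x))
    (r1 : ∀ x ∈ K, f1 x = 0 → Function.Injective (fderiv ℝ f1 x)) :
    {x ∈ K | f0 x = 0}.ncard % 2 = {x ∈ K | f1 x = 0}.ncard % 2 := by
  let A : V ≃L[ℝ] (Fin (finrank ℝ V) → ℝ) := ContinuousLinearEquiv.ofFinrankEq (by simp)
  let B : W ≃L[ℝ] (Fin (finrank ℝ V) → ℝ) := ContinuousLinearEquiv.ofFinrankEq (by simp [hd])
  have hU' : IsOpen (A.symm ⁻¹' U) := hU.preimage A.symm.continuous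
  have hK' : IsCompact (A.symm ⁻¹' K) := by
    rw [← A.image_eq_preimage_symm]
    exact hK.image A.continuous
  have hsm : ∀ {f : V → W}, ContDiffOn ℝ ∞ f U →
      ContDiffOn ℝ ∞ (fun x => B (f (A.symm x))) (A.symm ⁻¹' U) := by
    intro f hf
    exact B.contDiff.comp_contDiffOn (hf.comp A.symm.contDiff.contDiffOn (fun x hx => hx))
  have hreg : ∀ {f : V → W}, (∀ x ∈ K, f x = 0 → Function.Injective (fderiv ℝ f x)) →
      ∀ x ∈ A.symm ⁻¹' K, B (f (A.symm x)) = 0 →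
        Function.Injective (fderiv ℝ (fun x => B (f (A.symm x))) x) := by
    intro f hr x hx hfx
    have h1 : f (A.symm x) = 0 := by simpa using hfx
    have h2 := hr _ hx h1
    have h3 : fderiv ℝ (fun x => B (f (A.symm x))) x
        = (B : W →L[ℝ] _).comp ((fderiv ℝ f (A.symm x)).comp (A.symm : _ →L[ℝ] V)) := by
      have e1 : (fun x => B (f (A.symm x))) = B ∘ (f ∘ A.symm) := rfl
      rw [e1, B.comp_fderiv, A.symm.comp_right_fderiv]
    rw [h3]
    exact B.injective.comp (h2.comp A.symm.injective)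
  have hcard : ∀ f : V → W, {x ∈ A.symm ⁻¹' K | B (f (A.symm x)) = 0}.ncard
      = {x ∈ K | f x = 0}.ncard := by
    intro f
    have : {x ∈ A.symm ⁻¹' K | B (f (A.symm x)) = 0} = A '' {x ∈ K | f x = 0} := by
      rw [A.image_eq_preimage_symm]
      ext x
      simp
    rw [this, ncard_image_of_injective _ A.injective]
  have := A2_parity hU' hK' (preimage_mono hKU) (hsm h0) (hsm h1)
    (fun x hx => by rw [heq _ ⟨hx.1, hx.2⟩]) (hreg r0) (hreg r1)
  rwa [hcard, hcard] at this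

end Transport

end Vale.Agent.P205.Top
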