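import Vale.Agent.P205.Top.Defs

/-!
Block TOP of P205: from connected surfaces to all compact surfaces (union over the connected
components).
-/

open scoped Manifold ContDiff Topology RealInnerProductSpace
open Set Filter MeasureTheory Module TopologicalSpace

noncomputable section

namespace Vale.Agent.P205.Top

universe u v

variable {E : Type u} [NormedAddCommGroup E] [NormedSpace ℝ E]
  {M : Type v} [TopologicalSpace M] [ChartedSpace E M] [IsManifold 𝓘(ℝ, E) ∞ M]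

omit [IsManifold 𝓘(ℝ, E) ∞ M] in
/-- the derivative of the inclusion of an open subset is surjective -/
theorem mfderiv_val_surjective (U : Opens M) (x : U) :
    Function.Surjective (mfderiv 𝓘(ℝ, E) 𝓘(ℝ, E) (Subtype.val : U → M) x) := by
  classical
  set r : M → U := fun y => if h : y ∈ U then ⟨y, h⟩ else x with hr
  have hev : (Subtype.val ∘ r) =ᶠ[𝓝 (x : M)] id := by
    filter_upwards [U.isOpen.mem_nhds x.2] with y hy
    have hy' : y ∈ U := hy
    simp [hr, hy']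
  have hrx : r (x : M) = x := by simp [hr]
  have h1 : ContMDiffAt 𝓘(ℝ, E) 𝓘(ℝ, E) ∞ (Subtype.val ∘ r) (x : M) :=
    contMDiffAt_id.congr_of_eventuallyEq hev
  have h2 : ContMDiffAt 𝓘(ℝ, E) 𝓘(ℝ, E) ∞ r (x : M) :=
    (ContMDiffAt.subtypeVal_comp_iff U r (x : M)).1 h1
  have h3 : MDifferentiableAt 𝓘(ℝ, E) 𝓘(ℝ, E) r (x : M) := h2.mdifferentiableAt (by simp)
  have h4 : MDifferentiableAt 𝓘(ℝ, E) 𝓘(ℝ, E) (Subtype.val : U → M) (r (x : M)) :=
    (contMDiff_subtype_val (I := 𝓘(ℝ, E)) (n := ∞)).contMDiffAt.mdifferentiableAt (by simp)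
  have h5 := mfderiv_comp (x : M) h4 h3
  rw [hev.mfderiv_eq, mfderiv_id] at h5
  intro v
  have h6 : v = (mfderiv 𝓘(ℝ, E) 𝓘(ℝ, E) (Subtype.val : U → M) (r (x : M)))
      (mfderiv 𝓘(ℝ, E) 𝓘(ℝ, E) r (x : M) v) := by
    have := congrArg (fun L => L v) h5
    exact this
  rw [hrx] at h6
  exact ⟨_, h6.symm⟩

omit [IsManifold 𝓘(ℝ, E) ∞ M] in
/-- the derivative of a function restricted to an open subset -/
theorem mfderiv_restrict (U : Opens M) {f : M → R4} (x : U)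
    (hf : ContMDiffAt 𝓘(ℝ, E) 𝓘(ℝ, R4) ∞ f (x : M)) (v : TangentSpace 𝓘(ℝ, E) x) :
    mfderiv 𝓘(ℝ, E) 𝓘(ℝ, R4) (fun y : U => f y) x v =
      mfderiv 𝓘(ℝ, E) 𝓘(ℝ, R4) f (x : M)
        (mfderiv 𝓘(ℝ, E) 𝓘(ℝ, E) (Subtype.val : U → M) x v) := by
  have h4 : MDifferentiableAt 𝓘(ℝ, E) 𝓘(ℝ, E) (Subtype.val : U → M) x :=
    (contMDiff_subtype_val (I := 𝓘(ℝ, E)) (n := ∞)).contMDiffAt.mdifferentiableAt (by simp)
  have h3 : MDifferentiableAt 𝓘(ℝ, E) 𝓘(ℝ, R4) f (x : M) := hf.mdifferentiableAt (by simp)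
  have h5 := mfderiv_comp x h3 h4
  exact congrArg (fun L => L v) h5

/-- the union over the components -/
theorem exists_imm_unitNormal_of [CompactSpace M] [T2Space M]
    (H : ∀ (N : Type v) [TopologicalSpace N] [ChartedSpace E N] [IsManifold 𝓘(ℝ, E) ∞ N]
      [CompactSpace N] [T2Space N] [ConnectedSpace N],
      ∃ F q : N → R4, Imm (E := E) F ∧ Nor (E := E) F q ∧ ∀ p, ‖q p‖ = 1) :
    ∃ F q : M → R4, Imm (E := E) F ∧ Nor (E := E) F q ∧ ∀ p, ‖q p‖ = 1 := by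
  classical
  have : LocallyConnectedSpace M := ChartedSpace.locallyConnectedSpace E M
  let U : M → Opens M := fun p => ⟨connectedComponent p, isOpen_connectedComponent⟩
  have hUp : ∀ p, p ∈ U p := fun p => mem_connectedComponent
  have hUeq : ∀ p q, q ∈ U p → U q = U p := by
    intro p q hq
    apply Opens.ext
    exact (connectedComponent_eq hq).symm
  have key : ∀ p, ∃ F q : U p → R4, Imm (E := E) F ∧ Nor (E := E) F q ∧ ∀ x, ‖q x‖ = 1 := by
    intro p
    have : CompactSpace (U p) :=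
      isCompact_iff_compactSpace.1 (isClosed_connectedComponent (x := p)).isCompact
    have : ConnectedSpace (U p) :=
      isConnected_iff_connectedSpace.1 (isConnected_connectedComponent (x := p))
    exact H (U p)
  -- dependence only on the open set
  have key' : ∀ V : Opens M, ∃ f g : M → R4, (∃ p, V = U p) →
      (∀ x : V, ContMDiffAt 𝓘(ℝ, E) 𝓘(ℝ, R4) ∞ f (x : M)) ∧
      (∀ x : V, ContMDiffAt 𝓘(ℝ, E) 𝓘(ℝ, R4) ∞ g (x : M)) ∧
      (∀ x : V, Function.Injective (mfderiv 𝓘(ℝ, E) 𝓘(ℝ, R4) f (x : M))) ∧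
      (∀ x : V, ∀ v : TangentSpace 𝓘(ℝ, E) (x : M),
        ⟪g x, mfderiv 𝓘(ℝ, E) 𝓘(ℝ, R4) f (x : M) v⟫ = 0) ∧ ∀ x : V, ‖g x‖ = 1 := by
    intro V
    by_cases hV : ∃ p, V = U p
    · obtain ⟨p, rfl⟩ := hV
      obtain ⟨F, q, hF, hq, hn⟩ := key p
      let f : M → R4 := fun y => if h : y ∈ U p then F ⟨y, h⟩ else 0
      let g : M → R4 := fun y => if h : y ∈ U p then q ⟨y, h⟩ else 0
      have hfF : (fun y : U p => f y) = F := by
        funext y
        simp [f]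
      have hgq : (fun y : U p => g y) = q := by
        funext y
        simp [g]
      have hfs : ∀ x : U p, ContMDiffAt 𝓘(ℝ, E) 𝓘(ℝ, R4) ∞ f (x : M) := by
        intro x
        rw [← contMDiffAt_subtype_iff, hfF]
        exact hF.sm x
      have hgs : ∀ x : U p, ContMDiffAt 𝓘(ℝ, E) 𝓘(ℝ, R4) ∞ g (x : M) := by
        intro x
        rw [← contMDiffAt_subtype_iff, hgq]
        exact hq.sm x
      have hder : ∀ (x : U p) (v : TangentSpace 𝓘(ℝ, E) x),
          mfderiv 𝓘(ℝ, E) 𝓘(ℝ, R4) F x v = mfderiv 𝓘(ℝ, E) 𝓘(ℝ, R4) f (x : M)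
            (mfderiv 𝓘(ℝ, E) 𝓘(ℝ, E) (Subtype.val : U p → M) x v) := by
        intro x v
        have h1 := mfderiv_restrict (U p) x (hfs x) v
        rw [hfF] at h1
        exact h1
      refine ⟨f, g, fun _ => ⟨hfs, hgs, ?_, ?_, ?_⟩⟩
      · intro x v w hvw
        obtain ⟨v', rfl⟩ := mfderiv_val_surjective (U p) x v
        obtain ⟨w', rfl⟩ := mfderiv_val_surjective (U p) x w
        have h1 : mfderiv 𝓘(ℝ, E) 𝓘(ℝ, R4) F x v' = mfderiv 𝓘(ℝ, E) 𝓘(ℝ, R4) F x w' := by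
          rw [hder x v', hder x w']
          exact hvw
        rw [hF.inj x h1]
      · intro x v
        obtain ⟨v', rfl⟩ := mfderiv_val_surjective (U p) x v
        have h1 := hq.orth x v'
        rw [hder x v'] at h1
        have h2 : g (x : M) = q x := by simp [g]
        rw [h2]
        exact h1
      · intro x
        have h2 : g (x : M) = q x := by simp [g]
        rw [h2]
        exact hn x
    · exact ⟨0, 0, fun h => absurd h hV⟩
  choose f g hfg using key'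
  let F : M → R4 := fun p => f (U p) p
  let q : M → R4 := fun p => g (U p) p
  have hFe : ∀ p, F =ᶠ[𝓝 p] f (U p) := by
    intro p
    filter_upwards [(U p).isOpen.mem_nhds (hUp p)] with y hy
    show f (U y) y = f (U p) y
    rw [hUeq p y hy]
  have hqe : ∀ p, q =ᶠ[𝓝 p] g (U p) := by
    intro p
    filter_upwards [(U p).isOpen.mem_nhds (hUp p)] with y hy
    show g (U y) y = g (U p) y
    rw [hUeq p y hy]
  refine ⟨F, q, ⟨?_, ?_⟩, ⟨?_, ?_⟩, ?_⟩
  · intro p
    exact ((hfg (U p) ⟨p, rfl⟩).1 ⟨p, hUp p⟩).congr_of_eventuallyEq (hFe p)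
  · intro p
    rw [(hFe p).mfderiv_eq]
    exact (hfg (U p) ⟨p, rfl⟩).2.2.1 ⟨p, hUp p⟩
  · intro p
    exact ((hfg (U p) ⟨p, rfl⟩).2.1 ⟨p, hUp p⟩).congr_of_eventuallyEq (hqe p)
  · intro p
    rw [(hFe p).mfderiv_eq]
    exact (hfg (U p) ⟨p, rfl⟩).2.2.2.1 ⟨p, hUp p⟩
  · intro p
    exact (hfg (U p) ⟨p, rfl⟩).2.2.2.2 ⟨p, hUp p⟩

end Vale.Agent.P205.Top
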