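import Mathlib

/-!
Block TOP of P205 (every closed surface has an immersion into four space with a unit normal
field): definitions.
-/

open scoped Manifold ContDiff Topology RealInnerProductSpace
open Set Filter MeasureTheory Module

noncomputable section

namespace Vale.Agent.P205.Top

/-- Euclidean four space -/
abbrev R4 : Type := EuclideanSpace ℝ (Fin 4)

section

variable {E : Type*} [NormedAddCommGroup E] [NormedSpace ℝ E]
  {M : Type*} [TopologicalSpace M] [ChartedSpace E M]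

/-- an immersion into `ℝ⁴` -/
structure Imm (F : M → R4) : Prop where
  sm : ContMDiff 𝓘(ℝ, E) 𝓘(ℝ, R4) ∞ F
  inj : ∀ p, Function.Injective (mfderiv 𝓘(ℝ, E) 𝓘(ℝ, R4) F p)

/-- a smooth normal field along `F` -/
structure Nor (F ξ : M → R4) : Prop where
  sm : ContMDiff 𝓘(ℝ, E) 𝓘(ℝ, R4) ∞ ξ
  orth : ∀ p (v : TangentSpace 𝓘(ℝ, E) p), ⟪ξ p, mfderiv 𝓘(ℝ, E) 𝓘(ℝ, R4) F p v⟫ = 0

end

/-- `z ^ w` for `w ≥ 0`, `(conj z) ^ (-w)` for `w < 0` -/
def zp (w : ℤ) (z : ℂ) : ℂ := if 0 ≤ w then z ^ w.toNat else (starRingEnd ℂ z) ^ (-w).toNat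

end Vale.Agent.P205.Top
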