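import Vale.Agent.P205.Top.Defs

/-!
Block TOP of P205: local analysis near the diagonal.
-/

open scoped Manifold ContDiff Topology RealInnerProductSpace
open Set Filter MeasureTheory Module

noncomputable section

namespace Vale.Agent.P205.Top

section Flat

theorem two_le : (2 : WithTop ℕ∞) ≤ ∞ := ENat.LEInfty.out

theorem one_one_le : ((1 : WithTop ℕ∞) + 1) ≤ ∞ := by
  rw [one_add_one_eq_two]
  exact two_le

variable {G : Type*} [NormedAddCommGroup G] [InnerProductSpace ℝ G]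

/-- the final estimate -/
theorem diag_est {w v a : G} {c d : ℝ} (hc0 : 0 < c) (hpos : 0 < d)
    (hb : ‖w - a‖ ≤ c / 4 * d) (hAv : ‖a - v‖ ≤ c / 4 * d) (hlow : c * d ≤ ‖a‖)
    (hin : ⟪w, v⟫ = 0) : False := by
  have hrest : ‖w - v‖ ≤ c / 2 * d := by
    have : w - v = (w - a) + (a - v) := by abel
    rw [this]
    refine (norm_add_le _ _).trans ?_
    linarith
  have hvlow : 3 * c / 4 * d ≤ ‖v‖ := by
    have h4 : ‖a‖ ≤ ‖a - v‖ + ‖v‖ := by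
      have := norm_add_le (a - v) v
      simpa using this
    linarith
  have hsq : ‖v‖ ^ 2 = -⟪w - v, v⟫ := by
    rw [inner_sub_left, hin, real_inner_self_eq_norm_sq]
    ring
  have hle : ‖v‖ ^ 2 ≤ ‖w - v‖ * ‖v‖ := by
    rw [hsq]
    exact (neg_le_abs _).trans (abs_real_inner_le_norm _ _)
  have hcd : 0 < c * d := mul_pos hc0 hpos
  have hvpos : 0 < ‖v‖ := by linarith
  have hle' : ‖v‖ ≤ ‖w - v‖ := by
    have : ‖v‖ * ‖v‖ ≤ ‖w - v‖ * ‖v‖ := by rw [← sq]; exact hle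
    exact le_of_mul_le_mul_right this hvpos
  linarith

variable {E : Type*} [NormedAddCommGroup E] [NormedSpace ℝ E]

/-- an injective linear map is bounded below -/
theorem exists_low [FiniteDimensional ℝ E] (A : E →L[ℝ] G) (hi : Function.Injective A) :
    ∃ c : ℝ, 0 < c ∧ ∀ u : E, c * ‖u‖ ≤ ‖A u‖ := by
  obtain ⟨K, hK, hanti⟩ : ∃ K > 0, AntilipschitzWith K A.toLinearMap :=
    LinearMap.exists_antilipschitzWith A.toLinearMap (LinearMap.ker_eq_bot.2 hi)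
  have hKr : (0 : ℝ) < K := by exact_mod_cast hK
  refine ⟨(K : ℝ)⁻¹, inv_pos.2 hKr, fun u => ?_⟩
  rw [inv_mul_le_iff₀ hKr]
  have := hanti.le_mul_dist u 0
  simpa [dist_zero_right] using this

/-- the analysis in a linear space -/
theorem diag_flat [FiniteDimensional ℝ E] {f n : E → G} {y0 : E} (hf : ContDiffAt ℝ 2 f y0)
    (hi : Function.Injective (fderiv ℝ f y0))
    (ho : ∀ᶠ y in 𝓝 y0, ∀ u, ⟪n y, fderiv ℝ f y u⟫ = 0) :
    ∃ W ∈ 𝓝 y0, ∀ x ∈ W, ∀ y ∈ W, ∀ ε : ℝ, f x - f y = ε • n y → x = y := by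
  obtain ⟨c, hc0, hlow⟩ := exists_low (fderiv ℝ f y0) hi
  have hc4 : 0 < c / 4 := by positivity
  have hstr : HasStrictFDerivAt f (fderiv ℝ f y0) y0 := hf.hasStrictFDerivAt (by norm_num)
  have h1 : ∀ᶠ q : E × E in 𝓝 (y0, y0),
      ‖f q.1 - f q.2 - (fderiv ℝ f y0) (q.1 - q.2)‖ ≤ c / 4 * ‖q.1 - q.2‖ :=
    hstr.isLittleO.def hc4
  have hcont : ContinuousAt (fderiv ℝ f) y0 := hf.continuousAt_fderiv (by norm_num)
  have h2 : ∀ᶠ y in 𝓝 y0, ‖fderiv ℝ f y - fderiv ℝ f y0‖ ≤ c / 4 := by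
    filter_upwards [Metric.continuousAt_iff'.1 hcont (c / 4) hc4] with y hy
    rw [dist_eq_norm] at hy
    exact hy.le
  rw [nhds_prod_eq] at h1
  obtain ⟨W1, hW1, hW1s⟩ := mem_prod_self_iff.1 h1
  refine ⟨W1 ∩ {y | ‖fderiv ℝ f y - fderiv ℝ f y0‖ ≤ c / 4} ∩
    {y | ∀ u, ⟪n y, fderiv ℝ f y u⟫ = 0}, inter_mem (inter_mem hW1 h2) ho, ?_⟩
  rintro x ⟨⟨hx1, -⟩, -⟩ y ⟨⟨hy1, hy2⟩, hy3⟩ ε he
  by_contra hxy
  have hpos : 0 < ‖x - y‖ := norm_pos_iff.2 (sub_ne_zero.2 hxy)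
  have hb : ‖f x - f y - (fderiv ℝ f y0) (x - y)‖ ≤ c / 4 * ‖x - y‖ :=
    hW1s (mk_mem_prod hx1 hy1)
  have hAv : ‖(fderiv ℝ f y0) (x - y) - (fderiv ℝ f y) (x - y)‖ ≤ c / 4 * ‖x - y‖ := by
    rw [← norm_neg, neg_sub, ← sub_apply]
    exact ((fderiv ℝ f y - fderiv ℝ f y0).le_opNorm _).trans
      (mul_le_mul_of_nonneg_right hy2 (norm_nonneg _))
  refine diag_est hc0 hpos hb hAv (hlow _) ?_
  rw [he, inner_smul_left, hy3 (x - y), mul_zero]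

/-- the derivative of a normal field at a zero is normal, in a linear space -/
theorem diag_orth {f n : E → G} {y0 : E} (hf : ContDiffAt ℝ ∞ f y0) (hn : ContDiffAt ℝ ∞ n y0)
    (hz : n y0 = 0) (ho : ∀ᶠ y in 𝓝 y0, ∀ e, ⟪n y, fderiv ℝ f y e⟫ = 0) (u e : E) :
    ⟪fderiv ℝ n y0 u, fderiv ℝ f y0 e⟫ = 0 := by
  have hd1 : HasFDerivAt n (fderiv ℝ n y0) y0 := (hn.differentiableAt (by simp)).hasFDerivAt
  have hd2 : DifferentiableAt ℝ (fun y => fderiv ℝ f y e) y0 := by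
    have h : ContDiffAt ℝ 1 (fderiv ℝ f) y0 := hf.fderiv_right (m := 1) one_one_le
    exact (h.differentiableAt (by norm_num)).clm_apply (differentiableAt_const e)
  have hd3 := hd1.inner ℝ hd2.hasFDerivAt
  have hzero : (fun y => ⟪n y, fderiv ℝ f y e⟫) =ᶠ[𝓝 y0] fun _ => (0 : ℝ) := by
    filter_upwards [ho] with y hy
    exact hy e
  have hd4 := (hd3.congr_of_eventuallyEq hzero.symm).unique (hasFDerivAt_const (0 : ℝ) y0)
  have hd5 := congrArg (fun T : E →L[ℝ] ℝ => T u) hd4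
  simp only [ContinuousLinearMap.comp_apply, ContinuousLinearMap.prod_apply,
    fderivInnerCLM_apply, hz, inner_zero_left, zero_add, zero_apply] at hd5
  exact hd5

/-- the linear algebra at a zero on the diagonal -/
theorem lin_inj {A B : E →L[ℝ] G} (hA : Function.Injective A) (hB : Function.Injective B)
    (ho : ∀ u e : E, ⟪B u, A e⟫ = 0) {ε : ℝ} (hε : ε ≠ 0) :
    Function.Injective (A.comp (ContinuousLinearMap.fst ℝ E E) -
      A.comp (ContinuousLinearMap.snd ℝ E E) -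
      ε • B.comp (ContinuousLinearMap.snd ℝ E E) : E × E →L[ℝ] G) := by
  rw [injective_iff_map_eq_zero]
  rintro ⟨u, v⟩ h
  have h0 : A u - A v - ε • B v = 0 := by simpa using h
  have h1 : A (u - v) = ε • B v := by
    rw [map_sub]
    exact sub_eq_zero.1 h0
  have h2 : A (u - v) = 0 := by
    rw [← inner_self_eq_zero (𝕜 := ℝ)]
    nth_rewrite 1 [h1]
    rw [inner_smul_left, ho v (u - v), mul_zero]
  have h3 : u - v = 0 := hA (by rw [h2, map_zero])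
  have h4 : B v = 0 := by
    rw [h2] at h1
    exact (smul_eq_zero.1 h1.symm).resolve_left hε
  have h5 : v = 0 := hB (by rw [h4, map_zero])
  rw [h5, sub_zero] at h3
  rw [h3, h5]
  rfl

end Flat

section Surface

variable {E : Type*} [NormedAddCommGroup E] [NormedSpace ℝ E] [FiniteDimensional ℝ E]
  {M : Type*} [TopologicalSpace M] [ChartedSpace E M] [IsManifold 𝓘(ℝ, E) ∞ M]

omit [FiniteDimensional ℝ E] [IsManifold 𝓘(ℝ, E) ∞ M] in
theorem mfderiv_chart {F : M → R4} {p : M} (hF : MDifferentiableAt 𝓘(ℝ, E) 𝓘(ℝ, R4) F p) :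
    mfderiv 𝓘(ℝ, E) 𝓘(ℝ, R4) F p =
      fderiv ℝ (F ∘ (extChartAt 𝓘(ℝ, E) p).symm) (extChartAt 𝓘(ℝ, E) p p) := by
  rw [hF.mfderiv]
  simp only [writtenInExtChartAt, modelWithCornersSelf_coe, range_id, fderivWithin_univ,
    extChartAt_model_space_eq_id, PartialEquiv.refl_coe, Function.id_comp]
  rfl

omit [FiniteDimensional ℝ E] in
theorem chart_contDiffOn {F : M → R4} (hF : ContMDiff 𝓘(ℝ, E) 𝓘(ℝ, R4) ∞ F) (p : M) :
    ContDiffOn ℝ ∞ (F ∘ (extChartAt 𝓘(ℝ, E) p).symm) (extChartAt 𝓘(ℝ, E) p).target := by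
  rw [← contMDiffOn_iff_contDiffOn]
  exact hF.comp_contMDiffOn (contMDiffOn_extChartAt_symm p)

omit [FiniteDimensional ℝ E] in
theorem chart_orth {F ξ : M → R4} (hF : Imm (E := E) F) (hξ : Nor (E := E) F ξ) (p : M)
    {y : E} (hy : y ∈ (extChartAt 𝓘(ℝ, E) p).target) (u : E) :
    ⟪(ξ ∘ (extChartAt 𝓘(ℝ, E) p).symm) y,
      fderiv ℝ (F ∘ (extChartAt 𝓘(ℝ, E) p).symm) y u⟫ = 0 := by
  have hopen : IsOpen (extChartAt 𝓘(ℝ, E) p).target := isOpen_extChartAt_target p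
  have hs : MDifferentiableAt 𝓘(ℝ, E) 𝓘(ℝ, E) (extChartAt 𝓘(ℝ, E) p).symm y :=
    ((contMDiffOn_extChartAt_symm (n := ∞) (I := 𝓘(ℝ, E)) p).contMDiffAt
      (hopen.mem_nhds hy)).mdifferentiableAt (by simp)
  have hFd : MDifferentiableAt 𝓘(ℝ, E) 𝓘(ℝ, R4) F ((extChartAt 𝓘(ℝ, E) p).symm y) :=
    (hF.sm _).mdifferentiableAt (by simp)
  have hcomp := mfderiv_comp y hFd hs
  rw [mfderiv_eq_fderiv] at hcomp
  rw [hcomp]
  exact hξ.orth _ _

/-- C1: near the diagonal -/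
theorem near_diag {F ξ : M → R4} (hF : Imm (E := E) F) (hξ : Nor (E := E) F ξ) (p : M) :
    ∃ V ∈ 𝓝 p, ∀ x ∈ V, ∀ y ∈ V, ∀ ε : ℝ, F x - F y = ε • ξ y → x = y := by
  set φ := extChartAt 𝓘(ℝ, E) p with hφ
  have hopen : IsOpen φ.target := isOpen_extChartAt_target p
  have hmem : φ p ∈ φ.target := mem_extChartAt_target p
  have hsm : ContDiffAt ℝ ∞ (F ∘ φ.symm) (φ p) :=
    (chart_contDiffOn hF.sm p).contDiffAt (hopen.mem_nhds hmem)
  have hinj : Function.Injective (fderiv ℝ (F ∘ φ.symm) (φ p)) := by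
    rw [← mfderiv_chart ((hF.sm p).mdifferentiableAt (by simp))]
    exact hF.inj p
  obtain ⟨W, hW, hW'⟩ := diag_flat (f := F ∘ φ.symm) (n := ξ ∘ φ.symm)
    (hsm.of_le two_le) hinj
    (by
      filter_upwards [hopen.mem_nhds hmem] with y hy u
      exact chart_orth hF hξ p hy u)
  refine ⟨φ.source ∩ φ ⁻¹' W, inter_mem (extChartAt_source_mem_nhds p)
    ((continuousAt_extChartAt p).preimage_mem_nhds hW), ?_⟩
  rintro x ⟨hx, hxW⟩ y ⟨hy, hyW⟩ ε he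
  have h := hW' (φ x) hxW (φ y) hyW ε (by
    simp only [Function.comp_apply, φ.left_inv hx, φ.left_inv hy]
    exact he)
  exact φ.injOn hx hy h

omit [FiniteDimensional ℝ E] in
/-- the derivative of a normal field at a zero is normal -/
theorem orth_zero {F ξ : M → R4} (hF : Imm (E := E) F) (hξ : Nor (E := E) F ξ) {a : M}
    (ha : ξ a = 0) (u e : E) : @inner ℝ R4 _ (mfderiv 𝓘(ℝ, E) 𝓘(ℝ, R4) ξ a u)
      (mfderiv 𝓘(ℝ, E) 𝓘(ℝ, R4) F a e) = 0 := by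
  have hopen : IsOpen (extChartAt 𝓘(ℝ, E) a).target := isOpen_extChartAt_target a
  have hmem : extChartAt 𝓘(ℝ, E) a a ∈ (extChartAt 𝓘(ℝ, E) a).target :=
    mem_extChartAt_target a
  have hFd : MDifferentiableAt 𝓘(ℝ, E) 𝓘(ℝ, R4) F a := (hF.sm a).mdifferentiableAt (by simp)
  have hξd : MDifferentiableAt 𝓘(ℝ, E) 𝓘(ℝ, R4) ξ a := (hξ.sm a).mdifferentiableAt (by simp)
  rw [mfderiv_chart hFd, mfderiv_chart hξd]
  refine diag_orth ((chart_contDiffOn hF.sm a).contDiffAt (hopen.mem_nhds hmem))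
    ((chart_contDiffOn hξ.sm a).contDiffAt (hopen.mem_nhds hmem)) ?_ ?_ u e
  · simp [ha]
  · filter_upwards [hopen.mem_nhds hmem] with y hy e
    exact chart_orth hF hξ a hy e

omit [FiniteDimensional ℝ E] [IsManifold 𝓘(ℝ, E) ∞ M] in
/-- the derivative of the difference -/
theorem hasMFDerivAt_diff {F ξ : M → R4} {a : M} {A B : E →L[ℝ] R4}
    (hA : HasMFDerivAt 𝓘(ℝ, E) 𝓘(ℝ, R4) F a A)
    (hB : HasMFDerivAt 𝓘(ℝ, E) 𝓘(ℝ, R4) ξ a B) (ε : ℝ) :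
    HasMFDerivAt (𝓘(ℝ, E).prod 𝓘(ℝ, E)) 𝓘(ℝ, R4)
      (fun q : M × M => F q.1 - F q.2 - ε • ξ q.2) (a, a)
      (A.comp (ContinuousLinearMap.fst ℝ E E) - A.comp (ContinuousLinearMap.snd ℝ E E) -
        ε • B.comp (ContinuousLinearMap.snd ℝ E E) : E × E →L[ℝ] R4) := by
  have h1 : HasMFDerivAt (𝓘(ℝ, E).prod 𝓘(ℝ, E)) 𝓘(ℝ, R4) (fun q : M × M => F q.1) (a, a)
      (A.comp (ContinuousLinearMap.fst ℝ E E)) :=
    HasMFDerivAt.comp (a, a) hA (hasMFDerivAt_fst (a, a))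
  have h2 : HasMFDerivAt (𝓘(ℝ, E).prod 𝓘(ℝ, E)) 𝓘(ℝ, R4) (fun q : M × M => F q.2) (a, a)
      (A.comp (ContinuousLinearMap.snd ℝ E E)) :=
    HasMFDerivAt.comp (a, a) hA (hasMFDerivAt_snd (a, a))
  have h3 : HasMFDerivAt (𝓘(ℝ, E).prod 𝓘(ℝ, E)) 𝓘(ℝ, R4) (fun q : M × M => ξ q.2) (a, a)
      (B.comp (ContinuousLinearMap.snd ℝ E E)) :=
    HasMFDerivAt.comp (a, a) hB (hasMFDerivAt_snd (a, a))
  exact (h1.sub h2).sub (h3.const_smul ε)

omit [FiniteDimensional ℝ E] [IsManifold 𝓘(ℝ, E) ∞ M] in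
/-- injectivity of the derivative of the difference -/
theorem inj_diff {F ξ : M → R4} {a : M} {A B : E →L[ℝ] R4}
    (hA : HasMFDerivAt 𝓘(ℝ, E) 𝓘(ℝ, R4) F a A)
    (hB : HasMFDerivAt 𝓘(ℝ, E) 𝓘(ℝ, R4) ξ a B)
    (hAi : Function.Injective A) (hBi : Function.Injective B)
    (ho : ∀ u e : E, ⟪B u, A e⟫ = 0) {ε : ℝ} (hε : ε ≠ 0) :
    Function.Injective (mfderiv (𝓘(ℝ, E).prod 𝓘(ℝ, E)) 𝓘(ℝ, R4)
      (fun q : M × M => F q.1 - F q.2 - ε • ξ q.2) (a, a)) := by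
  rw [(hasMFDerivAt_diff hA hB ε).mfderiv]
  exact lin_inj hAi hBi ho hε

omit [FiniteDimensional ℝ E] in
/-- C3: regularity at the zeros on the diagonal -/
theorem regular_diag {F ξ : M → R4} (hF : Imm (E := E) F) (hξ : Nor (E := E) F ξ) {a : M}
    (ha : ξ a = 0) (hr : Function.Injective (mfderiv 𝓘(ℝ, E) 𝓘(ℝ, R4) ξ a)) {ε : ℝ}
    (hε : ε ≠ 0) :
    Function.Injective (mfderiv (𝓘(ℝ, E).prod 𝓘(ℝ, E)) 𝓘(ℝ, R4)
      (fun q : M × M => F q.1 - F q.2 - ε • ξ q.2) (a, a)) :=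
  inj_diff ((hF.sm a).mdifferentiableAt (by simp)).hasMFDerivAt
    ((hξ.sm a).mdifferentiableAt (by simp)).hasMFDerivAt (hF.inj a) hr (orth_zero hF hξ ha) hε

end Surface

end Vale.Agent.P205.Top
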