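import Vale.Agent.P205.Top.Defs

/-!
Immersions of compact surfaces into `ℝ⁴` (P205, block TOP D1).
-/

set_option linter.all false

open Set Module Filter
open scoped Manifold ContDiff Topology

noncomputable section

namespace Vale.Agent.P205.Top

variable {E : Type*} [NormedAddCommGroup E] [NormedSpace ℝ E]
  {M : Type*} [TopologicalSpace M] [ChartedSpace E M] [IsManifold 𝓘(ℝ, E) ∞ M]
  {V : Type*} [NormedAddCommGroup V] [NormedSpace ℝ V]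

/-- the derivative in a chart -/
theorem mfderiv_chart {F : M → V} (hF : ContMDiff 𝓘(ℝ, E) 𝓘(ℝ, V) ∞ F) (x0 : M) {x : M}
    (hx : x ∈ (extChartAt 𝓘(ℝ, E) x0).source) :
    mfderiv 𝓘(ℝ, E) 𝓘(ℝ, V) F x =
      (fderiv ℝ (F ∘ (extChartAt 𝓘(ℝ, E) x0).symm) (extChartAt 𝓘(ℝ, E) x0 x)).comp
        (mfderiv 𝓘(ℝ, E) 𝓘(ℝ, E) (extChartAt 𝓘(ℝ, E) x0) x) := by
  set φ := extChartAt 𝓘(ℝ, E) x0 with hφ
  have hp' : x ∈ (chartAt E x0).source := by rwa [extChartAt_source] at hx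
  have hpt : φ x ∈ φ.target := φ.map_source hx
  have hs : φ.symm (φ x) = x := φ.left_inv hx
  have hφd : MDifferentiableAt 𝓘(ℝ, E) 𝓘(ℝ, E) φ x :=
    (contMDiffAt_extChartAt' (n := ∞) hp').mdifferentiableAt (by simp)
  have hφsd : MDifferentiableAt 𝓘(ℝ, E) 𝓘(ℝ, E) φ.symm (φ x) := by
    have h1 : ContMDiffOn 𝓘(ℝ, E) 𝓘(ℝ, E) ∞ φ.symm φ.target := contMDiffOn_extChartAt_symm x0
    have h2 : φ.target ∈ 𝓝 (φ x) := extChartAt_target_mem_nhds' hpt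
    exact (h1.contMDiffAt h2).mdifferentiableAt (by simp)
  have hf' : MDifferentiableAt 𝓘(ℝ, E) 𝓘(ℝ, V) F (φ.symm (φ x)) :=
    hF.mdifferentiableAt (by simp)
  have hg : MDifferentiableAt 𝓘(ℝ, E) 𝓘(ℝ, V) (F ∘ φ.symm) (φ x) := hf'.comp _ hφsd
  have h1 : mfderiv 𝓘(ℝ, E) 𝓘(ℝ, V) ((F ∘ φ.symm) ∘ φ) x =
      (mfderiv 𝓘(ℝ, E) 𝓘(ℝ, V) (F ∘ φ.symm) (φ x)).comp (mfderiv 𝓘(ℝ, E) 𝓘(ℝ, E) φ x) :=
    mfderiv_comp x hg hφd
  have h2 : (F ∘ φ.symm) ∘ φ =ᶠ[𝓝 x] F := by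
    have h3 : φ.source ∈ 𝓝 x := extChartAt_source_mem_nhds' hx
    filter_upwards [h3] with q hq
    simp [φ.left_inv hq]
  rw [← h2.mfderiv_eq, h1, mfderiv_eq_fderiv]
  rfl

/-- the derivative of a chart is injective -/
theorem chart_inj (x0 : M) {x : M} (hx : x ∈ (extChartAt 𝓘(ℝ, E) x0).source) :
    Function.Injective (mfderiv 𝓘(ℝ, E) 𝓘(ℝ, E) (extChartAt 𝓘(ℝ, E) x0) x) := by
  have h := isInvertible_mfderiv_extChartAt (I := 𝓘(ℝ, E)) hx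
  obtain ⟨e, he⟩ := h
  rw [← he]
  exact e.injective

theorem contDiffOn_chart {F : M → V} (hF : ContMDiff 𝓘(ℝ, E) 𝓘(ℝ, V) ∞ F) (x0 : M) :
    ContDiffOn ℝ ∞ (F ∘ (extChartAt 𝓘(ℝ, E) x0).symm) (extChartAt 𝓘(ℝ, E) x0).target := by
  have h1 : ContMDiffOn 𝓘(ℝ, E) 𝓘(ℝ, E) ∞ (extChartAt 𝓘(ℝ, E) x0).symm
    (extChartAt 𝓘(ℝ, E) x0).target := contMDiffOn_extChartAt_symm x0
  exact (hF.comp_contMDiffOn h1).contDiffOn

variable [FiniteDimensional ℝ E] [FiniteDimensional ℝ V]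

/-- the tangent vectors of a smooth map form a set of dimension at most `2 dim M` -/
theorem dimH_tangent [CompactSpace M] {F : M → V} (hF : ContMDiff 𝓘(ℝ, E) 𝓘(ℝ, V) ∞ F) :
    dimH {v : V | ∃ (x : M) (w : TangentSpace 𝓘(ℝ, E) x), mfderiv 𝓘(ℝ, E) 𝓘(ℝ, V) F x w = v}
      ≤ ((finrank ℝ (E × E) : ℕ) : ENNReal) := by
  have hloc : ∀ x0 : M, ∃ r : ℝ, 0 < r ∧
      Metric.ball (extChartAt 𝓘(ℝ, E) x0 x0) r ⊆ (extChartAt 𝓘(ℝ, E) x0).target := by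
    intro x0
    have h2 : (extChartAt 𝓘(ℝ, E) x0).target ∈ 𝓝 (extChartAt 𝓘(ℝ, E) x0 x0) :=
      extChartAt_target_mem_nhds x0
    obtain ⟨r, hr, h⟩ := Metric.mem_nhds_iff.1 h2
    exact ⟨r, hr, h⟩
  choose r hr hball using hloc
  let U : M → Set M := fun x0 => (extChartAt 𝓘(ℝ, E) x0).source ∩
    (extChartAt 𝓘(ℝ, E) x0) ⁻¹' (Metric.ball (extChartAt 𝓘(ℝ, E) x0 x0) (r x0))
  have hU : ∀ x0, U x0 ∈ 𝓝 x0 := by
    intro x0
    refine inter_mem (extChartAt_source_mem_nhds x0) ?_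
    exact (continuousAt_extChartAt x0).preimage_mem_nhds (Metric.ball_mem_nhds _ (hr x0))
  obtain ⟨t, ht⟩ := isCompact_univ.elim_nhds_subcover U fun x _ => hU x
  have hcov := ht.2
  let G : M → E × E → V := fun x0 z =>
    fderiv ℝ (F ∘ (extChartAt 𝓘(ℝ, E) x0).symm) z.1 z.2
  have hsub : {v : V | ∃ (x : M) (w : TangentSpace 𝓘(ℝ, E) x),
      mfderiv 𝓘(ℝ, E) 𝓘(ℝ, V) F x w = v} ⊆ ⋃ x0 ∈ (t : Set M),
      G x0 '' (Metric.ball (extChartAt 𝓘(ℝ, E) x0 x0) (r x0) ×ˢ (univ : Set E)) := by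
    rintro v ⟨x, w, rfl⟩
    obtain ⟨x0, hx0, hx⟩ := mem_iUnion₂.1 (hcov (mem_univ x))
    refine mem_iUnion₂.2 ⟨x0, hx0, ⟨extChartAt 𝓘(ℝ, E) x0 x,
      mfderiv 𝓘(ℝ, E) 𝓘(ℝ, E) (extChartAt 𝓘(ℝ, E) x0) x w⟩, ⟨hx.2, mem_univ _⟩, ?_⟩
    rw [mfderiv_chart hF x0 hx.1]
    rfl
  refine (dimH_mono hsub).trans ?_
  rw [dimH_bUnion t.countable_toSet]
  refine iSup₂_le fun x0 _ => ?_
  have hconv : Convex ℝ (Metric.ball (extChartAt 𝓘(ℝ, E) x0 x0) (r x0) ×ˢ (univ : Set E)) :=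
    (convex_ball _ _).prod convex_univ
  have hG : ContDiffOn ℝ 1 (G x0)
      (Metric.ball (extChartAt 𝓘(ℝ, E) x0 x0) (r x0) ×ˢ (univ : Set E)) := by
    have h1 : ContDiffOn ℝ 1 (fderiv ℝ (F ∘ (extChartAt 𝓘(ℝ, E) x0).symm))
        (Metric.ball (extChartAt 𝓘(ℝ, E) x0 x0) (r x0)) :=
      ((contDiffOn_chart hF x0).mono (hball x0)).fderiv_of_isOpen Metric.isOpen_ball
        (by rw [one_add_one_eq_two]; exact WithTop.coe_le_coe.2 le_top)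
    have h2 : ContDiffOn ℝ 1 (fun z : E × E =>
        fderiv ℝ (F ∘ (extChartAt 𝓘(ℝ, E) x0).symm) z.1)
        (Metric.ball (extChartAt 𝓘(ℝ, E) x0 x0) (r x0) ×ˢ (univ : Set E)) :=
      h1.comp contDiff_fst.contDiffOn fun z hz => hz.1
    exact h2.clm_apply contDiff_snd.contDiffOn
  refine (hG.dimH_image_le hconv Subset.rfl).trans ?_
  refine (dimH_mono (subset_univ _)).trans ?_
  rw [Real.dimH_univ_eq_finrank]

/-- a vector that is not tangent -/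
theorem exists_not_tangent [CompactSpace M] {F : M → V} (hF : ContMDiff 𝓘(ℝ, E) 𝓘(ℝ, V) ∞ F)
    (h : finrank ℝ E + finrank ℝ E < finrank ℝ V) :
    ∃ v : V, ∀ (x : M) (w : TangentSpace 𝓘(ℝ, E) x), mfderiv 𝓘(ℝ, E) 𝓘(ℝ, V) F x w ≠ v := by
  have h1 : dimH {v : V | ∃ (x : M) (w : TangentSpace 𝓘(ℝ, E) x),
      mfderiv 𝓘(ℝ, E) 𝓘(ℝ, V) F x w = v} < finrank ℝ V := by
    refine (dimH_tangent hF).trans_lt ?_
    rw [finrank_prod]
    exact_mod_cast h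
  obtain ⟨v, hv⟩ := (dense_compl_of_dimH_lt_finrank h1).nonempty
  refine ⟨v, fun x w hw => hv ⟨x, w, hw⟩⟩

/-- a linear map with a one-dimensional kernel -/
theorem exists_lin_ker {n : ℕ} (hV : finrank ℝ V = n + 1) {v : V} (hv : v ≠ 0) :
    ∃ L : V →L[ℝ] EuclideanSpace ℝ (Fin n), ∀ u, L u = 0 → ∃ c : ℝ, u = c • v := by
  have h1 : finrank ℝ (V ⧸ (Submodule.span ℝ {v})) = finrank ℝ (EuclideanSpace ℝ (Fin n)) := by
    have h2 := Submodule.finrank_quotient_add_finrank (Submodule.span ℝ {v})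
    rw [finrank_span_singleton hv, hV] at h2
    rw [finrank_euclideanSpace_fin]
    omega
  let e : (V ⧸ (Submodule.span ℝ {v})) ≃ₗ[ℝ] EuclideanSpace ℝ (Fin n) :=
    LinearEquiv.ofFinrankEq _ _ h1
  refine ⟨LinearMap.toContinuousLinearMap (e.toLinearMap ∘ₗ (Submodule.span ℝ {v}).mkQ),
    fun u hu => ?_⟩
  have h3 : e ((Submodule.span ℝ {v}).mkQ u) = 0 := hu
  have h4 : (Submodule.span ℝ {v}).mkQ u = 0 := by
    rwa [LinearEquiv.map_eq_zero_iff] at h3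
  have h5 : u ∈ Submodule.span ℝ {v} := (Submodule.Quotient.mk_eq_zero _).1 h4
  obtain ⟨c, hc⟩ := Submodule.mem_span_singleton.1 h5
  exact ⟨c, hc.symm⟩

theorem mfderiv_lin {W : Type*} [NormedAddCommGroup W] [NormedSpace ℝ W] {F : M → V}
    (hF : ContMDiff 𝓘(ℝ, E) 𝓘(ℝ, V) ∞ F) (L : V →L[ℝ] W) (x : M) :
    mfderiv 𝓘(ℝ, E) 𝓘(ℝ, W) (L ∘ F) x = L.comp (mfderiv 𝓘(ℝ, E) 𝓘(ℝ, V) F x) := by
  have h1 : MDifferentiableAt 𝓘(ℝ, E) 𝓘(ℝ, V) F x := hF.mdifferentiableAt (by simp)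
  have h2 := mfderiv_comp x (L.mdifferentiableAt (x := F x)) h1
  rw [h2, ContinuousLinearMap.mfderiv_eq]
  rfl

theorem contMDiff_lin {W : Type*} [NormedAddCommGroup W] [NormedSpace ℝ W] {F : M → V}
    (hF : ContMDiff 𝓘(ℝ, E) 𝓘(ℝ, V) ∞ F) (L : V →L[ℝ] W) :
    ContMDiff 𝓘(ℝ, E) 𝓘(ℝ, W) ∞ (L ∘ F) := L.contMDiff.comp hF

/-- projection of an immersion -/
theorem imm_step [CompactSpace M] {n : ℕ} (hn : finrank ℝ E + finrank ℝ E < n + 1)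
    {F : M → V} (hV : finrank ℝ V = n + 1) (hF : ContMDiff 𝓘(ℝ, E) 𝓘(ℝ, V) ∞ F)
    (hinj : ∀ x, Function.Injective (mfderiv 𝓘(ℝ, E) 𝓘(ℝ, V) F x)) :
    ∃ G : M → EuclideanSpace ℝ (Fin n), ContMDiff 𝓘(ℝ, E) 𝓘(ℝ, EuclideanSpace ℝ (Fin n)) ∞ G ∧
      ∀ x, Function.Injective (mfderiv 𝓘(ℝ, E) 𝓘(ℝ, EuclideanSpace ℝ (Fin n)) G x) := by
  rcases isEmpty_or_nonempty M with hM | hM
  · exact ⟨fun x => (hM.false x).elim, fun x => (hM.false x).elim, fun x => (hM.false x).elim⟩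
  obtain ⟨v, hv⟩ := exists_not_tangent (F := F) hF (by rw [hV]; exact hn)
  have hv0 : v ≠ 0 := by
    rintro rfl
    exact hv (Classical.arbitrary M) 0 (map_zero _)
  obtain ⟨L, hL⟩ := exists_lin_ker hV hv0
  refine ⟨L ∘ F, contMDiff_lin hF L, fun x => ?_⟩
  rw [mfderiv_lin hF L x]
  refine (injective_iff_map_eq_zero _).2 fun w hw => ?_
  obtain ⟨c, hc⟩ := hL _ hw
  by_cases hc0 : c = 0
  · rw [hc0, zero_smul] at hc
    exact (injective_iff_map_eq_zero _).1 (hinj x) w hc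
  · have h1 : mfderiv 𝓘(ℝ, E) 𝓘(ℝ, V) F x (c⁻¹ • w) = c⁻¹ • mfderiv 𝓘(ℝ, E) 𝓘(ℝ, V) F x w :=
      map_smul _ _ _
    have h2 : c⁻¹ • (c • v) = v := inv_smul_smul₀ hc0 v
    have h3 : (c⁻¹ • mfderiv 𝓘(ℝ, E) 𝓘(ℝ, V) F x w : V) = c⁻¹ • (c • v) :=
      congrArg (fun z : V => c⁻¹ • z) hc
    exact absurd (h1.trans (h3.trans h2)) (hv x _)

theorem imm_down [CompactSpace M] (hE : finrank ℝ E = 2) (k : ℕ) :
    ∀ {F : M → EuclideanSpace ℝ (Fin (k + 4))},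
      ContMDiff 𝓘(ℝ, E) 𝓘(ℝ, EuclideanSpace ℝ (Fin (k + 4))) ∞ F →
      (∀ x, Function.Injective (mfderiv 𝓘(ℝ, E) 𝓘(ℝ, EuclideanSpace ℝ (Fin (k + 4))) F x)) →
    ∃ G : M → EuclideanSpace ℝ (Fin 4), ContMDiff 𝓘(ℝ, E) 𝓘(ℝ, EuclideanSpace ℝ (Fin 4)) ∞ G ∧
      ∀ x, Function.Injective (mfderiv 𝓘(ℝ, E) 𝓘(ℝ, EuclideanSpace ℝ (Fin 4)) G x) := by
  induction k with
  | zero => intro F hF hi; exact ⟨F, hF, hi⟩
  | succ k ih =>
    intro F hF hi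
    obtain ⟨G, hG, hGi⟩ := imm_step (n := k + 4) (by omega) (by simp) hF hi
    exact ih hG hGi

/-- every compact surface immerses in `ℝ⁴` -/
theorem exists_imm4 [T2Space M] [CompactSpace M] (hE : finrank ℝ E = 2) :
    ∃ G : M → EuclideanSpace ℝ (Fin 4), ContMDiff 𝓘(ℝ, E) 𝓘(ℝ, EuclideanSpace ℝ (Fin 4)) ∞ G ∧
      ∀ x, Function.Injective (mfderiv 𝓘(ℝ, E) 𝓘(ℝ, EuclideanSpace ℝ (Fin 4)) G x) := by
  obtain ⟨n, e, he, -, hei⟩ := exists_embedding_euclidean_of_compact (I := 𝓘(ℝ, E)) (M := M)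
  -- enlarge the dimension
  let L : EuclideanSpace ℝ (Fin n) →ₗ[ℝ] EuclideanSpace ℝ (Fin (n + 4)) :=
    { toFun := fun v => WithLp.toLp 2 (fun i => if h : i.1 < n then v ⟨i.1, h⟩ else 0)
      map_add' := fun v w => by
        ext i
        by_cases h : i.1 < n
        · simp [h]
        · simp [h]
      map_smul' := fun c v => by
        ext i
        by_cases h : i.1 < n
        · simp [h]
        · simp [h] }
  have hL : Function.Injective L := by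
    intro v w h
    ext i
    have h1 := congrFun (congrArg (WithLp.ofLp) h) (⟨i.1, by omega⟩ : Fin (n + 4))
    simpa [L] using h1
  let L' : EuclideanSpace ℝ (Fin n) →L[ℝ] EuclideanSpace ℝ (Fin (n + 4)) :=
    LinearMap.toContinuousLinearMap L
  refine imm_down hE n (F := L' ∘ e) (contMDiff_lin he L') fun x => ?_
  rw [mfderiv_lin he L' x]
  exact hL.comp (hei x)

/-- D1 -/
theorem exists_imm [CompactSpace M] [T2Space M] (hE : finrank ℝ E = 2) :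
    ∃ F : M → R4, Imm (E := E) F := by
  obtain ⟨G, h1, h2⟩ := exists_imm4 (E := E) (M := M) hE
  exact ⟨G, h1, h2⟩

end Vale.Agent.P205.Top
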