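import Vale.Agent.P205.Top.Defs

/-!
Block TOP of P205, D1: every compact surface has a smooth immersion into four space.
-/

open scoped Manifold ContDiff Topology RealInnerProductSpace NNReal ENNReal
open Set Filter MeasureTheory Module

noncomputable section

namespace Vale.Agent.P205.Top

section lin

variable {V : Type*} [NormedAddCommGroup V] [NormedSpace ℝ V] [FiniteDimensional ℝ V]

/-- a linear map with one dimensional kernel -/
theorem imm_proj {n : ℕ} (hV : finrank ℝ V = n + 1) {v : V} (hv : v ≠ 0) :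
    ∃ L : V →L[ℝ] EuclideanSpace ℝ (Fin n), ∀ x, L x = 0 → ∃ c : ℝ, x = c • v := by
  have h1 : finrank ℝ (V ⧸ (ℝ ∙ v)) = finrank ℝ (EuclideanSpace ℝ (Fin n)) := by
    rw [finrank_euclideanSpace_fin, Submodule.finrank_quotient, finrank_span_singleton hv, hV]
    rfl
  let e : (V ⧸ (ℝ ∙ v)) ≃ₗ[ℝ] EuclideanSpace ℝ (Fin n) := LinearEquiv.ofFinrankEq _ _ h1
  refine ⟨(e.toLinearMap.comp (Submodule.mkQ (ℝ ∙ v))).toContinuousLinearMap, fun x hx => ?_⟩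
  have h2 : e ((ℝ ∙ v).mkQ x) = 0 := hx
  have h3 : (ℝ ∙ v).mkQ x = 0 := by
    rw [← e.map_zero] at h2
    exact e.injective h2
  rw [Submodule.mkQ_apply, Submodule.Quotient.mk_eq_zero, Submodule.mem_span_singleton] at h3
  obtain ⟨c, hc⟩ := h3
  exact ⟨c, hc.symm⟩

/-- padding with zeros -/
def padL (n : ℕ) : EuclideanSpace ℝ (Fin n) →ₗ[ℝ] R4 where
  toFun x := WithLp.toLp 2 (fun j : Fin 4 => if h : j.val < n then x ⟨j.val, h⟩ else 0)
  map_add' x y := by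
    ext j
    simp only [PiLp.add_apply]
    split_ifs <;> simp
  map_smul' c x := by
    ext j
    simp only [PiLp.smul_apply, RingHom.id_apply]
    split_ifs <;> simp

theorem padL_inj {n : ℕ} (hn : n ≤ 4) : Function.Injective (padL n) := by
  intro x y hxy
  ext j
  have h := congrArg (fun z : R4 => z ⟨j.val, by omega⟩) hxy
  simpa [padL] using h

end lin

section

variable {E : Type*} [NormedAddCommGroup E] [NormedSpace ℝ E] [FiniteDimensional ℝ E]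
  {M : Type*} [TopologicalSpace M] [ChartedSpace E M] [IsManifold 𝓘(ℝ, E) ∞ M]
  {W W' : Type*} [NormedAddCommGroup W] [NormedSpace ℝ W] [FiniteDimensional ℝ W]
  [NormedAddCommGroup W'] [NormedSpace ℝ W'] [FiniteDimensional ℝ W']

omit [IsManifold 𝓘(ℝ, E) ∞ M] [FiniteDimensional ℝ E] [FiniteDimensional ℝ W]
  [FiniteDimensional ℝ W'] in
theorem imm_comp {f : M → W} (hf : ContMDiff 𝓘(ℝ, E) 𝓘(ℝ, W) ∞ f) (L : W →L[ℝ] W')
    (hinj : ∀ p (u : TangentSpace 𝓘(ℝ, E) p), L (mfderiv 𝓘(ℝ, E) 𝓘(ℝ, W) f p u) = 0 → u = 0) :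
    ContMDiff 𝓘(ℝ, E) 𝓘(ℝ, W') ∞ (fun p => L (f p)) ∧
      ∀ p, Function.Injective (mfderiv 𝓘(ℝ, E) 𝓘(ℝ, W') (fun p => L (f p)) p) := by
  refine ⟨L.contMDiff.comp hf, fun p => ?_⟩
  have h1 : MDifferentiableAt 𝓘(ℝ, E) 𝓘(ℝ, W) f p := hf.mdifferentiableAt (by simp)
  have h2 : HasMFDerivAt 𝓘(ℝ, E) 𝓘(ℝ, W') (fun p => L (f p)) p
      (L.comp (mfderiv 𝓘(ℝ, E) 𝓘(ℝ, W) f p)) :=
    HasMFDerivAt.comp p (L.hasMFDerivAt (x := f p)) h1.hasMFDerivAt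
  rw [h2.mfderiv]
  intro u u' huu
  have h3 : L (mfderiv 𝓘(ℝ, E) 𝓘(ℝ, W) f p (u - u')) = 0 := by
    rw [map_sub]
    have h4 : L (mfderiv 𝓘(ℝ, E) 𝓘(ℝ, W) f p u) = L (mfderiv 𝓘(ℝ, E) 𝓘(ℝ, W) f p u') := huu
    exact (map_sub L _ _).trans (sub_eq_zero.2 h4)
  exact sub_eq_zero.1 (hinj p (u - u') h3)

/-- the tangent vectors over a chart, as the image of a smooth map -/
def tanMap (f : M → W) (p0 : M) (q : E × E) : W :=
  fderiv ℝ (f ∘ (extChartAt 𝓘(ℝ, E) p0).symm) q.1 q.2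

omit [FiniteDimensional ℝ E] [FiniteDimensional ℝ W] in
theorem imm_contDiffAt {f : M → W} (hf : ContMDiff 𝓘(ℝ, E) 𝓘(ℝ, W) ∞ f) (p0 : M) {x : E}
    (hx : x ∈ (extChartAt 𝓘(ℝ, E) p0).target) :
    ContDiffAt ℝ ∞ (f ∘ (extChartAt 𝓘(ℝ, E) p0).symm) x := by
  have h1 : ContMDiffOn 𝓘(ℝ, E) 𝓘(ℝ, W) ∞ (f ∘ (extChartAt 𝓘(ℝ, E) p0).symm)
      (extChartAt 𝓘(ℝ, E) p0).target :=
    hf.comp_contMDiffOn (contMDiffOn_extChartAt_symm p0)
  exact (contMDiffOn_iff_contDiffOn.1 h1).contDiffAt ((isOpen_extChartAt_target p0).mem_nhds hx)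

omit [FiniteDimensional ℝ E] [FiniteDimensional ℝ W] in
theorem imm_tan {f : M → W} (hf : ContMDiff 𝓘(ℝ, E) 𝓘(ℝ, W) ∞ f) (p0 : M) {p : M}
    (hp : p ∈ (chartAt E p0).source) (u : TangentSpace 𝓘(ℝ, E) p) :
    ∃ q ∈ (extChartAt 𝓘(ℝ, E) p0).target ×ˢ (univ : Set E),
      tanMap f p0 q = mfderiv 𝓘(ℝ, E) 𝓘(ℝ, W) f p u := by
  have hp' : p ∈ (extChartAt 𝓘(ℝ, E) p0).source := by rwa [extChartAt_source]
  have hx := (extChartAt 𝓘(ℝ, E) p0).map_source hp'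
  have h1 : MDifferentiableAt 𝓘(ℝ, E) 𝓘(ℝ, E) (extChartAt 𝓘(ℝ, E) p0) p :=
    mdifferentiableAt_extChartAt hp
  have h2 : MDifferentiableAt 𝓘(ℝ, E) 𝓘(ℝ, W) (f ∘ (extChartAt 𝓘(ℝ, E) p0).symm)
      (extChartAt 𝓘(ℝ, E) p0 p) :=
    ((imm_contDiffAt hf p0 hx).differentiableAt (by simp)).mdifferentiableAt
  have h3 : f =ᶠ[𝓝 p] (f ∘ (extChartAt 𝓘(ℝ, E) p0).symm) ∘ (extChartAt 𝓘(ℝ, E) p0) := by
    filter_upwards [(isOpen_extChartAt_source p0).mem_nhds hp'] with y hy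
    simp only [Function.comp_apply]
    rw [(extChartAt 𝓘(ℝ, E) p0).left_inv hy]
  refine ⟨(extChartAt 𝓘(ℝ, E) p0 p,
    mfderiv 𝓘(ℝ, E) 𝓘(ℝ, E) (extChartAt 𝓘(ℝ, E) p0) p u), ⟨hx, mem_univ _⟩, ?_⟩
  have h4 := HasMFDerivAt.comp p h2.hasMFDerivAt h1.hasMFDerivAt
  have h5 : mfderiv 𝓘(ℝ, E) 𝓘(ℝ, W) f p =
      mfderiv 𝓘(ℝ, E) 𝓘(ℝ, W)
        ((f ∘ (extChartAt 𝓘(ℝ, E) p0).symm) ∘ (extChartAt 𝓘(ℝ, E) p0)) p :=
    h3.mfderiv_eq
  rw [tanMap, h5, h4.mfderiv, mfderiv_eq_fderiv]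
  rfl

omit [FiniteDimensional ℝ W] in
theorem imm_dimH {f : M → W} (hf : ContMDiff 𝓘(ℝ, E) 𝓘(ℝ, W) ∞ f) (p0 : M) :
    dimH (tanMap f p0 '' ((extChartAt 𝓘(ℝ, E) p0).target ×ˢ (univ : Set E))) ≤
      (finrank ℝ (E × E) : ℝ≥0∞) := by
  refine (dimH_image_le_of_locally_lipschitzOn fun q hq => ?_).trans
    ((dimH_mono (subset_univ _)).trans (Real.dimH_univ_eq_finrank (E × E)).le)
  have h1 : ContDiffAt ℝ 1 (fderiv ℝ (f ∘ (extChartAt 𝓘(ℝ, E) p0).symm)) q.1 :=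
    (imm_contDiffAt hf p0 hq.1).fderiv_right (m := 1) (by norm_cast)
  have h2 : ContDiffAt ℝ 1 (tanMap f p0) q :=
    (h1.comp q contDiffAt_fst).clm_apply contDiffAt_snd
  obtain ⟨K, t, ht, hK⟩ := h2.exists_lipschitzOnWith
  exact ⟨K, t, mem_nhdsWithin_of_mem_nhds ht, hK⟩

variable [CompactSpace M]

/-- a direction which is not tangent -/
theorem imm_direction {f : M → W} (hf : ContMDiff 𝓘(ℝ, E) 𝓘(ℝ, W) ∞ f)
    (hd : finrank ℝ (E × E) < finrank ℝ W) :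
    ∃ v : W, v ≠ 0 ∧ ∀ p (u : TangentSpace 𝓘(ℝ, E) p),
      mfderiv 𝓘(ℝ, E) 𝓘(ℝ, W) f p u ≠ v := by
  obtain ⟨t, ht⟩ := isCompact_univ.elim_finite_subcover (fun p0 : M => (chartAt E p0).source)
    (fun p0 => (chartAt E p0).open_source)
    (fun p _ => mem_iUnion.2 ⟨p, ChartedSpace.mem_chart_source p⟩)
  let T : Set W := {0} ∪ ⋃ p0 ∈ (t : Set M),
    tanMap f p0 '' ((extChartAt 𝓘(ℝ, E) p0).target ×ˢ (univ : Set E))
  have hT : dimH T ≤ (finrank ℝ (E × E) : ℝ≥0∞) := by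
    rw [dimH_union, dimH_singleton, dimH_bUnion t.countable_toSet]
    exact max_le bot_le (iSup₂_le fun p0 _ => imm_dimH hf p0)
  have hne : T ≠ univ := by
    intro h
    rw [h, Real.dimH_univ_eq_finrank] at hT
    exact absurd (Nat.cast_le.1 hT) (not_le.2 hd)
  obtain ⟨v, hv⟩ := (ne_univ_iff_exists_notMem T).1 hne
  refine ⟨v, fun h0 => hv (Or.inl h0), fun p u hpu => hv (Or.inr ?_)⟩
  have hp := ht (mem_univ p)
  rw [mem_iUnion₂] at hp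
  obtain ⟨p0, hp0, hp⟩ := hp
  obtain ⟨q, hq, hq'⟩ := imm_tan hf p0 hp u
  exact mem_iUnion₂.2 ⟨p0, hp0, q, hq, hq'.trans hpu⟩

theorem imm_reduce (hE : finrank ℝ E = 2) (n : ℕ) :
    ∀ f : M → EuclideanSpace ℝ (Fin n),
      ContMDiff 𝓘(ℝ, E) 𝓘(ℝ, EuclideanSpace ℝ (Fin n)) ∞ f →
      (∀ p, Function.Injective (mfderiv 𝓘(ℝ, E) 𝓘(ℝ, EuclideanSpace ℝ (Fin n)) f p)) →
      ∃ F : M → R4, Imm (E := E) F := by
  induction n with
  | zero =>
    intro f hf hinj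
    obtain ⟨h1, h2⟩ := imm_comp hf (padL 0).toContinuousLinearMap fun p u hu => by
      have h3 := padL_inj (n := 0) (by omega) (hu.trans (map_zero _).symm)
      exact hinj p (h3.trans (map_zero _).symm)
    exact ⟨_, h1, h2⟩
  | succ n ih =>
    intro f hf hinj
    by_cases hn : n + 1 ≤ 4
    · obtain ⟨h1, h2⟩ := imm_comp hf (padL (n + 1)).toContinuousLinearMap fun p u hu => by
        have h3 := padL_inj hn (hu.trans (map_zero _).symm)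
        exact hinj p (h3.trans (map_zero _).symm)
      exact ⟨_, h1, h2⟩
    · have hd : finrank ℝ (E × E) < finrank ℝ (EuclideanSpace ℝ (Fin (n + 1))) := by
        rw [finrank_euclideanSpace_fin, Module.finrank_prod, hE]
        omega
      obtain ⟨v, hv0, hv⟩ := imm_direction hf hd
      obtain ⟨L, hL⟩ := imm_proj (n := n) finrank_euclideanSpace_fin hv0
      obtain ⟨h1, h2⟩ := imm_comp hf L fun p u hu => by
        obtain ⟨c, hc⟩ := hL _ hu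
        by_cases hc0 : c = 0
        · rw [hc0, zero_smul] at hc
          exact hinj p (hc.trans (map_zero _).symm)
        · exfalso
          have h6 : c⁻¹ • (c • v) = v := by rw [smul_smul, inv_mul_cancel₀ hc0, one_smul]
          exact hv p (c⁻¹ • u) ((map_smul _ _ _).trans
            ((congrArg (fun z : EuclideanSpace ℝ (Fin (n + 1)) => c⁻¹ • z) hc).trans h6))
      exact ih _ h1 h2

variable [T2Space M]

/-- D1 -/
theorem exists_imm (hE : finrank ℝ E = 2) : ∃ F : M → R4, Imm (E := E) F := by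
  obtain ⟨n, e, h1, -, h2⟩ := exists_embedding_euclidean_of_compact (I := 𝓘(ℝ, E)) (M := M)
  exact imm_reduce hE n e h1 h2

end

end Vale.Agent.P205.Top
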