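import Vale.Agent.P205.Top.Defs

/-!
Block H of TOP (P205): the kink.

`w = (|z|^(2j) - b², 2 b Y, -2 b X) / D`, `v = (2 b Y, X² - Y² + b², 2 X Y)`, `D = |z|^(2j) + b²`,
`X + i Y = z ^ j`, `b` a bump function; `w` is a unit vector orthogonal to `v`. `W` is obtained by
integration of `w` in the real direction, with a compensation.
-/

open scoped Manifold ContDiff Topology RealInnerProductSpace Convolution
open Set Filter MeasureTheory Module

noncomputable section

namespace Vale.Agent.P205.Top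

namespace Kink

/-! ### Tail integrals -/

/-- the tail integral of a compactly supported smooth function depending on a parameter -/
def tl (θ : ℝ × ℝ → ℝ) (t : ℝ) (v : ℝ) : ℝ := ∫ s in Ioi t, θ (s, v)

theorem tl_eq_convolution (θ : ℝ × ℝ → ℝ) (t : ℝ) (v : ℝ) :
    tl θ t v = ((Iio (0 : ℝ)).indicator (fun _ => (1 : ℝ)) ⋆[ContinuousLinearMap.mul ℝ ℝ, volume]
      (fun s => θ (s, v))) t := by
  rw [tl, convolution_def]
  rw [← integral_indicator measurableSet_Ioi]
  rw [← integral_sub_left_eq_self (fun s => (Ioi t).indicator (fun s => θ (s, v)) s) volume t]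
  congr 1
  ext s
  by_cases hs : s < 0
  · have h1 : t - s ∈ Ioi t := by simp only [mem_Ioi]; linarith
    have h2 : s ∈ Iio (0 : ℝ) := hs
    rw [Set.indicator_of_mem h1, Set.indicator_of_mem h2]
    simp
  · have h1 : t - s ∉ Ioi t := by simp only [mem_Ioi]; linarith
    have h2 : s ∉ Iio (0 : ℝ) := hs
    rw [Set.indicator_of_notMem h1, Set.indicator_of_notMem h2]
    simp

theorem contDiff_tl {θ : ℝ × ℝ → ℝ} (hθ : ContDiff ℝ ∞ θ) {a b : ℝ}
    (hab : ∀ s v, s ∉ Icc a b → θ (s, v) = 0) :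
    ContDiff ℝ ∞ fun q : ℝ × ℝ => tl θ q.1 q.2 := by
  have hf : LocallyIntegrable ((Iio (0 : ℝ)).indicator (fun _ => (1 : ℝ))) volume := by
    apply LocallyIntegrable.indicator _ measurableSet_Iio
    exact locallyIntegrable_const 1
  have h := contDiffOn_convolution_right_with_param (𝕜 := ℝ) (n := ⊤) (μ := volume)
    (f := (Iio (0 : ℝ)).indicator (fun _ => (1 : ℝ)))
    (ContinuousLinearMap.mul ℝ ℝ) (g := fun (v : ℝ) (s : ℝ) => θ (s, v)) (s := univ)
    (k := Icc a b) isOpen_univ isCompact_Icc (fun v s _ hs => hab s v hs) hf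
    (by
      rw [univ_prod_univ, contDiffOn_univ]
      exact hθ.comp (contDiff_snd.prodMk contDiff_fst))
  rw [univ_prod_univ, contDiffOn_univ] at h
  have h2 := h.comp (contDiff_snd.prodMk contDiff_fst : ContDiff ℝ ∞ fun q : ℝ × ℝ => (q.2, q.1))
  convert h2 using 2 with q
  exact tl_eq_convolution θ q.1 q.2

theorem integrable_of_supp {θ : ℝ × ℝ → ℝ} (hθ : Continuous θ) {a b : ℝ}
    (hab : ∀ s v, s ∉ Icc a b → θ (s, v) = 0) (v : ℝ) : Integrable (fun s => θ (s, v)) := by
  have hc : Continuous fun s => θ (s, v) := hθ.comp (continuous_id.prodMk continuous_const)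
  apply hc.integrable_of_hasCompactSupport
  exact HasCompactSupport.intro isCompact_Icc (fun s hs => hab s v hs)

theorem hasDerivAt_tl {θ : ℝ × ℝ → ℝ} (hθ : Continuous θ) {a b : ℝ}
    (hab : ∀ s v, s ∉ Icc a b → θ (s, v) = 0) (t : ℝ) (v : ℝ) :
    HasDerivAt (fun s => tl θ s v) (-θ (t, v)) t := by
  have hc : Continuous fun s => θ (s, v) := hθ.comp (continuous_id.prodMk continuous_const)
  have hint : Integrable (fun s => θ (s, v)) := integrable_of_supp hθ hab v
  have h1 : ∀ s, tl θ s v = (∫ r, θ (r, v)) - ∫ r in Iic s, θ (r, v) := by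
    intro s
    have := integral_add_compl (s := Iic s) measurableSet_Iic hint
    rw [compl_Iic] at this
    rw [tl]
    linarith
  have h2 : ∀ s, ∫ r in Iic s, θ (r, v) = (∫ r in Iic t, θ (r, v)) + ∫ r in t..s, θ (r, v) := by
    intro s
    have := intervalIntegral.integral_Iic_sub_Iic (a := t) (b := s) (μ := volume)
      hint.integrableOn hint.integrableOn
    linarith
  have h3 : (fun s => tl θ s v) = fun s => ((∫ r, θ (r, v)) - (∫ r in Iic t, θ (r, v)))
      - ∫ r in t..s, θ (r, v) := by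
    ext s
    rw [h1, h2]
    ring
  rw [h3]
  have h4 : HasDerivAt (fun s => ∫ r in t..s, θ (r, v)) (θ (t, v)) t := by
    apply intervalIntegral.integral_hasDerivAt_right
    · exact hc.intervalIntegrable _ _
    · exact hc.stronglyMeasurableAtFilter _ _
    · exact hc.continuousAt
  exact (h4.const_sub _).congr_deriv (by ring)

/-- below the support the tail integral is the full integral -/
theorem tl_low {θ : ℝ × ℝ → ℝ} {a b : ℝ} (hab : ∀ s v, s ∉ Icc a b → θ (s, v) = 0) {t : ℝ}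
    (ht : t < a) (v : ℝ) : tl θ t v = ∫ s, θ (s, v) := by
  unfold tl
  rw [← integral_indicator measurableSet_Ioi]
  congr 1
  ext s
  by_cases hs : s ∈ Ioi t
  · rw [indicator_of_mem hs]
  · rw [indicator_of_notMem hs, hab]
    intro h
    exact hs (lt_of_lt_of_le ht h.1)

/-- above the support the tail integral vanishes -/
theorem tl_high {θ : ℝ × ℝ → ℝ} {a b : ℝ} (hab : ∀ s v, s ∉ Icc a b → θ (s, v) = 0) {t : ℝ}
    (ht : b ≤ t) (v : ℝ) : tl θ t v = 0 := by
  unfold tl
  rw [setIntegral_congr_fun (g := fun _ => (0 : ℝ)) measurableSet_Ioi]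
  · simp
  · intro s hs
    exact hab s v fun h => absurd (lt_of_le_of_lt ht hs) (not_lt.2 h.2)

/-! ### The compensation -/

/-- the bump used for the compensation -/
def cb : ContDiffBump (20 : ℝ) := ⟨10, 15, by norm_num, by norm_num⟩

/-- the compensation function -/
def cc (x : ℝ) : ℝ := cb.normed volume x

theorem cc_smooth : ContDiff ℝ ∞ cc := cb.contDiff_normed

theorem cc_int : ∫ x, cc x = 1 := cb.integral_normed

theorem cc_nonneg (x : ℝ) : 0 ≤ cc x := cb.nonneg_normed x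

theorem cc_le (x : ℝ) : cc x ≤ 1 / 20 := by
  have h := cb.normed_le_div_measure_closedBall_rIn (μ := volume) x
  have h1 : (volume : Measure ℝ).real (Metric.closedBall 20 cb.rIn) = 20 := by
    rw [Real.volume_real_closedBall (by show (0 : ℝ) ≤ 10; norm_num)]
    show 2 * (10 : ℝ) = 20
    norm_num
  rw [h1] at h
  exact h

theorem cc_supp {x : ℝ} (hx : x ∉ Ioo (5 : ℝ) 35) : cc x = 0 := by
  have h := cb.support_normed_eq (μ := volume)
  by_contra h1
  have h2 : x ∈ Function.support (cb.normed volume) := h1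
  rw [h, Real.ball_eq_Ioo] at h2
  apply hx
  have h3 : cb.rOut = 15 := rfl
  rw [h3] at h2
  constructor
  · linarith [h2.1]
  · linarith [h2.2]

/-- the compensated primitive -/
theorem exists_prim {θ : ℝ × ℝ → ℝ} (hθ : ContDiff ℝ ∞ θ)
    (hs : ∀ s v, s ∉ Icc (-1 : ℝ) 1 → θ (s, v) = 0) (hy : ∀ s v, 1 ≤ |v| → θ (s, v) = 0)
    (hb : ∀ p, |θ p| ≤ 2) :
    ∃ (A : ℝ × ℝ → ℝ) (Δ : ℝ → ℝ), ContDiff ℝ ∞ A ∧
      (∀ x y, HasDerivAt (fun s => A (s, y)) (θ (x, y) - cc x * Δ y) x) ∧
      (∀ x y, 36 ≤ |x| ∨ 1 ≤ |y| → A (x, y) = 0) ∧ ∀ y, |Δ y| ≤ 4 := by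
  set Δ : ℝ → ℝ := fun y => ∫ s, θ (s, y) with hΔ
  have hΔs : ContDiff ℝ ∞ Δ := by
    have h1 : Δ = fun y => tl θ (-2) y := by
      funext y
      exact (tl_low hs (by norm_num) y).symm
    rw [h1]
    exact (contDiff_tl hθ hs).comp (contDiff_const.prodMk contDiff_id)
  set G : ℝ × ℝ → ℝ := fun p => θ p - cc p.1 * Δ p.2 with hG
  have hGs : ContDiff ℝ ∞ G :=
    hθ.sub ((cc_smooth.comp contDiff_fst).mul (hΔs.comp contDiff_snd))
  have hGab : ∀ s v, s ∉ Icc (-1 : ℝ) 35 → G (s, v) = 0 := by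
    intro s v h
    have h1 : θ (s, v) = 0 := hs s v fun h' => h ⟨h'.1, by linarith [h'.2]⟩
    have h2 : cc s = 0 := cc_supp fun h' => h ⟨by linarith [h'.1], h'.2.le⟩
    simp only [hG, h1, h2]
    ring
  have hGint : ∀ y, ∫ s, G (s, y) = 0 := by
    intro y
    have h1 : (fun s => G (s, y)) = fun s => θ (s, y) - cc s * Δ y := rfl
    rw [h1, integral_sub (integrable_of_supp hθ.continuous hs y), integral_mul_const, cc_int]
    · simp only [hΔ]
      ring
    · apply Integrable.mul_const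
      exact cb.integrable_normed
  refine ⟨fun p => -tl G p.1 p.2, Δ, (contDiff_tl hGs hGab).neg, ?_, ?_, ?_⟩
  · intro x y
    have h := (hasDerivAt_tl hGs.continuous hGab x y).neg
    rw [neg_neg] at h
    exact h
  · rintro x y (h | h)
    · rcases le_total 0 x with hx | hx
      · rw [abs_of_nonneg hx] at h
        show -tl G x y = 0
        rw [tl_high hGab (by linarith) y, neg_zero]
      · rw [abs_of_nonpos hx] at h
        show -tl G x y = 0
        rw [tl_low hGab (by linarith) y, hGint, neg_zero]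
    · have h1 : Δ y = 0 := by
        simp only [hΔ]
        rw [show (fun s => θ (s, y)) = fun _ => 0 from funext fun s => hy s y h]
        simp
      have h2 : ∀ s, G (s, y) = 0 := by
        intro s
        simp only [hG, hy s y h, h1]
        ring
      show -tl G x y = 0
      unfold tl
      simp [h2]
  · intro y
    simp only [hΔ]
    have h1 : ∫ s, θ (s, y) = ∫ s in Icc (-1 : ℝ) 1, θ (s, y) :=
      (setIntegral_eq_integral_of_forall_compl_eq_zero fun s h => hs s y h).symm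
    rw [h1, ← Real.norm_eq_abs]
    refine (norm_setIntegral_le_of_norm_le_const (C := 2) (by simp) fun s _ => hb (s, y)).trans ?_
    rw [Real.volume_real_Icc]
    norm_num

/-! ### The fields `w`, `v` -/

/-- the bump in the definition of `w`, `v` -/
def bb : ContDiffBump (0 : ℂ) := ⟨1 / 2, 1, by norm_num, by norm_num⟩

theorem bb_zero : bb 0 = 1 := bb.one_of_mem_closedBall (by
  rw [Metric.mem_closedBall, dist_self]
  show (0 : ℝ) ≤ 1 / 2
  norm_num)

theorem bb_out {z : ℂ} (hz : 1 ≤ ‖z‖) : bb z = 0 := bb.zero_of_le_dist (by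
  rw [dist_zero_right]
  exact hz)

section

variable (j : ℕ)

/-- `|z| ^ (2 j)` -/
def nq (z : ℂ) : ℝ := (z ^ j).re ^ 2 + (z ^ j).im ^ 2

def dn (z : ℂ) : ℝ := nq j z + bb z ^ 2

def w1 (z : ℂ) : ℝ := (nq j z - bb z ^ 2) / dn j z
def w2 (z : ℂ) : ℝ := 2 * bb z * (z ^ j).im / dn j z
def w3 (z : ℂ) : ℝ := -(2 * bb z * (z ^ j).re) / dn j z
def v1 (z : ℂ) : ℝ := 2 * bb z * (z ^ j).im
def v2 (z : ℂ) : ℝ := (z ^ j).re ^ 2 - (z ^ j).im ^ 2 + bb z ^ 2
def v3 (z : ℂ) : ℝ := 2 * (z ^ j).re * (z ^ j).im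

theorem nq_nonneg (z : ℂ) : 0 ≤ nq j z := by
  unfold nq
  positivity

theorem nq_pos {z : ℂ} (hz : z ≠ 0) : 0 < nq j z := by
  rcases (nq_nonneg j z).lt_or_eq with h | h
  · exact h
  · exfalso
    have h1 : (z ^ j).re ^ 2 + (z ^ j).im ^ 2 = 0 := h.symm
    have h2 : (z ^ j).re = 0 := by nlinarith [sq_nonneg (z ^ j).re, sq_nonneg (z ^ j).im]
    have h3 : (z ^ j).im = 0 := by nlinarith [sq_nonneg (z ^ j).re, sq_nonneg (z ^ j).im]
    exact pow_ne_zero j hz (Complex.ext h2 h3)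

theorem dn_pos (z : ℂ) : 0 < dn j z := by
  unfold dn
  by_cases hz : z = 0
  · subst hz
    rw [bb_zero]
    have := nq_nonneg j (0 : ℂ)
    linarith
  · have := nq_pos j hz
    have := sq_nonneg (bb z)
    linarith

theorem re_smooth : ContDiff ℝ ∞ fun z : ℂ => (z ^ j).re :=
  Complex.reCLM.contDiff.comp (contDiff_id.pow j)

theorem im_smooth : ContDiff ℝ ∞ fun z : ℂ => (z ^ j).im :=
  Complex.imCLM.contDiff.comp (contDiff_id.pow j)

theorem bb_smooth : ContDiff ℝ ∞ fun z : ℂ => bb z := bb.contDiff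

theorem nq_smooth : ContDiff ℝ ∞ (nq j) := ((re_smooth j).pow 2).add ((im_smooth j).pow 2)

theorem dn_smooth : ContDiff ℝ ∞ (dn j) := (nq_smooth j).add (bb_smooth.pow 2)

theorem w1_smooth : ContDiff ℝ ∞ (w1 j) :=
  ((nq_smooth j).sub (bb_smooth.pow 2)).div (dn_smooth j) fun z => (dn_pos j z).ne'

theorem w2_smooth : ContDiff ℝ ∞ (w2 j) :=
  ((contDiff_const.mul bb_smooth).mul (im_smooth j)).div (dn_smooth j) fun z => (dn_pos j z).ne'

theorem w3_smooth : ContDiff ℝ ∞ (w3 j) :=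
  ((contDiff_const.mul bb_smooth).mul (re_smooth j)).neg.div (dn_smooth j)
    fun z => (dn_pos j z).ne'

theorem v1_smooth : ContDiff ℝ ∞ (v1 j) := (contDiff_const.mul bb_smooth).mul (im_smooth j)

theorem v2_smooth : ContDiff ℝ ∞ (v2 j) :=
  (((re_smooth j).pow 2).sub ((im_smooth j).pow 2)).add (bb_smooth.pow 2)

theorem v3_smooth : ContDiff ℝ ∞ (v3 j) := (contDiff_const.mul (re_smooth j)).mul (im_smooth j)

theorem w_norm (z : ℂ) : w1 j z ^ 2 + w2 j z ^ 2 + w3 j z ^ 2 = 1 := by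
  have h := (dn_pos j z).ne'
  have h1 : dn j z = (z ^ j).re ^ 2 + (z ^ j).im ^ 2 + bb z ^ 2 := rfl
  unfold w1 w2 w3 nq
  field_simp
  rw [h1]
  ring

theorem w_orth (z : ℂ) : w1 j z * v1 j z + w2 j z * v2 j z + w3 j z * v3 j z = 0 := by
  have h := (dn_pos j z).ne'
  unfold w1 w2 w3 v1 v2 v3 nq
  field_simp
  ring

theorem v_norm (z : ℂ) : v1 j z ^ 2 + v2 j z ^ 2 + v3 j z ^ 2 = dn j z ^ 2 := by
  unfold v1 v2 v3 dn nq
  ring

theorem w1_out {z : ℂ} (hz : 1 ≤ ‖z‖) : w1 j z = 1 := by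
  have h0 : z ≠ 0 := by
    rintro rfl
    rw [norm_zero] at hz
    linarith
  unfold w1 dn
  rw [bb_out hz]
  have := (nq_pos j h0).ne'
  rw [zero_pow two_ne_zero, sub_zero, add_zero, div_self this]

theorem w2_out {z : ℂ} (hz : 1 ≤ ‖z‖) : w2 j z = 0 := by
  unfold w2
  rw [bb_out hz]
  simp

theorem w3_out {z : ℂ} (hz : 1 ≤ ‖z‖) : w3 j z = 0 := by
  unfold w3
  rw [bb_out hz]
  simp

theorem v1_out {z : ℂ} (hz : 1 ≤ ‖z‖) : v1 j z = 0 := by
  unfold v1
  rw [bb_out hz]
  simp

theorem v23_out {z : ℂ} (hz : 1 ≤ ‖z‖) : (⟨v2 j z, v3 j z⟩ : ℂ) = z ^ (2 * j) := by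
  unfold v2 v3
  rw [bb_out hz, mul_comm 2 j, pow_mul, sq (z ^ j)]
  apply Complex.ext
  · rw [Complex.mul_re]
    ring
  · rw [Complex.mul_im]
    ring

theorem w_bound (z : ℂ) : |w1 j z - 1| ≤ 2 ∧ |w2 j z| ≤ 2 ∧ |w3 j z| ≤ 2 := by
  have h := w_norm j z
  have h1 := sq_nonneg (w1 j z)
  have h2 := sq_nonneg (w2 j z)
  have h3 := sq_nonneg (w3 j z)
  refine ⟨?_, ?_, ?_⟩
  · have : |w1 j z| ≤ 1 := abs_le_one_iff_mul_self_le_one.2 (by nlinarith)
    rw [abs_le] at this ⊢
    constructor <;> linarith [this.1, this.2]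
  · have : |w2 j z| ≤ 1 := abs_le_one_iff_mul_self_le_one.2 (by nlinarith)
    linarith
  · have : |w3 j z| ≤ 1 := abs_le_one_iff_mul_self_le_one.2 (by nlinarith)
    linarith

end

/-- points of the plane -/
def mkc (p : ℝ × ℝ) : ℂ := Complex.equivRealProdCLM.symm p

theorem mkc_smooth : ContDiff ℝ ∞ mkc := Complex.equivRealProdCLM.symm.contDiff

theorem mkc_re (p : ℝ × ℝ) : (mkc p).re = p.1 := rfl

theorem mkc_im (p : ℝ × ℝ) : (mkc p).im = p.2 := rfl

theorem mkc_norm1 {p : ℝ × ℝ} (h : 1 ≤ |p.1|) : 1 ≤ ‖mkc p‖ :=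
  h.trans ((mkc_re p) ▸ Complex.abs_re_le_norm (mkc p))

theorem mkc_norm2 {p : ℝ × ℝ} (h : 1 ≤ |p.2|) : 1 ≤ ‖mkc p‖ :=
  h.trans ((mkc_im p) ▸ Complex.abs_im_le_norm (mkc p))

theorem abs_of_notMem {s : ℝ} (h : s ∉ Icc (-1 : ℝ) 1) : 1 ≤ |s| := by
  by_contra h1
  rw [not_le, abs_lt] at h1
  exact h ⟨h1.1.le, h1.2.le⟩

theorem hasDerivAt_mkc {a b : ℝ → ℝ} {a' b' x : ℝ} (ha : HasDerivAt a a' x)
    (hb : HasDerivAt b b' x) : HasDerivAt (fun s => mkc (a s, b s)) (mkc (a', b')) x :=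
  Complex.equivRealProdCLM.symm.toContinuousLinearMap.hasFDerivAt.comp_hasDerivAt x
    (ha.prodMk hb)

end Kink

open Kink in
/-- H -/
theorem exists_kink (j : ℕ) : ∃ (R : ℝ) (W ζ : ℂ → ℂ × ℂ), 0 < R ∧ ContDiff ℝ ∞ W ∧
    ContDiff ℝ ∞ ζ ∧ (∀ z, R ≤ ‖z‖ → W z = (z, 0)) ∧ (∀ z, R ≤ ‖z‖ → ζ z = (0, z ^ (2 * j))) ∧
    (∀ z, Function.Injective (fderiv ℝ W z)) ∧ ∀ z u, fderiv ℝ W z u ≠ ζ z := by
  obtain ⟨A1, Δ1, hA1, hd1, hz1, hΔ1⟩ := exists_prim (θ := fun p => w1 j (mkc p) - 1)
    (((w1_smooth j).comp mkc_smooth).sub contDiff_const)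
    (fun s v h => by rw [w1_out j (mkc_norm1 (abs_of_notMem h)), sub_self])
    (fun s v h => by rw [w1_out j (mkc_norm2 h), sub_self]) (fun p => (w_bound j (mkc p)).1)
  obtain ⟨A2, Δ2, hA2, hd2, hz2, -⟩ := exists_prim (θ := fun p => w2 j (mkc p))
    ((w2_smooth j).comp mkc_smooth)
    (fun s v h => w2_out j (mkc_norm1 (abs_of_notMem h)))
    (fun s v h => w2_out j (mkc_norm2 h)) (fun p => (w_bound j (mkc p)).2.1)
  obtain ⟨A3, Δ3, hA3, hd3, hz3, -⟩ := exists_prim (θ := fun p => w3 j (mkc p))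
    ((w3_smooth j).comp mkc_smooth)
    (fun s v h => w3_out j (mkc_norm1 (abs_of_notMem h)))
    (fun s v h => w3_out j (mkc_norm2 h)) (fun p => (w_bound j (mkc p)).2.2)
  have hri : ContDiff ℝ ∞ fun z : ℂ => (z.re, z.im) := Complex.equivRealProdCLM.contDiff
  set W : ℂ → ℂ × ℂ := fun z => (mkc (z.re + A1 (z.re, z.im), z.im),
    mkc (A2 (z.re, z.im), A3 (z.re, z.im))) with hW
  have hWs : ContDiff ℝ ∞ W := by
    refine (mkc_smooth.comp (ContDiff.prodMk ?_ ?_)).prodMk
      (mkc_smooth.comp ((hA2.comp hri).prodMk (hA3.comp hri)))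
    · exact Complex.reCLM.contDiff.add (hA1.comp hri)
    · exact Complex.imCLM.contDiff
  have hWd : ∀ z, HasFDerivAt W (fderiv ℝ W z) z := fun z =>
    (hWs.differentiable (by simp) z).hasFDerivAt
  -- imaginary part of the first component
  have him : ∀ z u, (fderiv ℝ W z u).1.im = u.im := by
    intro z u
    have h1 : HasFDerivAt (fun z => (W z).1.im)
        ((Complex.imCLM.comp (ContinuousLinearMap.fst ℝ ℂ ℂ)).comp (fderiv ℝ W z)) z :=
      (Complex.imCLM.comp (ContinuousLinearMap.fst ℝ ℂ ℂ)).hasFDerivAt.comp z (hWd z)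
    have h2 : HasFDerivAt (fun z => (W z).1.im) Complex.imCLM z := Complex.imCLM.hasFDerivAt
    have h3 := h1.unique h2
    exact congrArg (fun L : ℂ →L[ℝ] ℝ => L u) h3
  -- derivative in the real direction
  have hre : ∀ z, fderiv ℝ W z 1 =
      (mkc (1 + (w1 j z - 1 - cc z.re * Δ1 z.im), 0),
        mkc (w2 j z - cc z.re * Δ2 z.im, w3 j z - cc z.re * Δ3 z.im)) := by
    intro z
    have h0 : mkc (z.re, z.im) = z := rfl
    have hγ : HasDerivAt (fun s : ℝ => mkc (s, z.im)) 1 z.re := by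
      have := hasDerivAt_mkc (hasDerivAt_id z.re) (hasDerivAt_const z.re z.im)
      exact this
    have h1 : HasDerivAt (fun s : ℝ => W (mkc (s, z.im))) (fderiv ℝ W z 1) z.re := by
      have h2 : HasFDerivAt W (fderiv ℝ W z) (mkc (z.re, z.im)) := by
        rw [h0]
        exact hWd z
      exact h2.comp_hasDerivAt z.re hγ
    have h2 : HasDerivAt (fun s : ℝ => W (mkc (s, z.im)))
        (mkc (1 + (w1 j z - 1 - cc z.re * Δ1 z.im), 0),
        mkc (w2 j z - cc z.re * Δ2 z.im, w3 j z - cc z.re * Δ3 z.im)) z.re := by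
      refine HasDerivAt.prodMk (hasDerivAt_mkc ?_ ?_) (hasDerivAt_mkc ?_ ?_)
      · exact (hasDerivAt_id z.re).add (hd1 z.re z.im)
      · exact hasDerivAt_const z.re z.im
      · exact hd2 z.re z.im
      · exact hd3 z.re z.im
    exact h1.unique h2
  -- `u` with zero imaginary part
  have hu : ∀ z u, u.im = 0 → fderiv ℝ W z u = u.re • fderiv ℝ W z 1 := by
    intro z u h
    have : u = u.re • (1 : ℂ) := by
      apply Complex.ext
      · simp
      · simp [h]
    conv_lhs => rw [this]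
    exact map_smul _ _ _
  -- the key: no multiple of the derivative is `ζ`
  have key : ∀ z (t e : ℝ), t • fderiv ℝ W z 1 = e • (mkc (v1 j z, 0), mkc (v2 j z, v3 j z)) →
      t = 0 ∧ e = 0 := by
    intro z t e h
    rw [hre] at h
    have e1 : t * (1 + (w1 j z - 1 - cc z.re * Δ1 z.im)) = e * v1 j z := by
      have := congrArg (fun q : ℂ × ℂ => q.1.re) h
      simpa [mkc_re] using this
    have e2 : t * (w2 j z - cc z.re * Δ2 z.im) = e * v2 j z := by
      have := congrArg (fun q : ℂ × ℂ => q.2.re) h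
      simpa [mkc_re] using this
    have e3 : t * (w3 j z - cc z.re * Δ3 z.im) = e * v3 j z := by
      have := congrArg (fun q : ℂ × ℂ => q.2.im) h
      simpa [mkc_im] using this
    have hdn := dn_pos j z
    have hv := v_norm j z
    have hfin : t = 0 → e = 0 := by
      intro ht
      rw [ht, zero_mul] at e1 e2 e3
      by_contra he
      have f1 : v1 j z = 0 := by
        rcases mul_eq_zero.1 e1.symm with h' | h'
        · exact absurd h' he
        · exact h'
      have f2 : v2 j z = 0 := by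
        rcases mul_eq_zero.1 e2.symm with h' | h'
        · exact absurd h' he
        · exact h'
      have f3 : v3 j z = 0 := by
        rcases mul_eq_zero.1 e3.symm with h' | h'
        · exact absurd h' he
        · exact h'
      rw [f1, f2, f3] at hv
      have : 0 < dn j z ^ 2 := by positivity
      norm_num at hv
      rw [← hv] at this
      exact lt_irrefl _ this
    have ht : t = 0 := by
      by_cases hc : cc z.re = 0
      · rw [hc] at e1 e2 e3
        have h1 := w_norm j z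
        have h2 := w_orth j z
        have h3 : t * (w1 j z ^ 2 + w2 j z ^ 2 + w3 j z ^ 2) =
            e * (w1 j z * v1 j z + w2 j z * v2 j z + w3 j z * v3 j z) := by
          linear_combination w1 j z * e1 + w2 j z * e2 + w3 j z * e3
        rw [h1, h2] at h3
        simpa using h3
      · have hx : z.re ∈ Ioo (5 : ℝ) 35 := by
          by_contra h'
          exact hc (cc_supp h')
        have hz : 1 ≤ ‖z‖ := by
          have := Complex.abs_re_le_norm z
          have h5 : 5 < z.re := hx.1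
          have := le_abs_self z.re
          linarith
        rw [w1_out j hz, v1_out j hz, mul_zero] at e1
        have h4 : |cc z.re * Δ1 z.im| ≤ 1 / 5 := by
          rw [abs_mul, abs_of_nonneg (cc_nonneg _)]
          calc cc z.re * |Δ1 z.im| ≤ (1 / 20) * 4 :=
                mul_le_mul (cc_le _) (hΔ1 _) (abs_nonneg _) (by norm_num)
            _ = 1 / 5 := by norm_num
        have h5 := (abs_le.1 h4).2
        rcases mul_eq_zero.1 e1 with h' | h'
        · exact h'
        · exfalso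
          linarith
    exact ⟨ht, hfin ht⟩
  refine ⟨50, W, fun z => (mkc (v1 j z, 0), mkc (v2 j z, v3 j z)), by norm_num, hWs, ?_, ?_, ?_,
    ?_, ?_⟩
  · exact (mkc_smooth.comp ((v1_smooth j).prodMk contDiff_const)).prodMk
      (mkc_smooth.comp ((v2_smooth j).prodMk (v3_smooth j)))
  · intro z hz
    have h : 36 ≤ |z.re| ∨ 1 ≤ |z.im| := by
      by_contra h'
      rw [not_or, not_le, not_le] at h'
      have := Complex.norm_le_abs_re_add_abs_im z
      linarith [h'.1, h'.2]
    simp only [hW]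
    rw [hz1 _ _ h, hz2 _ _ h, hz3 _ _ h, add_zero]
    rfl
  · intro z hz
    have hz' : 1 ≤ ‖z‖ := by linarith
    show (mkc (v1 j z, 0), mkc (v2 j z, v3 j z)) = (0, z ^ (2 * j))
    rw [v1_out j hz', ← v23_out j hz']
    rfl
  · intro z
    rw [injective_iff_map_eq_zero]
    intro u h
    have h1 : u.im = 0 := by
      rw [← him z u, h]
      rfl
    rw [hu z u h1] at h
    have h2 := (key z u.re 0 (by rw [h, zero_smul])).1
    exact Complex.ext h2 h1
  · intro z u h
    have h1 : u.im = 0 := by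
      rw [← him z u, h]
      rfl
    rw [hu z u h1] at h
    have h2 := (key z u.re 1 (by rw [h, one_smul])).2
    exact one_ne_zero h2

end Vale.Agent.P205.Top
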