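import Vale.Agent.P205.Top.Defs

/-!
Block TOP of P205: winding number and smooth logarithm on an annulus.
-/

open scoped Manifold ContDiff Topology RealInnerProductSpace
open Set Filter MeasureTheory Module

noncomputable section

namespace Vale.Agent.P205.Top

/-- a continuous logarithm of a smooth function is smooth -/
private theorem xl_smooth_log {U : Set ℂ} (hU : IsOpen U) {G L : ℂ → ℂ}
    (hG : ContDiffOn ℝ ∞ G U) (hL : ContinuousOn L U) (he : ∀ z ∈ U, Complex.exp (L z) = G z) :
    ContDiffOn ℝ ∞ L U := by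
  intro z hz
  refine ContDiffAt.contDiffWithinAt ?_
  have hGz : G z ≠ 0 := by
    rw [← he z hz]
    exact Complex.exp_ne_zero _
  have hUn : U ∈ 𝓝 z := hU.mem_nhds hz
  have hLc : ContinuousAt L z := hL.continuousAt hUn
  have hev : ∀ᶠ x in 𝓝 z, L x = L z + Complex.log (G x / G z) := by
    have h1 : ∀ᶠ x in 𝓝 z, |(L x - L z).im| < Real.pi := by
      have hc : ContinuousAt (fun x => |(L x - L z).im|) z :=
        (continuous_abs.comp Complex.continuous_im).continuousAt.comp (hLc.sub continuousAt_const)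
      have h0 : |(L z - L z).im| < Real.pi := by simp [Real.pi_pos]
      exact hc.eventually (gt_mem_nhds h0)
    filter_upwards [h1, hUn] with x hx hxU
    rw [← he x hxU, ← he z hz, ← Complex.exp_sub, Complex.log_exp (abs_lt.1 hx).1 (abs_lt.1 hx).2.le]
    ring
  have hGd : ContDiffAt ℝ ∞ G z := (hG z hz).contDiffAt hUn
  have hmain : ContDiffAt ℝ ∞ (fun x => L z + Complex.log (G x / G z)) z := by
    refine contDiffAt_const.add ?_
    have hlog : ContDiffAt ℝ ∞ Complex.log (G z / G z) := by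
      rw [div_self hGz]
      exact (Complex.contDiffAt_log (by simp)).restrict_scalars ℝ
    exact hlog.comp z (hGd.div_const _)
  exact hmain.congr_of_eventuallyEq hev

/-- winding number and logarithm on an annulus -/
theorem exists_log {r1 r2 : ℝ} (h1 : 0 < r1) (h2 : r1 < r2) {g : ℂ → ℂ}
    (hg : ContDiffOn ℝ ∞ g {z | r1 < ‖z‖ ∧ ‖z‖ < r2}) (h0 : ∀ z, r1 < ‖z‖ → ‖z‖ < r2 → g z ≠ 0) :
    ∃ (w : ℤ) (h : ℂ → ℂ), ContDiffOn ℝ ∞ h {z | r1 < ‖z‖ ∧ ‖z‖ < r2} ∧
      ∀ z, r1 < ‖z‖ → ‖z‖ < r2 → g z = zp w z * Complex.exp (h z) := by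
  have h2' : 0 < r2 := h1.trans h2
  set U : Set ℂ := Complex.re ⁻¹' Ioo (Real.log r1) (Real.log r2) with hUdef
  have hUo : IsOpen U := isOpen_Ioo.preimage Complex.continuous_re
  have hUc : Convex ℝ U := (convex_Ioo _ _).is_linear_preimage Complex.reLm.isLinear
  have hUne : U.Nonempty := by
    obtain ⟨t, ht⟩ := nonempty_Ioo.2 (Real.log_lt_log h1 h2)
    exact ⟨(t : ℂ), by simpa [hUdef] using ht⟩
  have hmap : ∀ ζ ∈ U, r1 < ‖Complex.exp ζ‖ ∧ ‖Complex.exp ζ‖ < r2 := by
    intro ζ hζ
    rw [Complex.norm_exp]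
    exact ⟨(Real.log_lt_iff_lt_exp h1).1 hζ.1, (Real.lt_log_iff_exp_lt h2').1 hζ.2⟩
  have hinv : ∀ z : ℂ, r1 < ‖z‖ → ‖z‖ < r2 → Complex.log z ∈ U := by
    intro z hz1 hz2
    have : 0 < ‖z‖ := h1.trans hz1
    refine ⟨?_, ?_⟩
    · rw [Complex.log_re]
      exact Real.log_lt_log h1 hz1
    · rw [Complex.log_re]
      exact Real.log_lt_log this hz2
  have hGs : ContDiffOn ℝ ∞ (fun ζ => g (Complex.exp ζ)) U :=
    hg.comp ((Complex.contDiff_exp (𝕜 := ℂ)).restrict_scalars ℝ).contDiffOn hmap
  have hsc : IsSimplyConnected U := by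
    have := hUc.contractibleSpace hUne
    exact SimplyConnectedSpace.ofContractible U
  obtain ⟨L, hLc, hLe⟩ := Complex.exists_continuousOn_eqOn_exp_comp hsc hUo hGs.continuousOn
    (by
      rintro ⟨ζ, hζ, h⟩
      exact h0 _ (hmap ζ hζ).1 (hmap ζ hζ).2 h)
  have hLe' : ∀ ζ ∈ U, Complex.exp (L ζ) = g (Complex.exp ζ) := fun ζ hζ => hLe hζ
  have hLs : ContDiffOn ℝ ∞ L U := xl_smooth_log hUo hGs hLc hLe'
  -- the winding number
  have hshift : ∀ (ζ : ℂ) (n : ℤ), ζ ∈ U → ζ + n * (2 * Real.pi * Complex.I) ∈ U := by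
    intro ζ n hζ
    have : (ζ + n * (2 * Real.pi * Complex.I)).re = ζ.re := by simp
    change (ζ + n * (2 * Real.pi * Complex.I)).re ∈ Ioo (Real.log r1) (Real.log r2)
    rw [this]
    exact hζ
  have hshift1 : ∀ ζ : ℂ, ζ ∈ U → ζ + 2 * Real.pi * Complex.I ∈ U := by
    intro ζ hζ
    simpa using hshift ζ 1 hζ
  have hper : ∀ ζ ∈ U, ∃ n : ℤ, L (ζ + 2 * Real.pi * Complex.I) - L ζ
      = n * (2 * Real.pi * Complex.I) := by
    intro ζ hζ
    rw [← Complex.exp_eq_one_iff, Complex.exp_sub, hLe' _ (hshift1 ζ hζ), hLe' ζ hζ,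
      Complex.exp_periodic ζ]
    exact div_self (h0 _ (hmap ζ hζ).1 (hmap ζ hζ).2)
  obtain ⟨w, hw⟩ : ∃ w : ℤ, ∀ ζ ∈ U, L (ζ + 2 * Real.pi * Complex.I) - L ζ
      = w * (2 * Real.pi * Complex.I) := by
    have hdisc : IsDiscrete (range ((↑) : ℤ → ℝ)) :=
      Int.isClosedEmbedding_coe_real.isEmbedding.isInducing.isDiscrete_range
    have hpi : (2 * Real.pi : ℝ) ≠ 0 := by positivity
    have hval : ∀ (n : ℤ), ((n : ℂ) * (2 * Real.pi * Complex.I)).im / (2 * Real.pi) = (n : ℝ) := by
      intro n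
      have : ((n : ℂ) * (2 * Real.pi * Complex.I)).im = n * (2 * Real.pi) := by
        simp [Complex.mul_im, Complex.mul_re]
      rw [this]
      field_simp
    have hcont : ContinuousOn (fun ζ => (L (ζ + 2 * Real.pi * Complex.I) - L ζ).im
        / (2 * Real.pi)) U := by
      have hc1 : ContinuousOn (fun ζ => L (ζ + 2 * Real.pi * Complex.I)) U :=
        hLc.comp (continuous_id.add continuous_const).continuousOn hshift1
      exact (Complex.continuous_im.comp_continuousOn (hc1.sub hLc)).div_const _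
    obtain ⟨y, ⟨w, rfl⟩, hy⟩ := hUc.isPreconnected.eqOn_const_of_mapsTo hdisc hcont
      (by
        intro ζ hζ
        obtain ⟨n, hn⟩ := hper ζ hζ
        refine ⟨n, ?_⟩
        change (n : ℝ) = (L (ζ + 2 * Real.pi * Complex.I) - L ζ).im / (2 * Real.pi)
        rw [hn, hval]) ⟨_, 0, rfl⟩
    refine ⟨w, fun ζ hζ => ?_⟩
    obtain ⟨n, hn⟩ := hper ζ hζ
    have hnw : (n : ℝ) = w := by
      have := hy hζ
      change (L (ζ + 2 * Real.pi * Complex.I) - L ζ).im / (2 * Real.pi) = (w : ℝ) at this
      rw [← this, hn, hval]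
    have : n = w := by exact_mod_cast hnw
    rw [hn, this]
  -- the periodic function
  obtain ⟨H, hHs, hHp, hHe⟩ : ∃ H : ℂ → ℂ, ContDiffOn ℝ ∞ H U ∧
      (∀ ζ ∈ U, H (ζ + 2 * Real.pi * Complex.I) = H ζ) ∧
      ∀ ζ ∈ U, g (Complex.exp ζ) = zp w (Complex.exp ζ) * Complex.exp (H ζ) := by
    by_cases hw0 : 0 ≤ w
    · refine ⟨fun ζ => L ζ - w * ζ, hLs.sub (contDiff_const.mul contDiff_id).contDiffOn, ?_, ?_⟩
      · intro ζ hζ
        have := hw ζ hζ
        linear_combination this
      · intro ζ hζ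
        have hcast : ((w.toNat : ℕ) : ℂ) = (w : ℂ) := by
          have : ((w.toNat : ℕ) : ℤ) = w := Int.toNat_of_nonneg hw0
          exact_mod_cast this
        rw [← hLe' ζ hζ, zp, if_pos hw0, ← Complex.exp_nat_mul, ← Complex.exp_add, hcast]
        congr 1
        ring
    · refine ⟨fun ζ => L ζ + w * (starRingEnd ℂ) ζ, hLs.add
        (contDiff_const.mul Complex.conjCLE.contDiff).contDiffOn, ?_, ?_⟩
      · intro ζ hζ
        have := hw ζ hζ
        have hc : (starRingEnd ℂ) (ζ + 2 * Real.pi * Complex.I)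
            = (starRingEnd ℂ) ζ - 2 * Real.pi * Complex.I := by
          have h2c : (starRingEnd ℂ) 2 = 2 := map_ofNat (starRingEnd ℂ) 2
          simp [sub_eq_add_neg, h2c]
        simp only [hc]
        linear_combination this
      · intro ζ hζ
        have hcast : (((-w).toNat : ℕ) : ℂ) = -(w : ℂ) := by
          have : (((-w).toNat : ℕ) : ℤ) = -w := Int.toNat_of_nonneg (by omega)
          exact_mod_cast this
        rw [← hLe' ζ hζ, zp, if_neg hw0, ← Complex.exp_conj, ← Complex.exp_nat_mul,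
          ← Complex.exp_add, hcast]
        congr 1
        ring
  have hHn : ∀ (n : ℕ) (ζ : ℂ), ζ ∈ U → H (ζ + n * (2 * Real.pi * Complex.I)) = H ζ := by
    intro n
    induction n with
    | zero => intro ζ _; simp
    | succ n ih =>
      intro ζ hζ
      have hmem : ζ + n * (2 * Real.pi * Complex.I) ∈ U := by
        have := hshift ζ n hζ
        simpa using this
      have := hHp _ hmem
      rw [ih ζ hζ] at this
      rw [← this]
      congr 1
      push_cast
      ring
  have hHz : ∀ (n : ℤ) (ζ : ℂ), ζ ∈ U → H (ζ + n * (2 * Real.pi * Complex.I)) = H ζ := by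
    intro n ζ hζ
    rcases le_total 0 n with hn | hn
    · lift n to ℕ using hn
      simpa using hHn n ζ hζ
    · obtain ⟨m, rfl⟩ : ∃ m : ℕ, n = -(m : ℤ) := ⟨(-n).toNat, by omega⟩
      have hmem := hshift ζ (-(m : ℤ)) hζ
      have := hHn m _ hmem
      rw [← this]
      congr 1
      push_cast
      ring
  refine ⟨w, fun z => H (Complex.log z), ?_, ?_⟩
  · intro z hz
    refine ContDiffAt.contDiffWithinAt ?_
    have hz0 : z ≠ 0 := by
      rintro rfl
      have := hz.1
      simp only [norm_zero] at this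
      linarith
    by_cases hs : z ∈ Complex.slitPlane
    · have hH : ContDiffAt ℝ ∞ H (Complex.log z) :=
        hHs.contDiffAt (hUo.mem_nhds (hinv z hz.1 hz.2))
      exact hH.comp z ((Complex.contDiffAt_log hs).restrict_scalars ℝ)
    · have hs' : -z ∈ Complex.slitPlane := by
        rw [Complex.mem_slitPlane_iff] at hs ⊢
        push Not at hs
        left
        have hre : z.re ≤ 0 := hs.1
        have him : z.im = 0 := hs.2
        have : z.re ≠ 0 := fun h => hz0 (Complex.ext h him)
        simp only [Complex.neg_re]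
        exact neg_pos.2 (lt_of_le_of_ne hre this)
      have hAo : IsOpen {z : ℂ | r1 < ‖z‖ ∧ ‖z‖ < r2} :=
        (isOpen_lt continuous_const continuous_norm).inter
          (isOpen_lt continuous_norm continuous_const)
      have key : ∀ x : ℂ, r1 < ‖x‖ → ‖x‖ < r2 →
          ∃ n : ℤ, Complex.log x = Complex.log (-x) + Real.pi * Complex.I
            + n * (2 * Real.pi * Complex.I) := by
        intro x hx1 _
        have hx0 : x ≠ 0 := by
          rintro rfl
          simp only [norm_zero] at hx1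
          linarith
        rw [← Complex.exp_eq_exp_iff_exists_int, Complex.exp_log hx0, Complex.exp_add,
          Complex.exp_pi_mul_I, Complex.exp_log (neg_ne_zero.2 hx0)]
        ring
      have hmem' : ∀ x : ℂ, r1 < ‖x‖ → ‖x‖ < r2 →
          Complex.log (-x) + Real.pi * Complex.I ∈ U := by
        intro x hx1 hx2
        obtain ⟨n, hn⟩ := key x hx1 hx2
        have h3 := hshift _ (-n) (hinv x hx1 hx2)
        rw [hn] at h3
        have : Complex.log (-x) + Real.pi * Complex.I + n * (2 * Real.pi * Complex.I)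
            + ((-n : ℤ) : ℂ) * (2 * Real.pi * Complex.I)
            = Complex.log (-x) + Real.pi * Complex.I := by
          push_cast
          ring
        rwa [this] at h3
      have hev : ∀ᶠ x in 𝓝 z, H (Complex.log x)
          = H (Complex.log (-x) + Real.pi * Complex.I) := by
        filter_upwards [hAo.mem_nhds hz] with x hx
        obtain ⟨n, hn⟩ := key x hx.1 hx.2
        rw [hn]
        exact hHz n _ (hmem' x hx.1 hx.2)
      have hH : ContDiffAt ℝ ∞ H (Complex.log (-z) + Real.pi * Complex.I) :=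
        hHs.contDiffAt (hUo.mem_nhds (hmem' z hz.1 hz.2))
      have hl : ContDiffAt ℝ ∞ (fun x : ℂ => Complex.log (-x) + Real.pi * Complex.I) z := by
        refine ContDiffAt.add ?_ contDiffAt_const
        exact ((Complex.contDiffAt_log hs').restrict_scalars ℝ).comp z contDiffAt_id.neg
      exact (hH.comp z hl).congr_of_eventuallyEq hev
  · intro z hz1 hz2
    have hz0 : z ≠ 0 := by
      rintro rfl
      simp only [norm_zero] at hz1
      linarith
    have := hHe _ (hinv z hz1 hz2)
    rwa [Complex.exp_log hz0] at this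

end Vale.Agent.P205.Top
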