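import Vale.Agent.P205.Top.Defs

/-!
Block TOP of P205: odd functions on a closed manifold with an involution can be made regular away
from the fixed points (with the Sard type statement as a hypothesis).
-/

open scoped Manifold ContDiff Topology RealInnerProductSpace
open Set Filter MeasureTheory Module

noncomputable section

namespace Vale.Agent.P205.Top

section Closed

variable {V W : Type*} [NormedAddCommGroup V] [NormedSpace ℝ V] [FiniteDimensional ℝ V]
  [NormedAddCommGroup W] [NormedSpace ℝ W] [FiniteDimensional ℝ W]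
  {H : Type*} [TopologicalSpace H] (I : ModelWithCorners ℝ V H) [I.Boundaryless]
  {N : Type*} [TopologicalSpace N] [ChartedSpace H N] [IsManifold I ∞ N]
  [CompactSpace N] [T2Space N]

omit [FiniteDimensional ℝ V] [I.Boundaryless] [CompactSpace N] [T2Space N]
  [IsManifold I ∞ N] in
/-- the differential of an involution is injective. -/
theorem inj_mfderiv_invol {τ : N → N} (hτ : ContMDiff I I ∞ τ) (hττ : ∀ p, τ (τ p) = p) (p : N) :
    Function.Injective (mfderiv I I τ p) := by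
  have h1 : MDifferentiableAt I I τ p := (hτ p).mdifferentiableAt (by simp)
  have h2 : MDifferentiableAt I I τ (τ p) := (hτ (τ p)).mdifferentiableAt (by simp)
  have h : mfderiv I I (τ ∘ τ) p = (mfderiv I I τ (τ p)).comp (mfderiv I I τ p) :=
    mfderiv_comp p h2 h1
  have hid : τ ∘ τ = id := funext hττ
  have h3 : ∀ v : V, (mfderiv I I (τ ∘ τ) p : V →L[ℝ] V) v = v := by
    intro v
    rw [hid, mfderiv_id]
    rfl
  intro v w hvw
  have h4 : (mfderiv I I (τ ∘ τ) p : V →L[ℝ] V) v = (mfderiv I I (τ ∘ τ) p : V →L[ℝ] V) w := by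
    rw [h]
    change mfderiv I I τ (τ p) (mfderiv I I τ p v) = mfderiv I I τ (τ p) (mfderiv I I τ p w)
    rw [hvw]
  exact (h3 v).symm.trans (h4.trans (h3 w))

omit [FiniteDimensional ℝ V] [FiniteDimensional ℝ W] [I.Boundaryless] [CompactSpace N]
  [T2Space N] [IsManifold I ∞ N] in
/-- regularity of an odd function at `τ p` gives regularity at `p`. -/
theorem inj_of_odd {τ : N → N} (hτ : ContMDiff I I ∞ τ) (hττ : ∀ p, τ (τ p) = p) {F : N → W}
    (hF : ContMDiff I 𝓘(ℝ, W) ∞ F) (hodd : ∀ p, F (τ p) = - F p) {p : N}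
    (h : Function.Injective (mfderiv I 𝓘(ℝ, W) F (τ p))) :
    Function.Injective (mfderiv I 𝓘(ℝ, W) F p) := by
  have h1 : MDifferentiableAt I I τ p := (hτ p).mdifferentiableAt (by simp)
  have h2 : MDifferentiableAt I 𝓘(ℝ, W) F (τ p) := (hF (τ p)).mdifferentiableAt (by simp)
  have hc : mfderiv I 𝓘(ℝ, W) (F ∘ τ) p = (mfderiv I 𝓘(ℝ, W) F (τ p)).comp (mfderiv I I τ p) :=
    mfderiv_comp p h2 h1
  have he : F ∘ τ = -F := funext hodd
  have h3 : ∀ v : V, (mfderiv I 𝓘(ℝ, W) (F ∘ τ) p : V →L[ℝ] W) v =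
      - (mfderiv I 𝓘(ℝ, W) F p : V →L[ℝ] W) v := by
    intro v
    rw [he, mfderiv_neg]
    rfl
  intro v w hvw
  apply inj_mfderiv_invol I hτ hττ p
  apply h
  have h4 : (mfderiv I 𝓘(ℝ, W) (F ∘ τ) p : V →L[ℝ] W) v =
      (mfderiv I 𝓘(ℝ, W) (F ∘ τ) p : V →L[ℝ] W) w :=
    (h3 v).trans ((congrArg (fun x : W => -x) hvw).trans (h3 w).symm)
  rw [hc] at h4
  exact h4

/-- the hypothesis: for small `c` the zeros of `G + χ c` are regular where `χ > 0`. -/
def SmallReg (W : Type*) [NormedAddCommGroup W] [NormedSpace ℝ W] (N : Type*) [TopologicalSpace N]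
    [ChartedSpace H N] : Prop :=
  ∀ G : N → W, ContMDiff I 𝓘(ℝ, W) ∞ G → ∀ χ : N → ℝ, ContMDiff I 𝓘(ℝ, ℝ) ∞ χ →
    (∀ p, 0 ≤ χ p) → ∀ ε : ℝ, 0 < ε → ∃ c : W, ‖c‖ < ε ∧ ∀ p, G p + χ p • c = 0 →
      (0 < χ p ∨ Function.Injective (mfderiv I 𝓘(ℝ, W) G p)) →
      Function.Injective (mfderiv I 𝓘(ℝ, W) (fun q => G q + χ q • c) p)

/-- the bump functions used. -/
structure GoodBump (τ : N → N) (O : Set N) (χ : N → ℝ) : Prop where
  sm : ContMDiff I 𝓘(ℝ, ℝ) ∞ χ
  nonneg : ∀ p, 0 ≤ χ p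
  le_one : ∀ p, χ p ≤ 1
  sub : tsupport χ ⊆ O
  disj : ∀ p ∈ tsupport χ, τ p ∉ tsupport χ

omit [CompactSpace N] [I.Boundaryless] in
theorem exists_goodBump {τ : N → N} (hτ : Continuous τ) {O : Set N} (hO : IsOpen O) {p : N}
    (hp : p ∈ O) (hfix : τ p ≠ p) : ∃ χ : N → ℝ, GoodBump I τ O χ ∧ 0 < χ p := by
  obtain ⟨A, B, hA, hB, hpA, hpB, hAB⟩ := t2_separation hfix.symm
  have hU : O ∩ A ∩ τ ⁻¹' B ∈ 𝓝 p :=
    ((hO.inter hA).inter (hB.preimage hτ)).mem_nhds ⟨⟨hp, hpA⟩, hpB⟩
  obtain ⟨f, -, hf⟩ := (SmoothBumpFunction.nhds_basis_tsupport (I := I) p).mem_iff.1 hU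
  refine ⟨f, ⟨f.contMDiff, fun q => f.nonneg, fun q => f.le_one, fun q hq => (hf hq).1.1, ?_⟩, ?_⟩
  · intro q hq hq'
    exact Set.disjoint_left.1 hAB (hf hq').1.2 (hf hq).2
  · rw [f.eq_one]; exact one_pos

omit [FiniteDimensional ℝ V] [FiniteDimensional ℝ W] [I.Boundaryless] [CompactSpace N]
  [T2Space N] [IsManifold I ∞ N] in
/-- the inductive step. -/
theorem odd_step (hS : SmallReg I W N) {τ : N → N}
    (hτ : ContMDiff I I ∞ τ) (hττ : ∀ p, τ (τ p) = p) {O : Set N}
    (hOτ : ∀ p ∈ O, τ p ∈ O) {G : N → W}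
    (hG : ContMDiff I 𝓘(ℝ, W) ∞ G) (hodd : ∀ p, G (τ p) = - G p)
    {χ : N → ℝ} (hχ : GoodBump I τ O χ) {S : Set N} (hSτ : ∀ p ∈ S, τ p ∈ S)
    (hreg : ∀ p ∈ S, G p = 0 → Function.Injective (mfderiv I 𝓘(ℝ, W) G p)) {ε : ℝ} (hε : 0 < ε) :
    ∃ η : N → W, ContMDiff I 𝓘(ℝ, W) ∞ η ∧ (∀ p, η (τ p) = - η p) ∧ (∀ p, ‖η p‖ < ε) ∧
      tsupport η ⊆ O ∧ ∀ p, (p ∈ S ∨ 0 < χ p ∨ 0 < χ (τ p)) → G p + η p = 0 →
        Function.Injective (mfderiv I 𝓘(ℝ, W) (fun q => G q + η q) p) := by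
  obtain ⟨c, hc, hreg'⟩ := hS G hG χ hχ.sm hχ.nonneg ε hε
  have hηs : ContMDiff I 𝓘(ℝ, W) ∞ (fun p => (χ p - χ (τ p)) • c) :=
    (hχ.sm.sub (hχ.sm.comp hτ)).smul contMDiff_const
  have hηodd : ∀ p, (χ (τ p) - χ (τ (τ p))) • c = - ((χ p - χ (τ p)) • c) := by
    intro p
    rw [hττ, ← neg_smul, neg_sub]
  refine ⟨fun p => (χ p - χ (τ p)) • c, hηs, hηodd, ?_, ?_, ?_⟩
  · intro p
    have h1 : |χ p - χ (τ p)| ≤ 1 := by
      rw [abs_le]
      constructor
      · linarith [hχ.nonneg p, hχ.le_one (τ p)]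
      · linarith [hχ.nonneg (τ p), hχ.le_one p]
    rw [norm_smul, Real.norm_eq_abs]
    calc |χ p - χ (τ p)| * ‖c‖ ≤ 1 * ‖c‖ := mul_le_mul_of_nonneg_right h1 (norm_nonneg _)
      _ < ε := by rw [one_mul]; exact hc
  · have hK : IsClosed (tsupport χ ∪ τ ⁻¹' tsupport χ) :=
      (isClosed_tsupport χ).union ((isClosed_tsupport χ).preimage hτ.continuous)
    refine (closure_minimal ?_ hK).trans ?_
    · intro p hp
      by_contra hcon
      rw [mem_union, not_or] at hcon
      apply hp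
      have e1 : χ p = 0 := image_eq_zero_of_notMem_tsupport hcon.1
      have e2 : χ (τ p) = 0 := image_eq_zero_of_notMem_tsupport hcon.2
      change (χ p - χ (τ p)) • c = 0
      rw [e1, e2, sub_zero, zero_smul]
    · rintro p (hp | hp)
      · exact hχ.sub hp
      · rw [← hττ p]
        exact hOτ _ (hχ.sub hp)
  · -- regularity
    have hFodd : ∀ p, (fun q => G q + (χ q - χ (τ q)) • c) (τ p) =
        - (fun q => G q + (χ q - χ (τ q)) • c) p := by
      intro p
      change G (τ p) + (χ (τ p) - χ (τ (τ p))) • c = - (G p + (χ p - χ (τ p)) • c)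
      rw [hηodd, hodd]
      abel
    have hFs : ContMDiff I 𝓘(ℝ, W) ∞ (fun q => G q + (χ q - χ (τ q)) • c) := hG.add hηs
    -- the case `τ p ∉ tsupport χ`
    have key : ∀ p, τ p ∉ tsupport χ → (p ∈ S ∨ 0 < χ p ∨ 0 < χ (τ p)) →
        G p + (χ p - χ (τ p)) • c = 0 →
        Function.Injective (mfderiv I 𝓘(ℝ, W) (fun q => G q + (χ q - χ (τ q)) • c) p) := by
      intro p hp hD h0
      have e2 : χ (τ p) = 0 := image_eq_zero_of_notMem_tsupport hp
      have hev : (fun q => G q + (χ q - χ (τ q)) • c) =ᶠ[𝓝 p] fun q => G q + χ q • c := by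
        have : ∀ᶠ q in 𝓝 p, τ q ∉ tsupport χ :=
          hτ.continuous.continuousAt.eventually
            ((isClosed_tsupport χ).isOpen_compl.mem_nhds hp)
        filter_upwards [this] with q hq
        rw [image_eq_zero_of_notMem_tsupport hq, sub_zero]
      rw [e2, sub_zero] at h0
      have hinj : Function.Injective (mfderiv I 𝓘(ℝ, W) (fun q => G q + χ q • c) p) := by
        apply hreg' p h0
        rcases (hχ.nonneg p).lt_or_eq with h | h
        · exact Or.inl h
        · right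
          rw [← h, zero_smul, add_zero] at h0
          rcases hD with h5 | h5 | h5
          · exact hreg p h5 h0
          · rw [← h] at h5; exact absurd h5 (lt_irrefl _)
          · rw [e2] at h5; exact absurd h5 (lt_irrefl _)
      intro v w hvw
      apply hinj
      have e := hev.mfderiv_eq (I := I) (I' := 𝓘(ℝ, W))
      have e1 : ∀ v : V, (mfderiv I 𝓘(ℝ, W) (fun q => G q + (χ q - χ (τ q)) • c) p : V →L[ℝ] W) v =
          (mfderiv I 𝓘(ℝ, W) (fun q => G q + χ q • c) p : V →L[ℝ] W) v := by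
        intro v
        exact congrArg (fun L : V →L[ℝ] W => L v) e
      exact (e1 v).symm.trans (hvw.trans (e1 w))
    intro p hD h0
    change G p + (χ p - χ (τ p)) • c = 0 at h0
    by_cases hp : τ p ∈ tsupport χ
    · have hp' : τ (τ p) ∉ tsupport χ := hχ.disj _ hp
      apply inj_of_odd I hτ hττ hFs hFodd
      apply key (τ p) hp'
      · rcases hD with h | h | h
        · exact Or.inl (hSτ p h)
        · right; right; rwa [hττ]
        · right; left; exact h
      · have h6 : G (τ p) + (χ (τ p) - χ (τ (τ p))) • c = - (G p + (χ p - χ (τ p)) • c) :=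
          hFodd p
        rw [h0, neg_zero] at h6
        exact h6
    · exact key p hp hD h0

omit [FiniteDimensional ℝ V] [I.Boundaryless] [CompactSpace N] [T2Space N]
  [IsManifold I ∞ N] [FiniteDimensional ℝ W] in
/-- `SmallReg` from the almost everywhere statement. -/
theorem smallReg_of_ae [MeasurableSpace W] [BorelSpace W] (μ : Measure W) [μ.IsAddHaarMeasure]
    (h : ∀ G : N → W, ContMDiff I 𝓘(ℝ, W) ∞ G → ∀ χ : N → ℝ, ContMDiff I 𝓘(ℝ, ℝ) ∞ χ →
      (∀ p, 0 ≤ χ p) → ∀ᵐ c ∂μ, ∀ p, G p + χ p • c = 0 →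
        (0 < χ p ∨ Function.Injective (mfderiv I 𝓘(ℝ, W) G p)) →
        Function.Injective (mfderiv I 𝓘(ℝ, W) (fun q => G q + χ q • c) p)) : SmallReg I W N := by
  intro G hG χ hχ h0 ε hε
  have h1 := h G hG χ hχ h0
  by_contra hcon
  push Not at hcon
  have h2 : Metric.ball (0 : W) ε ⊆ {c | ¬ ∀ p, G p + χ p • c = 0 →
        (0 < χ p ∨ Function.Injective (mfderiv I 𝓘(ℝ, W) G p)) →
        Function.Injective (mfderiv I 𝓘(ℝ, W) (fun q => G q + χ q • c) p)} := by
    intro c hc h3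
    obtain ⟨p, hp1, hp2, hp3⟩ := hcon c (by simpa using hc)
    exact hp3 (h3 p hp1 hp2)
  have h3 : μ (Metric.ball (0 : W) ε) = 0 := measure_mono_null h2 h1
  exact (Metric.measure_ball_pos μ (0 : W) hε).ne' h3

omit [FiniteDimensional ℝ W] [I.Boundaryless] [CompactSpace N] in
/-- C2 with the hypothesis `SmallReg`. -/
theorem odd_perturb_of (hS : SmallReg I W N) {τ : N → N}
    (hτ : ContMDiff I I ∞ τ) (hττ : ∀ p, τ (τ p) = p) {G : N → W}
    (hG : ContMDiff I 𝓘(ℝ, W) ∞ G) (hodd : ∀ p, G (τ p) = - G p)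
    {D O : Set N} (hD : IsCompact D) (hO : IsOpen O) (hDO : D ⊆ O) (hfix : ∀ p ∈ O, τ p ≠ p)
    (hOτ : ∀ p ∈ O, τ p ∈ O) :
    ∃ D' : Set N, IsOpen D' ∧ D ⊆ D' ∧ D' ⊆ O ∧ ∀ m : ℝ, 0 < m →
      ∃ η : N → W, ContMDiff I 𝓘(ℝ, W) ∞ η ∧ (∀ p, η (τ p) = - η p) ∧ (∀ p, ‖η p‖ < m) ∧
        tsupport η ⊆ O ∧ ∀ p ∈ D', G p + η p = 0 →
        Function.Injective (mfderiv I 𝓘(ℝ, W) (fun q => G q + η q) p) := by
  classical
  have hex : ∀ p ∈ D, ∃ χ : N → ℝ, GoodBump I τ O χ ∧ 0 < χ p := fun p hp =>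
    exists_goodBump I hτ.continuous hO (hDO hp) (hfix p (hDO hp))
  choose! χ hχ hχp using hex
  obtain ⟨t, htD, htc⟩ := hD.elim_nhds_subcover (fun p => {q | 0 < χ p q}) fun p hp =>
    (isOpen_lt continuous_const (hχ p hp).sm.continuous).mem_nhds (hχp p hp)
  refine ⟨⋃ k ∈ t, {q | 0 < χ k q ∨ 0 < χ k (τ q)}, ?_, ?_, ?_, ?_⟩
  · refine isOpen_biUnion fun k hk => ?_
    have hc := (hχ k (htD k hk)).sm.continuous
    exact (isOpen_lt continuous_const hc).union
      (isOpen_lt continuous_const (hc.comp hτ.continuous))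
  · intro q hq
    have := htc hq
    rw [mem_iUnion₂] at this ⊢
    obtain ⟨k, hk, h⟩ := this
    exact ⟨k, hk, Or.inl h⟩
  · intro q hq
    rw [mem_iUnion₂] at hq
    obtain ⟨k, hk, h | h⟩ := hq
    · exact (hχ k (htD k hk)).sub (subset_tsupport _ h.ne')
    · rw [← hττ q]
      exact hOτ _ ((hχ k (htD k hk)).sub (subset_tsupport _ h.ne'))
  · -- induction over the finite set
    have main : ∀ s : Finset N, s ⊆ t → ∀ m : ℝ, 0 < m →
        ∃ η : N → W, ContMDiff I 𝓘(ℝ, W) ∞ η ∧ (∀ p, η (τ p) = - η p) ∧ (∀ p, ‖η p‖ < m) ∧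
          tsupport η ⊆ O ∧ ∀ p ∈ ⋃ k ∈ s, {q | 0 < χ k q ∨ 0 < χ k (τ q)}, G p + η p = 0 →
          Function.Injective (mfderiv I 𝓘(ℝ, W) (fun q => G q + η q) p) := by
      intro s
      induction s using Finset.induction_on with
      | empty =>
        intro _ m hm
        refine ⟨fun _ => 0, contMDiff_const, fun _ => by simp, fun _ => by simpa using hm, ?_, ?_⟩
        · have : tsupport (fun _ : N => (0 : W)) = ∅ := by
            rw [tsupport_eq_empty_iff]; rfl
          rw [this]; exact empty_subset _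
        · intro p hp
          simp at hp
      | insert k s hks ih =>
        intro hs m hm
        have hk : k ∈ t := hs (Finset.mem_insert_self k s)
        obtain ⟨η0, h1, h2, h3, h4, h5⟩ := ih (fun x hx => hs (Finset.mem_insert_of_mem hx))
          (m / 2) (half_pos hm)
        have hG0 : ContMDiff I 𝓘(ℝ, W) ∞ (fun q => G q + η0 q) := hG.add h1
        have hG0odd : ∀ p, G (τ p) + η0 (τ p) = -(G p + η0 p) := by
          intro p; rw [hodd, h2, neg_add]
        obtain ⟨η1, k1, k2, k3, k4, k5⟩ := odd_step I hS hτ hττ hOτ hG0 hG0odd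
          (hχ k (htD k hk)) (S := ⋃ k ∈ s, {q | 0 < χ k q ∨ 0 < χ k (τ q)})
          (by
            intro p hp
            rw [mem_iUnion₂] at hp ⊢
            obtain ⟨j, hj, h⟩ := hp
            refine ⟨j, hj, ?_⟩
            rw [mem_ofPred_eq] at h ⊢
            rw [hττ]
            exact h.symm) h5 (half_pos hm)
        refine ⟨fun q => η0 q + η1 q, h1.add k1, ?_, ?_, ?_, ?_⟩
        · intro p
          change η0 (τ p) + η1 (τ p) = -(η0 p + η1 p)
          rw [h2, k2, neg_add]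
        · intro p
          calc ‖η0 p + η1 p‖ ≤ ‖η0 p‖ + ‖η1 p‖ := norm_add_le _ _
            _ < m / 2 + m / 2 := add_lt_add (h3 p) (k3 p)
            _ = m := add_halves m
        · refine (closure_minimal ?_ ((isClosed_tsupport η0).union (isClosed_tsupport η1))).trans
            (union_subset h4 k4)
          intro p hp
          by_contra hcon
          rw [mem_union, not_or] at hcon
          apply hp
          change η0 p + η1 p = 0
          rw [image_eq_zero_of_notMem_tsupport hcon.1, image_eq_zero_of_notMem_tsupport hcon.2,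
            add_zero]
        · intro p hp h0
          rw [mem_iUnion₂] at hp
          obtain ⟨j, hj, h⟩ := hp
          have h0' : (G p + η0 p) + η1 p = 0 := by rw [add_assoc]; exact h0
          have := k5 p (by
            rw [Finset.mem_insert] at hj
            rcases hj with rfl | hj
            · exact Or.inr h
            · left
              rw [mem_iUnion₂]
              exact ⟨j, hj, h⟩) h0'
          have e : (fun q => G q + (η0 q + η1 q)) = fun q => (G q + η0 q) + η1 q := by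
            funext q; rw [add_assoc]
          rw [e]
          exact this
    exact main t (Finset.Subset.refl t)

end Closed

end Vale.Agent.P205.Top
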